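import Vale.Agent.P299.H956.D1.Imm
import Mathlib.Geometry.Manifold.VectorField.LieBracket
import Mathlib.Geometry.Manifold.VectorBundle.Tangent

/-! From the tangent bundle of Mathlib to components in charts. -/

open scoped Manifold ContDiff ComplexOrder Topology Matrix
open Complex Vale.Agent.P272.K Vale.Agent.P299.D Bundle

set_option linter.all false

noncomputable section

namespace Vale.Agent.P299.H956

section
variable {d n : ℕ} {N X : Type*} [TopologicalSpace N] [TopologicalSpace X]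
  [ChartedSpace (Cm d) N] [ChartedSpace (Cm n) X]
  [IsManifold 𝓘(ℂ, Cm d) ω N] [IsManifold 𝓘(ℂ, Cm n) ω X] {f : N → X} {y : N}

/-- the manifold derivative is the Jacobian matrix in the preferred charts -/
lemma mfderiv_eq_jacF (hf : ContMDiffAt 𝓘(ℂ, Cm d) 𝓘(ℂ, Cm n) ω f y) (v : Cm d) :
    (mfderiv 𝓘(ℂ, Cm d) 𝓘(ℂ, Cm n) f y : Cm d →L[ℂ] Cm n) v =
      (jacF f (chartAt (Cm d) y) (chartAt (Cm n) (f y)) y).mulVec v := by
  have h1 : MDifferentiableAt 𝓘(ℂ, Cm d) 𝓘(ℂ, Cm n) f y := hf.mdifferentiableAt (by simp)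
  rw [h1.mfderiv]
  have h2 := jmR_mulVec (rep_diff hf (at_chartAt y) (at_chartAt (f y))) v
  rw [jacF_eq, ← h2]
  simp only [mfld_simps, fderivWithin_univ]
  rfl

/-- the derivative of a chart -/
lemma mfderiv_chart {e : Chart n X} {x : X} (h : At e x) (v : Cm n) :
    (mfderiv 𝓘(ℂ, Cm n) 𝓘(ℂ, Cm n) e x : Cm n →L[ℂ] Cm n) v =
      (jacM (chartAt (Cm n) x) e x).mulVec v := by
  have h0 : ContMDiffAt 𝓘(ℂ, Cm n) 𝓘(ℂ, Cm n) ω e x := chart_contMDiffAt h
  have h1 := h0.mdifferentiableAt (n := ω) (by simp)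
  rw [h1.mfderiv]
  have h2 := jmR_mulVec (transition_differentiableAt (at_chartAt x) h) v
  rw [jacM_eq, ← jmR_eq_jmat, ← h2]
  simp only [mfld_simps, fderivWithin_univ]
  rfl

end

section
variable {n : ℕ} {X : Type*} [TopologicalSpace X] [ChartedSpace (Cm n) X]
  [IsManifold 𝓘(ℂ, Cm n) ω X]

/-- the components of a vector field in the charts -/
def toVF (V : ∀ x : X, TangentSpace 𝓘(ℂ, Cm n) x) : VField n X := fun e z =>
  (jacM (chartAt (Cm n) (e.symm z)) e (e.symm z)).mulVec (V (e.symm z) : Cm n)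

/-- the vector field with given components -/
def ofVF (v : VField n X) : ∀ x : X, TangentSpace 𝓘(ℂ, Cm n) x := fun x =>
  v (chartAt (Cm n) x) (chartAt (Cm n) x x)

set_option backward.isDefEq.respectTransparency false in
lemma toVF_change (V : ∀ x : X, TangentSpace 𝓘(ℂ, Cm n) x) {e e' : Chart n X} {x : X}
    (h : At e x) (h' : At e' x) :
    toVF V e' (e' x) = (jacM e e' x).mulVec (toVF V e (e x)) := by
  unfold toVF
  rw [h.left_inv, h'.left_inv, Matrix.mulVec_mulVec, ← jacM_comp (at_chartAt x) h h']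

set_option backward.isDefEq.respectTransparency false in
lemma toVF_chartAt (V : ∀ x : X, TangentSpace 𝓘(ℂ, Cm n) x) (x : X) :
    toVF V (chartAt (Cm n) x) (chartAt (Cm n) x x) = V x := by
  unfold toVF
  rw [(at_chartAt x).left_inv, jacM_self (at_chartAt x), Matrix.one_mulVec]

/-- the second component in the trivialization at `x₀` -/
lemma triv_snd {x₀ x : X} (hx : x ∈ (chartAt (Cm n) x₀).source)
    (V : ∀ x : X, TangentSpace 𝓘(ℂ, Cm n) x) :
    (trivializationAt (Cm n) (TangentSpace 𝓘(ℂ, Cm n)) x₀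
      (⟨x, V x⟩ : TangentBundle 𝓘(ℂ, Cm n) X)).2 = toVF V (chartAt (Cm n) x₀) (chartAt (Cm n) x₀ x) := by
  have hat : At (chartAt (Cm n) x₀) x := ⟨chart_mem_atlas _ _, hx⟩
  have h1 := TangentBundle.continuousLinearMapAt_trivializationAt (𝕜 := ℂ) (I := 𝓘(ℂ, Cm n)) hx
  have h2 := mfderiv_chart hat (V x)
  unfold toVF
  rw [hat.left_inv, ← h2]
  have h3 : (trivializationAt (Cm n) (TangentSpace 𝓘(ℂ, Cm n)) x₀
      (⟨x, V x⟩ : TangentBundle 𝓘(ℂ, Cm n) X)).2 =
      (trivializationAt (Cm n) (TangentSpace 𝓘(ℂ, Cm n)) x₀).continuousLinearMapAt ℂ x (V x) := by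
    rw [Trivialization.continuousLinearMapAt_apply, Trivialization.linearMapAt_apply, if_pos]
    exact hx
  rw [h3, h1]
  simp only [mfld_simps]
  rfl

/-- holomorphic sections of the tangent bundle, in the preferred chart -/
lemma contMDiffAt_section_iff {V : ∀ x : X, TangentSpace 𝓘(ℂ, Cm n) x} {x : X} :
    ContMDiffAt 𝓘(ℂ, Cm n) 𝓘(ℂ, Cm n).tangent ω
      (fun x => (⟨x, V x⟩ : TangentBundle 𝓘(ℂ, Cm n) X)) x ↔
    AnalyticAt ℂ (toVF V (chartAt (Cm n) x)) (chartAt (Cm n) x x) := by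
  have hat := at_chartAt (n := n) x
  set c := chartAt (Cm n) x with hc
  rw [Bundle.contMDiffAt_section]
  have h1 : (fun y => (trivializationAt (Cm n) (TangentSpace 𝓘(ℂ, Cm n)) x
      (⟨y, V y⟩ : TangentBundle 𝓘(ℂ, Cm n) X)).2) =ᶠ[𝓝 x] fun y => toVF V c (c y) := by
    filter_upwards [c.open_source.mem_nhds hat.2] with y hy using triv_snd hy V
  constructor
  · intro h
    have h2 : ContMDiffAt 𝓘(ℂ, Cm n) 𝓘(ℂ, Cm n) ω (fun y => toVF V c (c y)) x :=
      h.congr_of_eventuallyEq h1.symm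
    have h3 : ContMDiffAt 𝓘(ℂ, Cm n) 𝓘(ℂ, Cm n) ω (fun z => toVF V c (c (c.symm z))) (c x) := by
      refine ContMDiffAt.comp (c x) (g := fun y => toVF V c (c y)) ?_
        (chart_symm_contMDiffAt hat.1 hat.mem_target)
      rw [hat.left_inv]; exact h2
    have h4 : ContDiffAt ℂ ω (toVF V c) (c x) := by
      rw [← contMDiffAt_iff_contDiffAt]
      refine h3.congr_of_eventuallyEq ?_
      filter_upwards [hat.nhds_target] with z hz
      rw [c.right_inv hz]
    exact h4.analyticAt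
  · intro h
    have h4 : ContMDiffAt 𝓘(ℂ, Cm n) 𝓘(ℂ, Cm n) ω (toVF V c) (c x) := by
      rw [contMDiffAt_iff_contDiffAt]
      exact h.contDiffAt
    have h5 : ContMDiffAt 𝓘(ℂ, Cm n) 𝓘(ℂ, Cm n) ω (fun y => toVF V c (c y)) x :=
      ContMDiffAt.comp x h4 (chart_contMDiffAt hat)
    exact h5.congr_of_eventuallyEq h1

lemma analyticAt_toVF {V : ∀ x : X, TangentSpace 𝓘(ℂ, Cm n) x} {x : X}
    (hV : ContMDiffAt 𝓘(ℂ, Cm n) 𝓘(ℂ, Cm n).tangent ω
      (fun x => (⟨x, V x⟩ : TangentBundle 𝓘(ℂ, Cm n) X)) x) {e : Chart n X} (h : At e x) :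
    AnalyticAt ℂ (toVF V e) (e x) := by
  have hat := at_chartAt (n := n) x
  set c := chartAt (Cm n) x with hc
  have h1 := contMDiffAt_section_iff.1 hV
  have h2 : toVF V e =ᶠ[𝓝 (e x)] fun z => (jacM c e (c.symm (c (e.symm z)))).mulVec
      (toVF V c (c (e.symm z))) := by
    filter_upwards [h.nhds_at hat] with z hz
    have := toVF_change V hz.2.2 hz.2.1
    rw [e.right_inv hz.1] at this
    rw [this, hz.2.2.left_inv]
  refine AnalyticAt.congr ?_ h2.symm
  have h3 : AnalyticAt ℂ (fun z => c (e.symm z)) (e x) :=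
    (transition h hat).analyticAt
  have h4 : ∀ p i, AnalyticAt ℂ (fun z => jacM c e (c.symm (c (e.symm z))) p i) (e x) := by
    intro p i
    refine AnalyticAt.comp' (g := fun z => jacM c e (c.symm z) p i) ?_ h3
    rw [h.left_inv]
    exact (jacM_holo hat h p i).analyticAt
  have h5 : AnalyticAt ℂ (fun z => toVF V c (c (e.symm z))) (e x) := by
    refine AnalyticAt.comp' (g := toVF V c) ?_ h3
    rw [h.left_inv]
    exact h1
  rw [analyticAt_pi_iff]
  intro p
  simp only [Matrix.mulVec, dotProduct]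
  exact Finset.analyticAt_fun_sum _ fun i _ => (h4 p i).mul ((analyticAt_pi_iff.1 h5) i)

/-- the section with holomorphic components -/
lemma contMDiff_ofVF {v : VField n X} (hv : IsHolVF v) : ContMDiff 𝓘(ℂ, Cm n) 𝓘(ℂ, Cm n).tangent ω
      (fun x => (⟨x, ofVF v x⟩ : TangentBundle 𝓘(ℂ, Cm n) X)) := by
  intro x
  rw [contMDiffAt_section_iff]
  have hat := at_chartAt (n := n) x
  refine (hv.holo _ x hat).congr ?_
  filter_upwards [hat.nhds_target] with z hz
  have hz' := At.of_target hat.1 hz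
  have h1 := hv.change _ _ _ (at_chartAt ((chartAt (Cm n) x).symm z)) hz'
  rw [(chartAt (Cm n) x).right_inv hz] at h1
  exact h1

set_option backward.isDefEq.respectTransparency false in
/-- the Lie bracket in the preferred chart -/
lemma mlieBracket_chart {V W : ∀ x : X, TangentSpace 𝓘(ℂ, Cm n) x} (x : X) :
    (VectorField.mlieBracket 𝓘(ℂ, Cm n) V W x : Cm n) =
      fderiv ℂ (toVF W (chartAt (Cm n) x)) (chartAt (Cm n) x x)
          (toVF V (chartAt (Cm n) x) (chartAt (Cm n) x x)) -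
        fderiv ℂ (toVF V (chartAt (Cm n) x)) (chartAt (Cm n) x x)
          (toVF W (chartAt (Cm n) x) (chartAt (Cm n) x x)) := by
  have hat := at_chartAt (n := n) x
  set c := chartAt (Cm n) x with hc
  have key : ∀ V : ∀ x : X, TangentSpace 𝓘(ℂ, Cm n) x,
      VectorField.mpullbackWithin 𝓘(ℂ, Cm n) 𝓘(ℂ, Cm n) (extChartAt 𝓘(ℂ, Cm n) x).symm V
        (Set.range 𝓘(ℂ, Cm n)) =ᶠ[𝓝 (c x)] toVF V c := by
    intro V
    filter_upwards [hat.nhds_target] with z hz
    have hz' := At.of_target hat.1 hz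
    have hz2 : z ∈ (extChartAt 𝓘(ℂ, Cm n) x).target := by simpa [extChartAt] using hz
    rw [VectorField.mpullbackWithin_apply]
    have h1 := mfderiv_extChartAt_comp_mfderivWithin_extChartAt_symm (I := 𝓘(ℂ, Cm n)) hz2
    have h2 := mfderivWithin_extChartAt_symm_comp_mfderiv_extChartAt (I := 𝓘(ℂ, Cm n)) hz2
    rw [ContinuousLinearMap.inverse_eq h2 h1]
    have h3 := mfderiv_chart hz' (V (c.symm z))
    exact h3
  rw [VectorField.mlieBracket, VectorField.mlieBracketWithin_apply]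
  have hinv : (mfderiv 𝓘(ℂ, Cm n) 𝓘(ℂ, Cm n) (extChartAt 𝓘(ℂ, Cm n) x) x).inverse =
      ContinuousLinearMap.id ℂ (Cm n) := by
    have h1 : (mfderiv 𝓘(ℂ, Cm n) 𝓘(ℂ, Cm n) (extChartAt 𝓘(ℂ, Cm n) x) x : Cm n →L[ℂ] Cm n) =
        ContinuousLinearMap.id ℂ (Cm n) := by
      ext1 v
      have := mfderiv_chart hat v
      rw [← hc, jacM_self hat, Matrix.one_mulVec] at this
      exact this
    have h2 := congrArg (fun L : Cm n →L[ℂ] Cm n => L.inverse) h1
    refine h2.trans ?_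
    exact ContinuousLinearMap.inverse_id
  have h5 := congrArg (fun L : Cm n →L[ℂ] Cm n => L (VectorField.lieBracketWithin ℂ
      (VectorField.mpullbackWithin 𝓘(ℂ, Cm n) 𝓘(ℂ, Cm n) (extChartAt 𝓘(ℂ, Cm n) x).symm V
        (Set.range 𝓘(ℂ, Cm n)))
      (VectorField.mpullbackWithin 𝓘(ℂ, Cm n) 𝓘(ℂ, Cm n) (extChartAt 𝓘(ℂ, Cm n) x).symm W
        (Set.range 𝓘(ℂ, Cm n)))
      ((extChartAt 𝓘(ℂ, Cm n) x).symm ⁻¹' Set.univ ∩ Set.range 𝓘(ℂ, Cm n))
      (extChartAt 𝓘(ℂ, Cm n) x x))) hinv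
  refine h5.trans ?_
  show VectorField.lieBracketWithin ℂ _ _ _ _ = _
  have h6 : ((extChartAt 𝓘(ℂ, Cm n) x).symm ⁻¹' Set.univ ∩ Set.range 𝓘(ℂ, Cm n)) = Set.univ := by
    simp
  rw [h6, VectorField.lieBracketWithin_univ]
  have h7 : (extChartAt 𝓘(ℂ, Cm n) x) x = c x := by simp [extChartAt, hc]
  rw [h7, VectorField.lieBracket_eq]
  show fderiv ℂ _ (c x) _ - fderiv ℂ _ (c x) _ = _
  rw [(key W).fderiv_eq, (key V).fderiv_eq, (key W).self_of_nhds, (key V).self_of_nhds]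

end

end Vale.Agent.P299.H956
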