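import Vale.Agent.P299.H956.D1.Pull

/-! Pull backs of Kähler metrics by holomorphic immersions; the Ricci form. -/

open scoped Manifold ContDiff ComplexOrder Topology
open Complex Vale.Agent.P272.K Vale.Agent.P299.D

set_option linter.all false

noncomputable section

namespace Vale.Agent.P299.H956

/-- the Jacobian matrices of `f` are injective -/
def Immersive (d n : ℕ) {N X : Type*} [TopologicalSpace N] [TopologicalSpace X]
    [ChartedSpace (Cm d) N] [ChartedSpace (Cm n) X] (f : N → X) : Prop :=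
  ∀ (e : Chart d N) (e' : Chart n X) (y : N), At e y → At e' (f y) → ∀ u : Cm d,
    (jacF f e e' y).mulVec u = 0 → u = 0

/-- pull back of a function-valued matrix by a rectangular Jacobian, pointwise -/
lemma pull_posDef {d n : ℕ} {J : Matrix (Fin n) (Fin d) ℂ} {w : Matrix (Fin n) (Fin n) ℂ}
    (hw : w.PosDef) (hJ : ∀ u : Cm d, J.mulVec u = 0 → u = 0) :
    (J.transpose * w * J.map (starRingEnd ℂ)).PosDef := by
  have h1 : J.transpose = (J.map (starRingEnd ℂ)).conjTranspose := by
    ext i j
    simp [Matrix.conjTranspose_apply]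
  rw [h1]
  refine hw.conjTranspose_mul_mul_same ?_
  intro u v huv
  have h2 : (J.map (starRingEnd ℂ)).mulVec (u - v) = 0 := by
    rw [Matrix.mulVec_sub, sub_eq_zero]; exact huv
  have h3 : J.mulVec (fun i => (starRingEnd ℂ) ((u - v) i)) = 0 := by
    funext p
    have h4 := congrArg (starRingEnd ℂ) (congrFun h2 p)
    simp only [Matrix.mulVec, dotProduct, Matrix.map_apply, map_sum, map_mul, starRingEnd_self_apply,
      Pi.zero_apply, map_zero] at h4 ⊢
    exact h4
  have h5 := hJ _ h3
  funext i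
  have h6 := congrFun h5 i
  simp only [Pi.zero_apply, map_eq_zero, Pi.sub_apply] at h6
  exact sub_eq_zero.1 h6

section
variable {d n : ℕ} {N X : Type*} [TopologicalSpace N] [TopologicalSpace X]
  [ChartedSpace (Cm d) N] [ChartedSpace (Cm n) X]
  [IsManifold 𝓘(ℂ, Cm d) ω N] [IsManifold 𝓘(ℂ, Cm n) ω X] {f : N → X} {w : FormM n X}

lemma isHermitian_pullM (hw : IsHermitian w) (hf : ContMDiff 𝓘(ℂ, Cm d) 𝓘(ℂ, Cm n) ω f)
    (hi : Immersive d n f) : IsHermitian (pullM f w : FormM d N) where
  smooth e y h i j := smooth_pullM hw.isForm hw.smooth hf.contMDiffAt h i j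
  posDef e y h := by
    have hc := at_chartAt (n := n) (f y)
    rw [pullM_eq hw.isForm (hf.contMDiffAt : ContMDiffAt 𝓘(ℂ, Cm d) 𝓘(ℂ, Cm n) ω f y) h hc]
    exact pull_posDef (hw.posDef _ _ hc) (hi e _ y h hc)
  change := isForm_pullM hw.isForm hf

/-- closedness of a pull back, in coordinates -/
lemma closed_comp {τ : Cm d → Cm n} {b : Cm n → Matrix (Fin n) (Fin n) ℂ} {z : Cm d}
    (hτ : ContDiffAt ℂ ω τ z) (hb : ∀ i j, DifferentiableAt ℝ (fun y => b y i j) (τ z))
    (hc : ∀ i j k, dz k (fun y => b y i j) (τ z) = dz i (fun y => b y k j) (τ z))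
    (i j k : Fin d) :
    dz k (fun y => ((jmR τ y).transpose * b (τ y) * (jmR τ y).map (starRingEnd ℂ)) i j) z =
      dz i (fun y => ((jmR τ y).transpose * b (τ y) * (jmR τ y).map (starRingEnd ℂ)) k j) z := by
  have hτd : DifferentiableAt ℂ τ z := hτ.differentiableAt (by simp)
  have hJ : ∀ p i, DifferentiableAt ℝ (fun y => jmR τ y p i) z := fun p i =>
    ((jmR_holo hτ p i).differentiableAt (by simp)).restrictScalars ℝ
  have hJc : ∀ p i, DifferentiableAt ℝ (fun y => cj (jmR τ y p i)) z := fun p i =>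
    Complex.conjCLE.differentiableAt.comp z (hJ p i)
  have hbc : ∀ p q, DifferentiableAt ℝ (fun y => b (τ y) p q) z := fun p q =>
    (hb p q).comp z (hτd.restrictScalars ℝ)
  have hexp : ∀ i k, dz k (fun y => ((jmR τ y).transpose * b (τ y) *
      (jmR τ y).map (starRingEnd ℂ)) i j) z = ∑ q, ∑ p,
        (dz k (fun y => jmR τ y p i) z * b (τ z) p q +
          jmR τ z p i * ∑ r, dz r (fun y => b y p q) (τ z) * jmR τ z r k) * cj (jmR τ z q j) := by
    intro i k
    have h0 : (fun y => ((jmR τ y).transpose * b (τ y) * (jmR τ y).map (starRingEnd ℂ)) i j) =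
        fun y => ∑ q, ∑ p, jmR τ y p i * b (τ y) p q * cj (jmR τ y q j) := by
      funext y
      simp only [Matrix.mul_apply, Matrix.transpose_apply, Matrix.map_apply, Finset.sum_mul]
    rw [h0, dz_sum (F := fun q y => ∑ p, jmR τ y p i * b (τ y) p q * cj (jmR τ y q j)) Finset.univ
      fun q _ => DifferentiableAt.fun_sum fun p _ => ((hJ p i).mul (hbc p q)).mul (hJc q j)]
    refine Finset.sum_congr rfl fun q _ => ?_
    rw [dz_sum (F := fun p y => jmR τ y p i * b (τ y) p q * cj (jmR τ y q j)) Finset.univ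
      fun p _ => ((hJ p i).mul (hbc p q)).mul (hJc q j)]
    refine Finset.sum_congr rfl fun p _ => ?_
    have e1 : DifferentiableAt ℝ (fun y => jmR τ y p i * b (τ y) p q) z := (hJ p i).mul (hbc p q)
    rw [dz_mul e1 (hJc q j), dz_mul (hJ p i) (hbc p q), dz_cj (hJ q j),
      dzb_of_holo ((jmR_holo hτ q j).differentiableAt (by simp)),
      dz_compR (f := fun y => b y p q) (hb p q) hτd]
    simp
  rw [hexp, hexp]
  refine Finset.sum_congr rfl fun q _ => ?_
  rw [← Finset.sum_mul, ← Finset.sum_mul]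
  congr 1
  rw [Finset.sum_add_distrib, Finset.sum_add_distrib]
  congr 1
  · refine Finset.sum_congr rfl fun p _ => ?_
    congr 1
    show dz k (dz i fun y => τ y p) z = dz i (dz k fun y => τ y p) z
    refine dz_dz_comm ?_
    exact ((contDiffAt_pi.1 hτ p).restrict_scalars ℝ).of_le (by exact le_top)
  · simp only [Finset.mul_sum]
    rw [Finset.sum_comm]
    refine Finset.sum_congr rfl fun r _ => Finset.sum_congr rfl fun p _ => ?_
    rw [hc p q r]
    ring

lemma isKahler_pullM (hw : IsKahler w) (hf : ContMDiff 𝓘(ℂ, Cm d) 𝓘(ℂ, Cm n) ω f)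
    (hi : Immersive d n f) : IsKahler (pullM f w : FormM d N) where
  toIsHermitian := isHermitian_pullM hw.toIsHermitian hf hi
  closed e y h i j k := by
    have hc := at_chartAt (n := n) (f y)
    set c := chartAt (Cm n) (f y)
    have hf' : ContMDiffAt 𝓘(ℂ, Cm d) 𝓘(ℂ, Cm n) ω f y := hf.contMDiffAt
    have h1 := pullM_eventually hw.isForm hf' h hc
    have hτ := rep_hol hf' h hc
    have e1 : ∀ i j, (fun z => pullM f w e z i j) =ᶠ[𝓝 (e y)] fun z =>
        (((jmR (fun z => c (f (e.symm z))) z).transpose * w c (c (f (e.symm z))) *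
          (jmR (fun z => c (f (e.symm z))) z).map (starRingEnd ℂ)) i j) := by
      intro i j
      filter_upwards [h1] with z hz
      rw [hz]
    rw [dz_congr (e1 i j), dz_congr (e1 k j)]
    have hy : c (f (e.symm (e y))) = c (f y) := by rw [h.left_inv]
    refine closed_comp (τ := fun z => c (f (e.symm z))) (b := fun z => w c z) hτ ?_ ?_ i j k
    · intro i j
      simp only [hy]
      exact (hw.smooth c (f y) hc i j).differentiableAt (by simp)
    · intro i j k
      simp only [hy]
      exact hw.closed c (f y) hc i j k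

end

section
variable {n : ℕ} {N X : Type*} [TopologicalSpace N] [TopologicalSpace X]
  [ChartedSpace (Cm n) N] [ChartedSpace (Cm n) X]
  [IsManifold 𝓘(ℂ, Cm n) ω N] [IsManifold 𝓘(ℂ, Cm n) ω X] {f : N → X} {w : FormM n X}

lemma det_inj {J : Matrix (Fin n) (Fin n) ℂ} (hJ : ∀ u : Cm n, J.mulVec u = 0 → u = 0) :
    J.det ≠ 0 := by
  intro h0
  obtain ⟨u, hu, h⟩ := Matrix.exists_mulVec_eq_zero_iff.2 h0
  exact hu (hJ u h)

lemma jmR_det_holo {τ : Cm n → Cm n} {z : Cm n} (hτ : ContDiffAt ℂ ω τ z) :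
    ContDiffAt ℂ ω (fun y => (jmR τ y).det) z := by
  have : (fun y => (jmR τ y).det) = fun y => ∑ σ : Equiv.Perm (Fin n),
      (Equiv.Perm.sign σ : ℂ) * ∏ i, jmR τ y (σ i) i := by
    funext z; rw [Matrix.det_apply']
  rw [this]
  exact ContDiffAt.sum fun σ _ => contDiffAt_const.mul (contDiffAt_prod fun i _ => jmR_holo hτ _ _)

/-- the Ricci form of a pull back by a local biholomorphism, computed with any chart at `f y` -/
lemma ric_local (hw : IsHermitian w) (hf : ContMDiff 𝓘(ℂ, Cm n) 𝓘(ℂ, Cm n) ω f)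
    (hi : Immersive n n f) {e : Chart n N} {y : N} (h : At e y) {c : Chart n X} (hc : At c (f y)) :
    ric (pullM f w) e (e y) = (jacF f e c y).transpose * ric w c (c (f y)) *
      (jacF f e c y).map (starRingEnd ℂ) := by
  have hf' : ContMDiffAt 𝓘(ℂ, Cm n) 𝓘(ℂ, Cm n) ω f y := hf.contMDiffAt
  have hτ := rep_hol hf' h hc
  have hy : c (f (e.symm (e y))) = c (f y) := by rw [h.left_inv]
  have h0 : (jmR (fun z => c (f (e.symm z))) (e y)).det ≠ 0 := det_inj (hi e c y h hc)
  have hdh := jmR_det_holo hτ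
  -- near `e y`
  have hne : ∀ᶠ z in 𝓝 (e y), (jmR (fun z => c (f (e.symm z))) z).det ≠ 0 :=
    hdh.continuousAt.eventually_ne h0
  have hev : (fun z => Real.log (pullM f w e z).det.re) =ᶠ[𝓝 (e y)] fun z =>
      Real.log (w c (c (f (e.symm z)))).det.re +
        Real.log (‖(jmR (fun z => c (f (e.symm z))) z).det‖ ^ 2) := by
    filter_upwards [pullM_eventually hw.isForm hf' h hc, hne, nhds_at_map hf'.continuousAt h hc]
      with z hz hz0 hz2
    rw [hz, Matrix.det_mul, Matrix.det_mul, Matrix.det_transpose]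
    have h1 : ((jmR (fun z => c (f (e.symm z))) z).map (starRingEnd ℂ)).det =
        (starRingEnd ℂ) (jmR (fun z => c (f (e.symm z))) z).det := by
      have := (RingHom.map_det (starRingEnd ℂ) (jmR (fun z => c (f (e.symm z))) z))
      rw [this]; rfl
    rw [h1]
    set a := (jmR (fun z => c (f (e.symm z))) z).det
    have hpos := (hw.posDef c (f (e.symm z)) hz2.2.2).det_pos
    set D := (w c (c (f (e.symm z)))).det
    have h2 : (a * D * (starRingEnd ℂ) a).re = D.re * ‖a‖ ^ 2 := by
      rw [mul_right_comm, Complex.mul_conj, Complex.normSq_eq_norm_sq, Complex.re_ofReal_mul,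
        mul_comm]
    rw [h2, Real.log_mul (Complex.pos_iff.1 hpos).1.ne' (by positivity)]
  unfold ric
  rw [cHess_congr hev]
  have hs : ContDiffAt ℝ 2 (fun z => Real.log (w c z).det.re) (c (f y)) := by
    refine ContDiffAt.log ?_ (Complex.pos_iff.1 (hw.posDef c (f y) hc).det_pos).1.ne'
    exact Complex.reCLM.contDiff.contDiffAt.comp _
      (contDiffAt_det fun i j => (hw.smooth c (f y) hc i j).of_le (by norm_cast))
  have hτ2 : ContDiffAt ℝ 2 (fun z => c (f (e.symm z))) (e y) :=
    (hτ.restrict_scalars ℝ).of_le (by exact le_top)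
  have hs1 : ContDiffAt ℝ 2 (fun z => Real.log (w c (c (f (e.symm z)))).det.re) (e y) :=
    ContDiffAt.comp (e y) (g := fun z => Real.log (w c z).det.re)
      (f := fun z => c (f (e.symm z))) (by rw [hy]; exact hs) hτ2
  have hs2 : ContDiffAt ℝ 2
      (fun z => Real.log (‖(jmR (fun z => c (f (e.symm z))) z).det‖ ^ 2)) (e y) := by
    have hd : ContDiffAt ℝ 2 (fun y => (jmR (fun z => c (f (e.symm z))) y).det) (e y) :=
      (hdh.restrict_scalars ℝ).of_le (by exact le_top)
    exact (hd.norm_sq ℝ).log (pow_ne_zero 2 (norm_ne_zero_iff.2 h0))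
  rw [cHess_add hs1 hs2, cHess_log_norm_sq hdh h0, add_zero,
    cHess_compR (τ := fun z => c (f (e.symm z))) (f := fun z => Real.log (w c z).det.re)
      (by rw [hy]; exact hs) hτ, hy, jacF_eq]
  simp only [Matrix.mul_neg, Matrix.neg_mul]

/-- the Ricci form is a form -/
lemma isForm_ric (hw : IsHermitian w) : IsForm (ric w : FormM n X) := by
  intro e e' x h h'
  have h1 : Immersive n n (fun x : X => x) := by
    intro e e' y he he' u hu
    rw [jacF_id] at hu
    have h2 := congrArg (jacM e' e y).mulVec hu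
    rwa [Matrix.mulVec_mulVec, jacM_mul he he', Matrix.one_mulVec, Matrix.mulVec_zero] at h2
  have h2 := ric_local (f := fun x : X => x) hw contMDiff_id h1 (c := e') h h'
  -- the identity of `X`
  have h3 : (fun z => Real.log (pullM (fun x : X => x) w e z).det.re) =ᶠ[𝓝 (e x)]
      fun z => Real.log (w e z).det.re := by
    filter_upwards [h.nhds_target] with z hz
    have := pullM_id hw.isForm (At.of_target h.1 hz)
    rw [e.right_inv hz] at this
    rw [this]
  have h4 : ric (pullM (fun x : X => x) w) e (e x) = ric w e (e x) := by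
    unfold ric; rw [cHess_congr h3]
  rw [← h4, h2, jacF_id]

/-- the Ricci form of a pull back by a local biholomorphism -/
lemma ric_pullM (hw : IsHermitian w) (hf : ContMDiff 𝓘(ℂ, Cm n) 𝓘(ℂ, Cm n) ω f)
    (hi : Immersive n n f) {e : Chart n N} {y : N} (h : At e y) :
    ric (pullM f w) e (e y) = pullM f (ric w) e (e y) := by
  have hc := at_chartAt (n := n) (f y)
  rw [ric_local hw hf hi h hc,
    pullM_eq (isForm_ric hw) (hf.contMDiffAt : ContMDiffAt 𝓘(ℂ, Cm n) 𝓘(ℂ, Cm n) ω f y) h hc]

end

end Vale.Agent.P299.H956
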