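import Vale.Agent.P272.K.Inv.Consts

/-! Rectangular Wirtinger chain rules: holomorphic maps `Cm d → Cm n`. -/

open scoped Manifold ContDiff ComplexOrder Topology
open Complex Vale.Agent.P272.K

set_option linter.all false

noncomputable section

namespace Vale.Agent.P299.H956

variable {d n m : ℕ}

/-- Jacobian matrix `(∂τ_p/∂z_i)` of a map `Cm d → Cm n`. -/
def jmR (τ : Cm d → Cm n) (z : Cm d) : Matrix (Fin n) (Fin d) ℂ :=
  Matrix.of fun p i => dz i (fun y => τ y p) z

variable {f : Cm n → ℂ} {τ : Cm d → Cm n} {z : Cm d} {i j k : Fin d}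

lemma compR_apply (h : DifferentiableAt ℂ τ z) (p : Fin n) :
    DifferentiableAt ℂ (fun y => τ y p) z :=
  (differentiableAt_pi.1 h) p

lemma jmR_apply (h : DifferentiableAt ℂ τ z) (p : Fin n) (i : Fin d) :
    jmR τ z p i = (fderiv ℂ τ z (Pi.single i 1)) p := by
  unfold jmR
  rw [Matrix.of_apply, dz_of_holo (compR_apply h p)]
  rw [fderiv_apply h p]
  rfl

lemma jmR_mulVec (h : DifferentiableAt ℂ τ z) (v : Cm d) :
    fderiv ℂ τ z v = (jmR τ z).mulVec v := by
  funext p
  have hv : v = ∑ i, (v i) • (Pi.single i (1 : ℂ) : Cm d) := by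
    funext j
    simp only [Finset.sum_apply, Pi.smul_apply]
    rw [Finset.sum_eq_single j]
    · simp
    · intro b _ hb; simp [hb.symm]
    · simp
  conv_lhs => rw [hv]
  rw [map_sum, Finset.sum_apply]
  show _ = ∑ i, jmR τ z p i * v i
  refine Finset.sum_congr rfl fun i _ => ?_
  rw [map_smul, Pi.smul_apply, jmR_apply h, smul_eq_mul, mul_comm]

lemma fderiv_compR (hf : DifferentiableAt ℝ f (τ z)) (h : DifferentiableAt ℂ τ z) (v : Cm d) :
    fderiv ℝ (fun y => f (τ y)) z v = fderiv ℝ f (τ z) (fderiv ℂ τ z v) := by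
  have h1 : DifferentiableAt ℝ τ z := h.restrictScalars ℝ
  rw [show (fun y => f (τ y)) = f ∘ τ from rfl, fderiv_comp z hf h1]
  simp only [ContinuousLinearMap.comp_apply]
  rw [fderivR_of_holo h]

lemma jm_single (h : DifferentiableAt ℂ τ z) (i : Fin d) (p : Fin n) :
    fderiv ℂ τ z (Pi.single i 1) p = jmR τ z p i := (jmR_apply h p i).symm

lemma jm_singleI (h : DifferentiableAt ℂ τ z) (i : Fin d) (p : Fin n) :
    fderiv ℂ τ z (Pi.single i Complex.I) p = Complex.I * jmR τ z p i := by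
  have hs : (Pi.single i Complex.I : Cm d) = Complex.I • Pi.single i 1 := by
    rw [← Pi.single_smul]; simp
  rw [hs, map_smul, Pi.smul_apply, smul_eq_mul, jm_single h]

/-- chain rule -/
lemma dz_compR (hf : DifferentiableAt ℝ f (τ z)) (h : DifferentiableAt ℂ τ z) :
    dz i (fun y => f (τ y)) z = ∑ p, dz p f (τ z) * jmR τ z p i := by
  unfold dz
  rw [fderiv_compR hf h, fderiv_compR hf h, fderiv_eq, fderiv_eq]
  simp only [jm_single h, jm_singleI h]
  rw [Finset.mul_sum, ← Finset.sum_sub_distrib, Finset.sum_div]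
  refine Finset.sum_congr rfl fun p _ => ?_
  have h4 : cj (Complex.I * jmR τ z p i) = -Complex.I * cj (jmR τ z p i) := by simp [cj]
  rw [h4]
  have h5 : Complex.I * Complex.I = -1 := Complex.I_mul_I
  show _ = dz p f (τ z) * jmR τ z p i
  linear_combination (-(dz p f (τ z)) * jmR τ z p i / 2 + dzb p f (τ z) * cj (jmR τ z p i) / 2) * h5

lemma dzb_compR (hf : DifferentiableAt ℝ f (τ z)) (h : DifferentiableAt ℂ τ z) :
    dzb i (fun y => f (τ y)) z = ∑ p, dzb p f (τ z) * cj (jmR τ z p i) := by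
  unfold dzb
  rw [fderiv_compR hf h, fderiv_compR hf h, fderiv_eq, fderiv_eq]
  simp only [jm_single h, jm_singleI h]
  rw [Finset.mul_sum, ← Finset.sum_add_distrib, Finset.sum_div]
  refine Finset.sum_congr rfl fun p _ => ?_
  have h4 : cj (Complex.I * jmR τ z p i) = -Complex.I * cj (jmR τ z p i) := by simp [cj]
  rw [h4]
  have h5 : Complex.I * Complex.I = -1 := Complex.I_mul_I
  show _ = dzb p f (τ z) * cj (jmR τ z p i)
  linear_combination (dz p f (τ z) * jmR τ z p i / 2 - dzb p f (τ z) * cj (jmR τ z p i) / 2) * h5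

lemma jmR_comp {σ : Cm n → Cm m} (hσ : DifferentiableAt ℂ σ (τ z))
    (hτ : DifferentiableAt ℂ τ z) :
    jmR (fun y => σ (τ y)) z = jmR σ (τ z) * jmR τ z := by
  ext p i
  have h1 : DifferentiableAt ℝ (fun y => σ y p) (τ z) :=
    (compR_apply hσ p).restrictScalars ℝ
  rw [Matrix.mul_apply]
  exact dz_compR (f := fun y => σ y p) h1 hτ

lemma jmR_congr {σ : Cm d → Cm n} (h : τ =ᶠ[𝓝 z] σ) : jmR τ z = jmR σ z := by
  ext p i
  exact dz_congr (by filter_upwards [h] with y hy; rw [hy])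

lemma jmR_eq_jmat (τ : Cm n → Cm n) (z : Cm n) : jmR τ z = jmat τ z := rfl

/-- entries of the Jacobian matrix of a holomorphic map are holomorphic -/
lemma jmR_holo (h : ContDiffAt ℂ ω τ z) (p : Fin n) (i : Fin d) :
    ContDiffAt ℂ ω (fun y => jmR τ y p i) z := by
  have h1 : ContDiffAt ℂ ω (fderiv ℂ τ) z := h.fderiv_right (m := ω) (by exact le_top)
  have h2 : ContDiffAt ℂ ω (fun y => (fderiv ℂ τ y (Pi.single i 1)) p) z := by
    have h3 : ContDiffAt ℂ ω (fun y => fderiv ℂ τ y (Pi.single i 1)) z :=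
      h1.clm_apply contDiffAt_const
    exact (contDiffAt_pi.1 h3) p
  refine h2.congr_of_eventuallyEq ?_
  have h4 : ∀ᶠ y in 𝓝 z, ContDiffAt ℂ ω τ y := h.eventually (by simp)
  filter_upwards [h4] with y hy
  exact jmR_apply (hy.differentiableAt (by simp)) p i

/-- Complex Hessian of a composition with a holomorphic map. -/
lemma cHess_compR {f : Cm n → ℝ} (hf : ContDiffAt ℝ 2 f (τ z)) (h : ContDiffAt ℂ ω τ z) :
    cHess (fun y => f (τ y)) z =
      (jmR τ z).transpose * cHess f (τ z) * (jmR τ z).map (starRingEnd ℂ) := by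
  have hF : ContDiffAt ℝ 2 (fun y => (f y : ℂ)) (τ z) := ofReal_contDiffAt hf
  have hev : ∀ᶠ y in 𝓝 z, ContDiffAt ℂ ω τ y := h.eventually (by simp)
  have hev2 : ∀ᶠ y in 𝓝 z, ContDiffAt ℝ 2 (fun y => (f y : ℂ)) (τ y) :=
    h.continuousAt.eventually (hF.eventually (by simp))
  ext j k
  rw [cHess_apply]
  have h1 : dzb k (fun y => ((f (τ y) : ℝ) : ℂ)) =ᶠ[𝓝 z]
      fun y => ∑ q, dzb q (fun y => (f y : ℂ)) (τ y) * cj (jmR τ y q k) := by
    filter_upwards [hev, hev2] with y hy hy2
    exact dzb_compR (f := fun y => (f y : ℂ)) (hy2.differentiableAt (by norm_num))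
      (hy.differentiableAt (by simp))
  rw [dz_congr h1]
  have hd1 : ∀ q, DifferentiableAt ℝ (fun y => dzb q (fun y => (f y : ℂ)) (τ y)) z := by
    intro q
    exact (differentiableAt_dzb hF).comp z ((h.differentiableAt (by simp)).restrictScalars ℝ)
  have hd2 : ∀ q, DifferentiableAt ℝ (fun y => jmR τ y q k) z := fun q =>
    ((jmR_holo h q k).differentiableAt (by simp)).restrictScalars ℝ
  have hd3 : ∀ q, DifferentiableAt ℝ (fun y => cj (jmR τ y q k)) z := by
    intro q
    exact Complex.conjCLE.differentiableAt.comp z (hd2 q)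
  rw [dz_sum (F := fun q y => dzb q (fun y => (f y : ℂ)) (τ y) * cj (jmR τ y q k)) Finset.univ
    fun q _ => (hd1 q).mul (hd3 q)]
  have h2 : ∀ q, dz j (fun y => dzb q (fun y => (f y : ℂ)) (τ y) * cj (jmR τ y q k)) z =
      ∑ p, jmR τ z p j * cHess f (τ z) p q * cj (jmR τ z q k) := by
    intro q
    rw [dz_mul (hd1 q) (hd3 q), dz_cj (hd2 q),
      dzb_of_holo ((jmR_holo h q k).differentiableAt (by simp)),
      dz_compR (differentiableAt_dzb hF) (h.differentiableAt (by simp))]
    simp only [cj, map_zero, mul_zero, add_zero]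
    rw [Finset.sum_mul]
    refine Finset.sum_congr rfl fun p _ => ?_
    rw [cHess_apply]; ring
  rw [Finset.sum_congr rfl fun q _ => h2 q]
  simp only [Matrix.mul_apply, Matrix.transpose_apply, Matrix.map_apply, Finset.sum_mul]

end Vale.Agent.P299.H956
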