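import Vale.Agent.P299.H956.D1.RJac
import Vale.Agent.P299.H723.D.Defs

/-! Pull backs of metrics and Jacobian matrices of holomorphic maps between manifolds. -/

open scoped Manifold ContDiff ComplexOrder Topology
open Complex Vale.Agent.P272.K Vale.Agent.P299.D

set_option linter.all false

noncomputable section

namespace Vale.Agent.P299.H956

variable {d n m : ℕ} {N X Z : Type*} [TopologicalSpace N] [TopologicalSpace X] [TopologicalSpace Z]
  [ChartedSpace (Cm d) N] [ChartedSpace (Cm n) X] [ChartedSpace (Cm m) Z]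
  {e e₁ e₂ : Chart d N} {e' e'₁ e'₂ : Chart n X} {e'' : Chart m Z} {y : N} {f : N → X} {g : X → Z}

lemma at_chartAt (x : X) : At (chartAt (Cm n) x) x := ⟨chart_mem_atlas _ _, mem_chart_source _ _⟩

lemma jacF_eq (f : N → X) (e : Chart d N) (e' : Chart n X) (y : N) :
    jacF f e e' y = jmR (fun z => e' (f (e.symm z))) (e y) := rfl

lemma jacF_id (e e' : Chart n X) (x : X) : jacF (fun x : X => x) e e' x = jacM e e' x := rfl

/-- near `e y`, `f (e.symm z)` stays in the domain of a chart at `f y` -/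
lemma nhds_at_map (hf : ContinuousAt f y) (h : At e y) (h' : At e' (f y)) :
    ∀ᶠ z in 𝓝 (e y), z ∈ e.target ∧ At e (e.symm z) ∧ At e' (f (e.symm z)) := by
  have h2 : ∀ᶠ z in 𝓝 (e y), f (e.symm z) ∈ e'.source := by
    have h3 : ContinuousAt (fun z => f (e.symm z)) (e y) := by
      refine ContinuousAt.comp (g := f) ?_ (e.continuousAt_symm h.mem_target)
      rw [h.left_inv]; exact hf
    refine h3.eventually (e'.open_source.mem_nhds ?_)
    show f (e.symm (e y)) ∈ e'.source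
    rw [h.left_inv]; exact h'.2
  filter_upwards [h.nhds_target, h2] with z hz hz'
  exact ⟨hz, At.of_target h.1 hz, ⟨h'.1, hz'⟩⟩

/-- the same at points near `e y` -/
lemma jacF_target (he : e ∈ atlas (Cm d) N) {z : Cm d} (hz : z ∈ e.target) :
    jacF f e e' (e.symm z) = jmR (fun z => e' (f (e.symm z))) z := by
  rw [jacF_eq, e.right_inv hz]

section hol
variable [IsManifold 𝓘(ℂ, Cm d) ω N] [IsManifold 𝓘(ℂ, Cm n) ω X] [IsManifold 𝓘(ℂ, Cm m) ω Z]

/-- the local representation of a holomorphic map -/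
lemma rep_hol (hf : ContMDiffAt 𝓘(ℂ, Cm d) 𝓘(ℂ, Cm n) ω f y) (h : At e y) (h' : At e' (f y)) :
    ContDiffAt ℂ ω (fun z => e' (f (e.symm z))) (e y) := by
  rw [← contMDiffAt_iff_contDiffAt]
  have h1 := chart_symm_contMDiffAt h.1 h.mem_target
  have h2 : ContMDiffAt 𝓘(ℂ, Cm d) 𝓘(ℂ, Cm n) ω (fun z => f (e.symm z)) (e y) := by
    refine ContMDiffAt.comp (e y) (g := f) ?_ h1
    rw [h.left_inv]
    exact hf
  refine ContMDiffAt.comp (e y) (g := e') ?_ h2
  rw [h.left_inv]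
  exact chart_contMDiffAt h'

lemma rep_diff (hf : ContMDiffAt 𝓘(ℂ, Cm d) 𝓘(ℂ, Cm n) ω f y) (h : At e y) (h' : At e' (f y)) :
    DifferentiableAt ℂ (fun z => e' (f (e.symm z))) (e y) :=
  (rep_hol hf h h').differentiableAt (by simp)

/-- the chain rule for Jacobian matrices -/
lemma jacF_comp (hf : ContMDiffAt 𝓘(ℂ, Cm d) 𝓘(ℂ, Cm n) ω f y)
    (hg : ContMDiffAt 𝓘(ℂ, Cm n) 𝓘(ℂ, Cm m) ω g (f y)) (h : At e y) (h' : At e' (f y))
    (h'' : At e'' (g (f y))) :
    jacF (fun y => g (f y)) e e'' y = jacF g e' e'' (f y) * jacF f e e' y := by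
  rw [jacF_eq, jacF_eq, jacF_eq]
  have h1 : (fun z => e'' (g (f (e.symm z)))) =ᶠ[𝓝 (e y)]
      fun z => e'' (g (e'.symm (e' (f (e.symm z))))) := by
    filter_upwards [nhds_at_map hf.continuousAt h h'] with z hz
    rw [hz.2.2.left_inv]
  rw [jmR_congr h1]
  have h2 : e' (f (e.symm (e y))) = e' (f y) := by rw [h.left_inv]
  have := jmR_comp (τ := fun z => e' (f (e.symm z))) (σ := fun z => e'' (g (e'.symm z))) (z := e y)
    (by rw [h2]; exact rep_diff hg h' h'') (rep_diff hf h h')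
  rw [this, h2]

omit [IsManifold 𝓘(ℂ, Cm m) ω Z] in
lemma jacF_left (hf : ContMDiffAt 𝓘(ℂ, Cm d) 𝓘(ℂ, Cm n) ω f y) (h₁ : At e₁ y) (h₂ : At e₂ y)
    (h' : At e' (f y)) : jacF f e₁ e' y = jacF f e₂ e' y * jacM e₁ e₂ y :=
  jacF_comp (f := fun y : N => y) (g := f) contMDiffAt_id hf h₁ h₂ h'

omit [IsManifold 𝓘(ℂ, Cm m) ω Z] in
lemma jacF_right (hf : ContMDiffAt 𝓘(ℂ, Cm d) 𝓘(ℂ, Cm n) ω f y) (h : At e y) (h₁ : At e'₁ (f y))
    (h₂ : At e'₂ (f y)) : jacF f e e'₂ y = jacM e'₁ e'₂ (f y) * jacF f e e'₁ y :=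
  jacF_comp (f := f) (g := fun y : X => y) hf contMDiffAt_id h h₁ h₂


lemma mcj_rect_mul {a b c : ℕ} (A : Matrix (Fin a) (Fin b) ℂ) (B : Matrix (Fin b) (Fin c) ℂ) :
    (A * B).map (starRingEnd ℂ) = A.map (starRingEnd ℂ) * B.map (starRingEnd ℂ) := by
  rw [Matrix.map_mul]

/-- the pull back can be computed with every chart at `f y` -/
lemma pullM_eq {w : FormM n X} (hw : IsForm w) (hf : ContMDiffAt 𝓘(ℂ, Cm d) 𝓘(ℂ, Cm n) ω f y)
    (h : At e y) (h' : At e' (f y)) : pullM f w e (e y) =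
      (jacF f e e' y).transpose * w e' (e' (f y)) * (jacF f e e' y).map (starRingEnd ℂ) := by
  unfold pullM
  rw [h.left_inv]
  have hc := at_chartAt (n := n) (f y)
  rw [jacF_right hf h h' hc, hw e' (chartAt (Cm n) (f y)) (f y) h' hc, mcj_rect_mul,
    Matrix.transpose_mul]
  simp only [Matrix.mul_assoc]

lemma pullM_eventually {w : FormM n X} (hw : IsForm w)
    (hf : ContMDiffAt 𝓘(ℂ, Cm d) 𝓘(ℂ, Cm n) ω f y) (h : At e y) (h' : At e' (f y)) :
    pullM f w e =ᶠ[𝓝 (e y)] fun z =>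
      (jmR (fun z => e' (f (e.symm z))) z).transpose * w e' (e' (f (e.symm z))) *
        (jmR (fun z => e' (f (e.symm z))) z).map (starRingEnd ℂ) := by
  have h1 : ∀ᶠ x in 𝓝 y, ContMDiffAt 𝓘(ℂ, Cm d) 𝓘(ℂ, Cm n) ω f x :=
    (contMDiffAt_iff_contMDiffAt_nhds (by simp)).1 hf
  have h2 : ∀ᶠ z in 𝓝 (e y), ContMDiffAt 𝓘(ℂ, Cm d) 𝓘(ℂ, Cm n) ω f (e.symm z) := by
    refine (e.continuousAt_symm h.mem_target).eventually ?_
    rw [h.left_inv]; exact h1
  filter_upwards [h2, nhds_at_map hf.continuousAt h h'] with z hz hz2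
  have := pullM_eq hw hz hz2.2.1 hz2.2.2
  rw [e.right_inv hz2.1] at this
  rw [this, jacF_target hz2.2.1.1 hz2.1]

/-- the pull back of a form is a form -/
lemma isForm_pullM {w : FormM n X} (hw : IsForm w) (hf : ContMDiff 𝓘(ℂ, Cm d) 𝓘(ℂ, Cm n) ω f) :
    IsForm (pullM f w : FormM d N) := by
  intro e₁ e₂ y h₁ h₂
  have hc : At (chartAt (Cm n) (f y)) (f y) := at_chartAt (n := n) (f y)
  have hf' : ContMDiffAt 𝓘(ℂ, Cm d) 𝓘(ℂ, Cm n) ω f y := hf.contMDiffAt
  have h3 := pullM_eq hw hf' h₁ hc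
  have h4 := pullM_eq hw hf' h₂ hc
  rw [h3, h4, jacF_left hf' h₁ h₂ hc, mcj_rect_mul, Matrix.transpose_mul]
  simp only [Matrix.mul_assoc]

/-- functoriality of the pull back -/
lemma pullM_comp {w : FormM m Z} (hw : IsForm w) (hf : ContMDiff 𝓘(ℂ, Cm d) 𝓘(ℂ, Cm n) ω f)
    (hg : ContMDiff 𝓘(ℂ, Cm n) 𝓘(ℂ, Cm m) ω g) (h : At e y) :
    pullM f (pullM g w : FormM n X) e (e y) = pullM (fun y => g (f y)) w e (e y) := by
  have hc := at_chartAt (n := n) (f y)
  have hc' := at_chartAt (n := m) (g (f y))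
  have hf' : ContMDiffAt 𝓘(ℂ, Cm d) 𝓘(ℂ, Cm n) ω f y := hf.contMDiffAt
  have hg' : ContMDiffAt 𝓘(ℂ, Cm n) 𝓘(ℂ, Cm m) ω g (f y) := hg.contMDiffAt
  have hgf : ContMDiffAt 𝓘(ℂ, Cm d) 𝓘(ℂ, Cm m) ω (fun y => g (f y)) y := hg'.comp y hf'
  rw [pullM_eq (isForm_pullM hw hg) hf' h hc, pullM_eq hw hg' hc hc', pullM_eq hw hgf h hc',
    jacF_comp hf' hg' h hc hc', mcj_rect_mul, Matrix.transpose_mul]
  simp only [Matrix.mul_assoc]

lemma pullM_id {w : FormM n X} (hw : IsForm w) {x : X} (h : At e' x) :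
    pullM (fun x : X => x) w e' (e' x) = w e' (e' x) := by
  rw [pullM_eq (f := fun x : X => x) hw contMDiffAt_id h h, jacF_id, jacM_self h]
  simp

/-- pulling back forms which agree at the points of the atlas -/
lemma pullM_congr {w w' : FormM n X} (hww : ∀ e x, At e x → w e (e x) = w' e (e x))
    (h : At e y) :
    pullM f w e (e y) = pullM f w' e (e y) := by
  unfold pullM
  rw [h.left_inv, hww _ _ (at_chartAt (f y))]

omit [IsManifold 𝓘(ℂ, Cm d) ω N] [IsManifold 𝓘(ℂ, Cm n) ω X] [IsManifold 𝓘(ℂ, Cm m) ω Z] in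
lemma IsForm_congr {w w' : FormM n X} (hww : ∀ e x, At e x → w e (e x) = w' e (e x))
    (hw : IsForm w) : IsForm w' := by
  intro e e' x h h'
  rw [← hww e x h, ← hww e' x h', hw e e' x h h']

lemma smooth_pullM {w : FormM n X} (hw : IsForm w)
    (hs : ∀ e x, At e x → ∀ i j, ContDiffAt ℝ ∞ (fun z => w e z i j) (e x))
    (hf : ContMDiffAt 𝓘(ℂ, Cm d) 𝓘(ℂ, Cm n) ω f y) (h : At e y) (i j : Fin d) :
    ContDiffAt ℝ ∞ (fun z => pullM f w e z i j) (e y) := by
  have hc := at_chartAt (n := n) (f y)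
  set c := chartAt (Cm n) (f y)
  have h1 := pullM_eventually hw hf h hc
  have hτ := rep_hol hf h hc
  have h3 : ContDiffAt ℝ ∞ (fun z => (((jmR (fun z => c (f (e.symm z))) z).transpose *
      w c (c (f (e.symm z))) * (jmR (fun z => c (f (e.symm z))) z).map (starRingEnd ℂ)) i j : ℂ))
      (e y) := by
    simp only [Matrix.mul_apply, Matrix.transpose_apply, Matrix.map_apply]
    have hJ : ∀ p i, ContDiffAt ℝ ∞ (fun z => jmR (fun z => c (f (e.symm z))) z p i) (e y) :=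
      fun p i => ((jmR_holo hτ p i).restrict_scalars ℝ).of_le (by exact le_top)
    refine ContDiffAt.sum fun q _ => ContDiffAt.mul (ContDiffAt.sum fun p _ => (hJ p i).mul ?_) ?_
    · refine ContDiffAt.comp (e y) (g := fun z => w c z p q) (f := fun z => c (f (e.symm z))) ?_
        ((hτ.restrict_scalars ℝ).of_le (by exact le_top))
      rw [h.left_inv]
      exact hs c (f y) hc p q
    · exact Complex.conjCLE.contDiff.contDiffAt.comp (e y) (hJ q j)
  refine h3.congr_of_eventuallyEq ?_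
  filter_upwards [h1] with z hz
  rw [hz]

end hol

end Vale.Agent.P299.H956
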