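import Vale.Agent.P299.H956.D1.Par0

/-! Pull back of endomorphism fields and vector fields by local biholomorphisms. -/

open scoped Manifold ContDiff ComplexOrder Topology Matrix
open Complex Vale.Agent.P272.K Vale.Agent.P299.D

set_option linter.all false

noncomputable section

namespace Vale.Agent.P299.H956

section
variable {n m : ℕ}

lemma analytic_det {M : Cm m → Matrix (Fin n) (Fin n) ℂ} {z : Cm m}
    (h : ∀ i j, AnalyticAt ℂ (fun y => M y i j) z) : AnalyticAt ℂ (fun y => (M y).det) z := by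
  simp only [Matrix.det_apply']
  exact Finset.analyticAt_fun_sum _ fun σ _ => analyticAt_const.mul
    (Finset.analyticAt_fun_prod _ fun i _ => h _ _)

lemma analytic_adj {M : Cm m → Matrix (Fin n) (Fin n) ℂ} {z : Cm m}
    (h : ∀ i j, AnalyticAt ℂ (fun y => M y i j) z) (i j : Fin n) :
    AnalyticAt ℂ (fun y => (M y).adjugate i j) z := by
  simp only [Matrix.adjugate_apply]
  refine analytic_det fun a b => ?_
  by_cases hab : a = j
  · subst hab
    simp only [Matrix.updateRow_self]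
    exact analyticAt_const
  · simp only [Matrix.updateRow_ne hab]
    exact h a b

lemma analytic_inv {M : Cm m → Matrix (Fin n) (Fin n) ℂ} {z : Cm m}
    (h : ∀ i j, AnalyticAt ℂ (fun y => M y i j) z) (h0 : (M z).det ≠ 0) (i j : Fin n) :
    AnalyticAt ℂ (fun y => (M y)⁻¹ i j) z := by
  have h1 : (fun y => (M y)⁻¹ i j) = fun y => ((M y).det)⁻¹ * (M y).adjugate i j := by
    funext y
    rw [Matrix.inv_def, Ring.inverse_eq_inv']
    rfl
  rw [h1]
  exact ((analytic_det h).inv h0).mul (analytic_adj h i j)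

lemma analytic_mulVec {k : ℕ} {M : Cm m → Matrix (Fin n) (Fin k) ℂ} {v : Cm m → Cm k} {z : Cm m}
    (h : ∀ i j, AnalyticAt ℂ (fun y => M y i j) z) (hv : AnalyticAt ℂ v z) :
    AnalyticAt ℂ (fun y => (M y).mulVec (v y)) z := by
  rw [analyticAt_pi_iff]
  intro i
  simp only [Matrix.mulVec, dotProduct]
  exact Finset.analyticAt_fun_sum _ fun j _ => (h i j).mul (analyticAt_pi_iff.1 hv j)

end

section
variable {n : ℕ} {N X : Type*} [TopologicalSpace N] [TopologicalSpace X]
  [ChartedSpace (Cm n) N] [ChartedSpace (Cm n) X]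

/-- pull back of an endomorphism field -/
def pullE (f : N → X) (B : FormM n X) : FormM n N := fun e z =>
  (jacF f e (chartAt (Cm n) (f (e.symm z))) (e.symm z))⁻¹ *
    B (chartAt (Cm n) (f (e.symm z))) (chartAt (Cm n) (f (e.symm z)) (f (e.symm z))) *
    jacF f e (chartAt (Cm n) (f (e.symm z))) (e.symm z)

/-- pull back of a vector field -/
def pullV (f : N → X) (v : VField n X) : VField n N := fun e z =>
  (jacF f e (chartAt (Cm n) (f (e.symm z))) (e.symm z))⁻¹.mulVec
    (v (chartAt (Cm n) (f (e.symm z))) (chartAt (Cm n) (f (e.symm z)) (f (e.symm z))))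

variable [IsManifold 𝓘(ℂ, Cm n) ω N] [IsManifold 𝓘(ℂ, Cm n) ω X] {f : N → X} {w : FormM n X}
  {B : FormM n X} {v : VField n X} {e : Chart n N} {e' : Chart n X} {y : N}

lemma jac_isUnit (hi : Immersive n n f) (h : At e y) (h' : At e' (f y)) :
    IsUnit (jacF f e e' y).det := isUnit_iff_ne_zero.2 (det_inj (hi e e' y h h'))

lemma pullE_rel (hB : IsHolEnd B) (hf : ContMDiff 𝓘(ℂ, Cm n) 𝓘(ℂ, Cm n) ω f)
    (hi : Immersive n n f) (h : At e y) (h' : At e' (f y)) :
    jacF f e e' y * pullE f B e (e y) = B e' (e' (f y)) * jacF f e e' y := by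
  have hc := at_chartAt (n := n) (f y)
  have hf' : ContMDiffAt 𝓘(ℂ, Cm n) 𝓘(ℂ, Cm n) ω f y := hf.contMDiffAt
  have hu := jac_isUnit hi h hc
  unfold pullE
  rw [h.left_inv, jacF_right hf' h hc h', ← Matrix.mul_assoc, ← Matrix.mul_assoc,
    Matrix.mul_assoc (jacM (chartAt (Cm n) (f y)) e' (f y)), Matrix.mul_nonsing_inv _ hu,
    Matrix.mul_one, hB.change _ _ _ hc h', Matrix.mul_assoc]

lemma pullE_eq (hB : IsHolEnd B) (hf : ContMDiff 𝓘(ℂ, Cm n) 𝓘(ℂ, Cm n) ω f)
    (hi : Immersive n n f) (h : At e y) (h' : At e' (f y)) :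
    pullE f B e (e y) = (jacF f e e' y)⁻¹ * B e' (e' (f y)) * jacF f e e' y := by
  have hu := jac_isUnit hi h h'
  rw [Matrix.mul_assoc, ← pullE_rel hB hf hi h h', ← Matrix.mul_assoc, Matrix.nonsing_inv_mul _ hu,
    Matrix.one_mul]

lemma pullV_rel (hv : IsHolVF v) (hf : ContMDiff 𝓘(ℂ, Cm n) 𝓘(ℂ, Cm n) ω f)
    (hi : Immersive n n f) (h : At e y) (h' : At e' (f y)) :
    (jacF f e e' y).mulVec (pullV f v e (e y)) = v e' (e' (f y)) := by
  have hc := at_chartAt (n := n) (f y)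
  have hf' : ContMDiffAt 𝓘(ℂ, Cm n) 𝓘(ℂ, Cm n) ω f y := hf.contMDiffAt
  have hu := jac_isUnit hi h hc
  unfold pullV
  rw [h.left_inv, jacF_right hf' h hc h', Matrix.mulVec_mulVec, Matrix.mul_assoc,
    Matrix.mul_nonsing_inv _ hu, Matrix.mul_one, ← hv.change _ _ _ hc h']

lemma pullV_eq (hv : IsHolVF v) (hf : ContMDiff 𝓘(ℂ, Cm n) 𝓘(ℂ, Cm n) ω f)
    (hi : Immersive n n f) (h : At e y) (h' : At e' (f y)) :
    pullV f v e (e y) = (jacF f e e' y)⁻¹.mulVec (v e' (e' (f y))) := by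
  have hu := jac_isUnit hi h h'
  rw [← pullV_rel hv hf hi h h', Matrix.mulVec_mulVec, Matrix.nonsing_inv_mul _ hu,
    Matrix.one_mulVec]

lemma jacF_analytic (hf : ContMDiffAt 𝓘(ℂ, Cm n) 𝓘(ℂ, Cm n) ω f y) (h : At e y) (h' : At e' (f y))
    (i j : Fin n) : AnalyticAt ℂ (fun z => jmR (fun z => e' (f (e.symm z))) z i j) (e y) :=
  (jmR_holo (rep_hol hf h h') i j).analyticAt

lemma pullE_hol (hB : IsHolEnd B) (hf : ContMDiff 𝓘(ℂ, Cm n) 𝓘(ℂ, Cm n) ω f)
    (hi : Immersive n n f) : IsHolEnd (pullE f B) where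
  holo e y h i j := by
    have hc := at_chartAt (n := n) (f y)
    set c := chartAt (Cm n) (f y)
    have hf' : ContMDiffAt 𝓘(ℂ, Cm n) 𝓘(ℂ, Cm n) ω f y := hf.contMDiffAt
    have hJ := jacF_analytic hf' h hc
    have h1 : AnalyticAt ℂ (fun z => c (f (e.symm z))) (e y) := (rep_hol hf' h hc).analyticAt
    have h2 : ∀ i j, AnalyticAt ℂ (fun z => B c (c (f (e.symm z))) i j) (e y) := by
      intro i j
      refine AnalyticAt.comp' (g := fun z => B c z i j) ?_ h1
      rw [h.left_inv]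
      exact hB.holo c (f y) hc i j
    have h0 : (jmR (fun z => c (f (e.symm z))) (e y)).det ≠ 0 := det_inj (hi e c y h hc)
    have h3 : AnalyticAt ℂ (fun z => ((jmR (fun z => c (f (e.symm z))) z)⁻¹ *
        B c (c (f (e.symm z))) * jmR (fun z => c (f (e.symm z))) z) i j) (e y) :=
      analytic_mul_entry (fun i j => analytic_mul_entry (fun i j => analytic_inv hJ h0 i j) h2 i j)
        hJ i j
    refine h3.congr ?_
    filter_upwards [nhds_at_map hf'.continuousAt h hc] with z hz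
    have := pullE_eq hB hf hi hz.2.1 hz.2.2
    rw [e.right_inv hz.1, jacF_target hz.2.1.1 hz.1] at this
    rw [this]
  change e₁ e₂ y h₁ h₂ := by
    have hc := at_chartAt (n := n) (f y)
    have hf' : ContMDiffAt 𝓘(ℂ, Cm n) 𝓘(ℂ, Cm n) ω f y := hf.contMDiffAt
    have hu := jac_isUnit hi h₂ hc
    have e1 := pullE_rel hB hf hi h₁ hc
    have e2 := pullE_rel hB hf hi h₂ hc
    rw [jacF_left hf' h₁ h₂ hc] at e1
    have e3 : jacF f e₂ (chartAt (Cm n) (f y)) y * (jacM e₁ e₂ y * pullE f B e₁ (e₁ y)) =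
        jacF f e₂ (chartAt (Cm n) (f y)) y * (pullE f B e₂ (e₂ y) * jacM e₁ e₂ y) := by
      rw [← Matrix.mul_assoc, e1, ← Matrix.mul_assoc, ← Matrix.mul_assoc, e2]
    have e4 := congrArg ((jacF f e₂ (chartAt (Cm n) (f y)) y)⁻¹ * ·) e3
    simpa only [← Matrix.mul_assoc, Matrix.nonsing_inv_mul _ hu, Matrix.one_mul] using e4

lemma mcj_inv {J : Matrix (Fin n) (Fin n) ℂ} (hJ : IsUnit J.det) : mcj J⁻¹ * mcj J = 1 := by
  rw [← mcj_mul, Matrix.nonsing_inv_mul _ hJ, mcj_one]

lemma mcj_inv' {J : Matrix (Fin n) (Fin n) ℂ} (hJ : IsUnit J.det) : mcj J * mcj J⁻¹ = 1 := by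
  rw [← mcj_mul, Matrix.mul_nonsing_inv _ hJ, mcj_one]

/-- self-adjointness is invariant under pull back -/
lemma SA_pull {w B J : Matrix (Fin n) (Fin n) ℂ} (hJ : IsUnit J.det) (h : SA w B) :
    SA (J.transpose * w * mcj J) (J⁻¹ * B * J) := by
  unfold SA at *
  have h1 : (J⁻¹).transpose * J.transpose = 1 := by
    rw [← Matrix.transpose_mul, Matrix.mul_nonsing_inv _ hJ, Matrix.transpose_one]
  have h1' : J.transpose * (J⁻¹).transpose = 1 := by
    rw [← Matrix.transpose_mul, Matrix.nonsing_inv_mul _ hJ, Matrix.transpose_one]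
  rw [mcj_mul, mcj_mul, Matrix.transpose_mul, Matrix.transpose_mul]
  calc J.transpose * (B.transpose * (J⁻¹).transpose) * (J.transpose * w * mcj J)
      = J.transpose * (B.transpose * ((J⁻¹).transpose * J.transpose) * w) * mcj J := by
        simp only [Matrix.mul_assoc]
    _ = J.transpose * (w * mcj B) * mcj J := by rw [h1, Matrix.mul_one, h]
    _ = J.transpose * w * (mcj J * mcj J⁻¹) * mcj B * mcj J := by
        rw [mcj_inv' hJ, Matrix.mul_one]; simp only [Matrix.mul_assoc]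
    _ = J.transpose * w * mcj J * (mcj J⁻¹ * mcj B * mcj J) := by simp only [Matrix.mul_assoc]

lemma pullE_sa (hw : IsForm w) (hB : IsHolEnd B) (hs : IsSelfAdj w B)
    (hf : ContMDiff 𝓘(ℂ, Cm n) 𝓘(ℂ, Cm n) ω f) (hi : Immersive n n f) :
    IsSelfAdj (pullM f w) (pullE f B) := by
  intro e y h
  have hc := at_chartAt (n := n) (f y)
  have hf' : ContMDiffAt 𝓘(ℂ, Cm n) 𝓘(ℂ, Cm n) ω f y := hf.contMDiffAt
  rw [pullM_eq hw hf' h hc, pullE_eq hB hf hi h hc]
  exact SA_pull (jac_isUnit hi h hc) (hs _ _ hc)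

lemma pullE_par (hw : IsForm w) (hB : ParEnd w B)
    (hf : ContMDiff 𝓘(ℂ, Cm n) 𝓘(ℂ, Cm n) ω f) (hi : Immersive n n f) :
    ParEnd (pullM f w) (pullE f B) := ⟨pullE_hol hB.hol hf hi, pullE_sa hw hB.hol hB.sa hf hi⟩

lemma pullE_ricKills (hw : IsHermitian w) (hB : IsHolEnd B) (hr : RicKills w B)
    (hf : ContMDiff 𝓘(ℂ, Cm n) 𝓘(ℂ, Cm n) ω f) (hi : Immersive n n f) :
    RicKills (pullM f w) (pullE f B) := by
  intro e y h
  have hc := at_chartAt (n := n) (f y)
  have hf' : ContMDiffAt 𝓘(ℂ, Cm n) 𝓘(ℂ, Cm n) ω f y := hf.contMDiffAt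
  have hJ := jac_isUnit hi h hc
  rw [ric_local hw hf hi h hc, pullE_eq hB hf hi h hc]
  set J := jacF f e (chartAt (Cm n) (f y)) y
  set b := B (chartAt (Cm n) (f y)) (chartAt (Cm n) (f y) (f y))
  set r := ric w (chartAt (Cm n) (f y)) (chartAt (Cm n) (f y) (f y))
  have h1 : (J⁻¹).transpose * J.transpose = 1 := by
    rw [← Matrix.transpose_mul, Matrix.mul_nonsing_inv _ hJ, Matrix.transpose_one]
  have h2 : b.transpose * r = 0 := hr _ _ hc
  rw [Matrix.transpose_mul, Matrix.transpose_mul]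
  calc J.transpose * (b.transpose * (J⁻¹).transpose) * (J.transpose * r * J.map (starRingEnd ℂ))
      = J.transpose * (b.transpose * ((J⁻¹).transpose * J.transpose) * r) * J.map (starRingEnd ℂ) := by
        simp only [Matrix.mul_assoc]
    _ = 0 := by rw [h1, Matrix.mul_one, h2, Matrix.mul_zero, Matrix.zero_mul]

lemma pullE_proj (hB : IsHolEnd B) (hp : IsProjF B)
    (hf : ContMDiff 𝓘(ℂ, Cm n) 𝓘(ℂ, Cm n) ω f) (hi : Immersive n n f) : IsProjF (pullE f B) := by
  intro e y h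
  have hc := at_chartAt (n := n) (f y)
  have hJ := jac_isUnit hi h hc
  rw [pullE_eq hB hf hi h hc]
  set J := jacF f e (chartAt (Cm n) (f y)) y
  set b := B (chartAt (Cm n) (f y)) (chartAt (Cm n) (f y) (f y))
  have h2 : b * b = b := hp _ _ hc
  calc J⁻¹ * b * J * (J⁻¹ * b * J) = J⁻¹ * (b * (J * J⁻¹) * b) * J := by
        simp only [Matrix.mul_assoc]
    _ = J⁻¹ * b * J := by rw [Matrix.mul_nonsing_inv _ hJ, Matrix.mul_one, h2]

lemma pullE_trace (hB : IsHolEnd B) (hf : ContMDiff 𝓘(ℂ, Cm n) 𝓘(ℂ, Cm n) ω f)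
    (hi : Immersive n n f) (h : At e y) (h' : At e' (f y)) :
    (pullE f B e (e y)).trace = (B e' (e' (f y))).trace := by
  have hJ := jac_isUnit hi h h'
  rw [pullE_eq hB hf hi h h', Matrix.trace_mul_comm, ← Matrix.mul_assoc,
    Matrix.mul_nonsing_inv _ hJ, Matrix.one_mul]

lemma pullV_hol (hv : IsHolVF v) (hf : ContMDiff 𝓘(ℂ, Cm n) 𝓘(ℂ, Cm n) ω f)
    (hi : Immersive n n f) : IsHolVF (pullV f v) where
  holo e y h := by
    have hc := at_chartAt (n := n) (f y)
    set c := chartAt (Cm n) (f y)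
    have hf' : ContMDiffAt 𝓘(ℂ, Cm n) 𝓘(ℂ, Cm n) ω f y := hf.contMDiffAt
    have hJ := jacF_analytic hf' h hc
    have h1 : AnalyticAt ℂ (fun z => c (f (e.symm z))) (e y) := (rep_hol hf' h hc).analyticAt
    have h2 : AnalyticAt ℂ (fun z => v c (c (f (e.symm z)))) (e y) := by
      refine AnalyticAt.comp' (g := fun z => v c z) ?_ h1
      rw [h.left_inv]
      exact hv.holo c (f y) hc
    have h0 : (jmR (fun z => c (f (e.symm z))) (e y)).det ≠ 0 := det_inj (hi e c y h hc)
    have h3 : AnalyticAt ℂ (fun z => ((jmR (fun z => c (f (e.symm z))) z)⁻¹).mulVec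
        (v c (c (f (e.symm z))))) (e y) :=
      analytic_mulVec (fun i j => analytic_inv hJ h0 i j) h2
    refine h3.congr ?_
    filter_upwards [nhds_at_map hf'.continuousAt h hc] with z hz
    have := pullV_eq hv hf hi hz.2.1 hz.2.2
    rw [e.right_inv hz.1, jacF_target hz.2.1.1 hz.1] at this
    rw [this]
  change e₁ e₂ y h₁ h₂ := by
    have hc := at_chartAt (n := n) (f y)
    have hf' : ContMDiffAt 𝓘(ℂ, Cm n) 𝓘(ℂ, Cm n) ω f y := hf.contMDiffAt
    have hu := jac_isUnit hi h₂ hc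
    have e1 := pullV_rel hv hf hi h₁ hc
    have e2 := pullV_rel hv hf hi h₂ hc
    rw [jacF_left hf' h₁ h₂ hc, ← e2, ← Matrix.mulVec_mulVec] at e1
    have e4 := congrArg ((jacF f e₂ (chartAt (Cm n) (f y)) y)⁻¹.mulVec ·) e1
    simp only [Matrix.mulVec_mulVec _ (jacF f e₂ (chartAt (Cm n) (f y)) y)⁻¹,
      Matrix.nonsing_inv_mul _ hu, Matrix.one_mulVec] at e4
    exact e4.symm

lemma lower_pull {w J : Matrix (Fin n) (Fin n) ℂ} (hJ : IsUnit J.det) (v : Cm n) :
    (J.transpose * w * mcj J).mulVec (star (J⁻¹.mulVec v)) = J.transpose.mulVec (w.mulVec (star v)) := by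
  have h1 : star (J⁻¹.mulVec v) = (mcj J⁻¹).mulVec (star v) := by
    funext i
    simp [Matrix.mulVec, dotProduct, mcj, mul_comm]
  rw [h1, Matrix.mulVec_mulVec, Matrix.mul_assoc, mcj_inv' hJ, Matrix.mul_one, ← Matrix.mulVec_mulVec]

/-- the pull back of a parallel field is parallel -/
lemma pullV_par (hw : IsForm w) (hv : IsParVF w v)
    (hf : ContMDiff 𝓘(ℂ, Cm n) 𝓘(ℂ, Cm n) ω f) (hi : Immersive n n f) :
    IsParVF (pullM f w) (pullV f v) where
  toIsHolVF := pullV_hol hv.toIsHolVF hf hi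
  holo' e y h := by
    have hc := at_chartAt (n := n) (f y)
    set c := chartAt (Cm n) (f y)
    have hf' : ContMDiffAt 𝓘(ℂ, Cm n) 𝓘(ℂ, Cm n) ω f y := hf.contMDiffAt
    have hJ := jacF_analytic hf' h hc
    have h1 : AnalyticAt ℂ (fun z => c (f (e.symm z))) (e y) := (rep_hol hf' h hc).analyticAt
    have h2 : AnalyticAt ℂ (fun z => lowerV w v c (c (f (e.symm z)))) (e y) := by
      refine AnalyticAt.comp' (g := fun z => lowerV w v c z) ?_ h1
      rw [h.left_inv]
      exact hv.holo' c (f y) hc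
    have h3 : AnalyticAt ℂ (fun z => ((jmR (fun z => c (f (e.symm z))) z).transpose).mulVec
        (lowerV w v c (c (f (e.symm z))))) (e y) :=
      analytic_mulVec (fun i j => hJ j i) h2
    refine h3.congr ?_
    filter_upwards [nhds_at_map hf'.continuousAt h hc,
      e.continuousAt_symm h.mem_target |>.eventually (by
        rw [h.left_inv]
        exact (contMDiffAt_iff_contMDiffAt_nhds (n := ω) (by simp)).1 hf')] with z hz hz2
    have e1 := pullV_eq hv.toIsHolVF hf hi hz.2.1 hz.2.2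
    have e2 := pullM_eq hw hz2 hz.2.1 hz.2.2
    have hu := jac_isUnit hi hz.2.1 hz.2.2
    rw [e.right_inv hz.1, jacF_target hz.2.1.1 hz.1] at e1 e2
    rw [jacF_target hz.2.1.1 hz.1] at hu
    have e3 : lowerV (pullM f w) (pullV f v) e z =
        (pullM f w e z).mulVec (star (pullV f v e z)) := rfl
    rw [e3, e2, e1, lower_pull hu]
    rfl

lemma ric_congr {w' : FormM n X} (hww : ∀ e x, At e x → w e (e x) = w' e (e x)) {x : X}
    (h : At e' x) : ric w e' (e' x) = ric w' e' (e' x) := by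
  unfold ric
  have h1 : (fun y => Real.log (w e' y).det.re) =ᶠ[𝓝 (e' x)] fun y => Real.log (w' e' y).det.re := by
    filter_upwards [h.nhds_target] with z hz
    have := hww e' (e'.symm z) (At.of_target h.1 hz)
    rw [e'.right_inv hz] at this
    rw [this]
  rw [cHess_congr h1]

lemma parEnd_congr_metric {w' : FormM n X} (hww : ∀ e x, At e x → w e (e x) = w' e (e x))
    (h : ParEnd w B) : ParEnd w' B := ⟨h.hol, fun e x hx => by rw [← hww e x hx]; exact h.sa e x hx⟩

lemma ricKills_congr_metric {w' : FormM n X} (hww : ∀ e x, At e x → w e (e x) = w' e (e x))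
    (h : RicKills w B) : RicKills w' B := fun e x hx => by
  rw [← ric_congr hww hx]; exact h e x hx

lemma parVF_congr_metric {w' : FormM n X} (hww : ∀ e x, At e x → w e (e x) = w' e (e x))
    (h : IsParVF w v) : IsParVF w' v where
  toIsHolVF := h.toIsHolVF
  holo' e x hx := by
    refine (h.holo' e x hx).congr ?_
    filter_upwards [hx.nhds_target] with z hz
    have := hww e (e.symm z) (At.of_target hx.1 hz)
    rw [e.right_inv hz] at this
    unfold lowerV
    rw [this]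

end

end Vale.Agent.P299.H956
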