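import Vale.Agent.P299.H956.D1.Integ
import Vale.Agent.P278.H976.Final

/-! The Kähler form in the sense of P278. -/

open scoped Manifold ContDiff ComplexOrder Topology Matrix
open Complex Vale.Agent.P272.K Vale.Agent.P299.D Bundle

set_option linter.all false

noncomputable section

namespace Vale.Agent.P299.H956

section
variable {n : ℕ} {X : Type*} [TopologicalSpace X] [ChartedSpace (Cm n) X] {w : FormM n X}

/-- the Hermitian form on the tangent spaces -/
def kform (w : FormM n X) : Vale.Agent.P278.StmtF.Form (Cm n) X := fun x u v =>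
  ip (w (chartAt (Cm n) x) (chartAt (Cm n) x x)) (v : Cm n) (u : Cm n)

lemma at_refl (p : Cm n) : At (X := Cm n) (OpenPartialHomeomorph.refl (Cm n)) p :=
  ⟨by simp [chartedSpaceSelf_atlas], by simp⟩

variable [IsManifold 𝓘(ℂ, Cm n) ω X]

lemma loc_kform (hw : IsForm w) {φ : OpenPartialHomeomorph X (Cm n)}
    (hφ : φ ∈ IsManifold.maximalAtlas 𝓘(ℂ, Cm n) ω X) (u v : Cm n) {p : Cm n} (hp : p ∈ φ.target) :
    Vale.Agent.P278.StmtF.loc (kform w) φ u v p =
      ip (pullM (N := Cm n) φ.symm w (OpenPartialHomeomorph.refl (Cm n)) p) v u := by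
  have hs : ContMDiffAt 𝓘(ℂ, Cm n) 𝓘(ℂ, Cm n) ω φ.symm p :=
    (contMDiffOn_symm_of_mem_maximalAtlas hφ).contMDiffAt (φ.open_target.mem_nhds hp)
  have hc := at_chartAt (n := n) (φ.symm p)
  have h1 := pullM_eq (e := OpenPartialHomeomorph.refl (Cm n)) hw hs (at_refl p) hc
  have h2 : pullM (N := Cm n) φ.symm w (OpenPartialHomeomorph.refl (Cm n)) p =
      pullM (N := Cm n) φ.symm w (OpenPartialHomeomorph.refl (Cm n))
        (OpenPartialHomeomorph.refl (Cm n) p) := rfl
  rw [h2, h1, ip_change]
  have h3 : ∀ u : Cm n, (mfderiv 𝓘(ℂ, Cm n) 𝓘(ℂ, Cm n) φ.symm p : Cm n →L[ℂ] Cm n) u =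
      (jacF φ.symm (OpenPartialHomeomorph.refl (Cm n)) (chartAt (Cm n) (φ.symm p)) p).mulVec u := by
    intro u
    have := mfderiv_eq_jacF hs u
    rwa [chartAt_self_eq] at this
  show ip _ ((mfderiv 𝓘(ℂ, Cm n) 𝓘(ℂ, Cm n) φ.symm p : Cm n →L[ℂ] Cm n) v)
    ((mfderiv 𝓘(ℂ, Cm n) 𝓘(ℂ, Cm n) φ.symm p : Cm n →L[ℂ] Cm n) u) = _
  rw [h3, h3]

lemma ip_expand (b : Matrix (Fin n) (Fin n) ℂ) (u v : Cm n) :
    ip b u v = ∑ i, ∑ j, b i j * (u i * cj (v j)) := by
  rw [ip_eq_sum]
  refine Finset.sum_congr rfl fun i _ => ?_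
  rw [Finset.mul_sum]
  exact Finset.sum_congr rfl fun j _ => by ring

lemma im_zero_of {b : Cm n → Matrix (Fin n) (Fin n) ℂ} {z : Cm n}
    (hb : ∀ i j, DifferentiableAt ℝ (fun y => b y i j) z)
    (hH : ∀ᶠ y in 𝓝 z, (b y).IsHermitian)
    (hK : ∀ i j k, dz k (fun y => b y i j) z = dz i (fun y => b y k j) z) (u v t : Cm n) :
    (fderiv ℝ (fun y => ip (b y) t v) z u + fderiv ℝ (fun y => ip (b y) u t) z v +
      fderiv ℝ (fun y => ip (b y) v u) z t).im = 0 := by
  -- the trilinear form
  set T : Cm n → Cm n → Cm n → ℂ := fun x y s =>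
    ∑ k, ∑ i, ∑ j, dz k (fun q => b q i j) z * (x k * y i * cj (s j)) with hT
  have hsym : ∀ x y s, T x y s = T y x s := by
    intro x y s
    simp only [hT]
    rw [Finset.sum_comm]
    refine Finset.sum_congr rfl fun i _ => Finset.sum_congr rfl fun k _ =>
      Finset.sum_congr rfl fun j _ => ?_
    rw [hK i j k]; ring
  have hbar : ∀ i j k, dzb k (fun q => b q i j) z = cj (dz k (fun q => b q j i) z) := by
    intro i j k
    have h1 : (fun q => b q i j) =ᶠ[𝓝 z] fun q => cj (b q j i) := by
      filter_upwards [hH] with y hy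
      have := congrFun (congrFun hy i) j
      rw [Matrix.conjTranspose_apply] at this
      exact this.symm
    rw [dzb_congr h1, dzb_cj (hb j i)]
  have hder : ∀ x y s, fderiv ℝ (fun q => ip (b q) y s) z x = T x y s + cj (T x s y) := by
    intro x y s
    have hd : ∀ i j, DifferentiableAt ℝ (fun q => b q i j * (y i * cj (s j))) z := fun i j =>
      (hb i j).mul (differentiableAt_const _)
    rw [fderiv_eq]
    have e1 : ∀ k, dz k (fun q => ip (b q) y s) z =
        ∑ i, ∑ j, dz k (fun q => b q i j) z * (y i * cj (s j)) := by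
      intro k
      simp only [ip_expand]
      rw [dz_sum (F := fun i q => ∑ j, b q i j * (y i * cj (s j))) Finset.univ
        fun i _ => DifferentiableAt.fun_sum fun j _ => hd i j]
      refine Finset.sum_congr rfl fun i _ => ?_
      rw [dz_sum (F := fun j q => b q i j * (y i * cj (s j))) Finset.univ fun j _ => hd i j]
      refine Finset.sum_congr rfl fun j _ => ?_
      rw [dz_mul (hb i j) (differentiableAt_const _), dz_const]; ring
    have e2 : ∀ k, dzb k (fun q => ip (b q) y s) z =
        ∑ i, ∑ j, cj (dz k (fun q => b q j i) z) * (y i * cj (s j)) := by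
      intro k
      simp only [ip_expand]
      rw [dzb_sum (F := fun i q => ∑ j, b q i j * (y i * cj (s j))) Finset.univ
        fun i _ => DifferentiableAt.fun_sum fun j _ => hd i j]
      refine Finset.sum_congr rfl fun i _ => ?_
      rw [dzb_sum (F := fun j q => b q i j * (y i * cj (s j))) Finset.univ fun j _ => hd i j]
      refine Finset.sum_congr rfl fun j _ => ?_
      rw [dzb_mul (hb i j) (differentiableAt_const _), dzb_const, hbar]; ring
    simp only [e1, e2]
    rw [Finset.sum_add_distrib]
    congr 1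
    · simp only [hT, Finset.sum_mul]
      refine Finset.sum_congr rfl fun k _ => Finset.sum_congr rfl fun i _ =>
        Finset.sum_congr rfl fun j _ => ?_
      ring
    · simp only [hT, map_sum, map_mul, cj, starRingEnd_self_apply, Finset.sum_mul]
      refine Finset.sum_congr rfl fun k _ => ?_
      rw [Finset.sum_comm]
      refine Finset.sum_congr rfl fun j _ => Finset.sum_congr rfl fun i _ => ?_
      ring
  rw [hder, hder, hder]
  -- `T u t v + conj (T u v t) + T v u t + conj (T v t u) + T t v u + conj (T t u v)`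
  rw [hsym t v u, hsym v u t, hsym u t v]
  simp only [add_im, cj, conj_im]
  ring

/-- the Kähler metric in the sense of P278 -/
theorem kform_isKahler (hw : IsKahler w) : Vale.Agent.P278.StmtF.IsKahler (kform w) where
  lin x u := by
    constructor
    · intro v v'
      exact ip_add_left (v : Cm n) (v' : Cm n) (u : Cm n)
    · intro c v
      exact ip_smul_left c (v : Cm n) (u : Cm n)
  symm x u v := ip_conj (hw.posDef _ _ (at_chartAt x)).isHermitian (v : Cm n) (u : Cm n)
  pos x u hu := (Complex.pos_iff.1 (ip_pos (hw.posDef _ _ (at_chartAt x)) hu)).1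
  smooth φ hφ u v := by
    intro p hp
    refine ContDiffAt.contDiffWithinAt ?_
    have hs : ContMDiffAt 𝓘(ℂ, Cm n) 𝓘(ℂ, Cm n) ω φ.symm p :=
      (contMDiffOn_symm_of_mem_maximalAtlas hφ).contMDiffAt (φ.open_target.mem_nhds hp)
    have h1 : ∀ i j, ContDiffAt ℝ ∞ (fun z => pullM (N := Cm n) φ.symm w
        (OpenPartialHomeomorph.refl (Cm n)) z i j) p := fun i j =>
      smooth_pullM (e := OpenPartialHomeomorph.refl (Cm n)) hw.isForm hw.smooth hs (at_refl p) i j
    have h2 : ContDiffAt ℝ ∞ (fun z => ip (pullM (N := Cm n) φ.symm w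
        (OpenPartialHomeomorph.refl (Cm n)) z) v u) p := by
      simp only [ip_expand]
      exact ContDiffAt.sum fun i _ => ContDiffAt.sum fun j _ => (h1 i j).mul contDiffAt_const
    refine h2.congr_of_eventuallyEq ?_
    filter_upwards [φ.open_target.mem_nhds hp] with z hz using loc_kform hw.isForm hφ u v hz
  closed φ hφ p hp u v t := by
    have hs : ContMDiffAt 𝓘(ℂ, Cm n) 𝓘(ℂ, Cm n) ω φ.symm p :=
      (contMDiffOn_symm_of_mem_maximalAtlas hφ).contMDiffAt (φ.open_target.mem_nhds hp)
    set b : Cm n → Matrix (Fin n) (Fin n) ℂ := fun z => pullM (N := Cm n) φ.symm w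
      (OpenPartialHomeomorph.refl (Cm n)) z with hb
    have h1 : ∀ i j, ContDiffAt ℝ ∞ (fun z => b z i j) p := fun i j =>
      smooth_pullM (e := OpenPartialHomeomorph.refl (Cm n)) hw.isForm hw.smooth hs (at_refl p) i j
    have hloc : ∀ u v, Vale.Agent.P278.StmtF.loc (kform w) φ u v =ᶠ[𝓝 p]
        fun z => ip (b z) v u := by
      intro u v
      filter_upwards [φ.open_target.mem_nhds hp] with z hz using loc_kform hw.isForm hφ u v hz
    rw [(hloc v t).fderiv_eq, (hloc t u).fderiv_eq, (hloc u v).fderiv_eq]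
    have hc := at_chartAt (n := n) (φ.symm p)
    set c := chartAt (Cm n) (φ.symm p)
    have hev := pullM_eventually (e := OpenPartialHomeomorph.refl (Cm n)) hw.isForm hs (at_refl p) hc
    refine im_zero_of (b := b) (fun i j => (h1 i j).differentiableAt (by simp)) ?_ ?_ u v t
    · filter_upwards [hev, nhds_at_map (e := OpenPartialHomeomorph.refl (Cm n)) hs.continuousAt
        (at_refl p) hc] with z hz hz2
      show (pullM (N := Cm n) φ.symm w (OpenPartialHomeomorph.refl (Cm n)) z).IsHermitian
      rw [hz]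
      have h2 := (hw.posDef c _ hz2.2.2).isHermitian
      set J := jmR (fun z => c (φ.symm ((OpenPartialHomeomorph.refl (Cm n)).symm z))) z
      have h3 : J.transpose = (J.map (starRingEnd ℂ)).conjTranspose := by
        ext i j
        simp [Matrix.conjTranspose_apply]
      rw [h3]
      exact Matrix.isHermitian_conjTranspose_mul_mul _ h2
    · intro i j k
      have hτ := rep_hol (e := OpenPartialHomeomorph.refl (Cm n)) hs (at_refl p) hc
      have e1 : ∀ i j, (fun z => b z i j) =ᶠ[𝓝 p] fun z =>
          (((jmR (fun z => c (φ.symm ((OpenPartialHomeomorph.refl (Cm n)).symm z))) z).transpose *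
            w c (c (φ.symm ((OpenPartialHomeomorph.refl (Cm n)).symm z))) *
            (jmR (fun z => c (φ.symm ((OpenPartialHomeomorph.refl (Cm n)).symm z))) z).map
              (starRingEnd ℂ)) i j) := by
        intro i j
        filter_upwards [hev] with z hz
        show (pullM (N := Cm n) φ.symm w (OpenPartialHomeomorph.refl (Cm n)) z) i j = _
        rw [hz]
      rw [dz_congr (e1 i j), dz_congr (e1 k j)]
      refine closed_comp (τ := fun z => c (φ.symm ((OpenPartialHomeomorph.refl (Cm n)).symm z)))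
        (b := fun z => w c z) hτ ?_ ?_ i j k
      · intro i j
        exact (hw.smooth c _ hc i j).differentiableAt (by simp)
      · intro i j k
        exact hw.closed c _ hc i j k

end

end Vale.Agent.P299.H956
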