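import Vale.Agent.P299.H956.D1.Pull2
import Mathlib.Geometry.Manifold.LocalDiffeomorph

/-! Local biholomorphisms and maps with a holomorphic left inverse are immersive. -/

open scoped Manifold ContDiff ComplexOrder Topology
open Complex Vale.Agent.P272.K Vale.Agent.P299.D

set_option linter.all false

noncomputable section

namespace Vale.Agent.P299.H956

variable {d n m : ℕ} {N X Z : Type*} [TopologicalSpace N] [TopologicalSpace X] [TopologicalSpace Z]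
  [ChartedSpace (Cm d) N] [ChartedSpace (Cm n) X] [ChartedSpace (Cm m) Z]
  {e e₁ e₂ : Chart d N} {e' e'₁ e'₂ : Chart n X} {y : N} {f f₁ : N → X}

lemma jacF_congr (h : At e y) (hff : f =ᶠ[𝓝 y] f₁) : jacF f e e' y = jacF f₁ e e' y := by
  rw [jacF_eq, jacF_eq]
  refine jmR_congr ?_
  have h1 : Filter.Tendsto e.symm (𝓝 (e y)) (𝓝 y) := by
    have := e.continuousAt_symm h.mem_target
    rwa [ContinuousAt, h.left_inv] at this
  filter_upwards [h1.eventually hff] with z hz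
  rw [hz]

variable [IsManifold 𝓘(ℂ, Cm d) ω N] [IsManifold 𝓘(ℂ, Cm n) ω X]

lemma mulVec_inj_of_left {A : Matrix (Fin d) (Fin n) ℂ} {B : Matrix (Fin n) (Fin d) ℂ}
    (h : A * B = 1) (u : Cm d) (hu : B.mulVec u = 0) : u = 0 := by
  have h2 := congrArg A.mulVec hu
  rwa [Matrix.mulVec_mulVec, h, Matrix.one_mulVec, Matrix.mulVec_zero] at h2

lemma immersive_of_leftInverse {g : X → N} (hf : ContMDiff 𝓘(ℂ, Cm d) 𝓘(ℂ, Cm n) ω f)
    (hg : ContMDiff 𝓘(ℂ, Cm n) 𝓘(ℂ, Cm d) ω g) (hgf : ∀ y, g (f y) = y) : Immersive d n f := by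
  intro e e' y h h' u hu
  have hf' : ContMDiffAt 𝓘(ℂ, Cm d) 𝓘(ℂ, Cm n) ω f y := hf.contMDiffAt
  have hg' : ContMDiffAt 𝓘(ℂ, Cm n) 𝓘(ℂ, Cm d) ω g (f y) := hg.contMDiffAt
  have h1 := jacF_comp (e'' := e) hf' hg' h h' (by rw [hgf]; exact h)
  have h2 : jacF (fun y => g (f y)) e e y = 1 := by
    have : (fun y => g (f y)) = fun y => y := funext hgf
    rw [this, jacF_id, jacM_self h]
  rw [h2] at h1
  exact mulVec_inj_of_left h1.symm u hu

/-- the left inverse of the Jacobian matrix of a local biholomorphism -/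
lemma exists_localInverse {f : N → X} (hf : IsLocalDiffeomorph 𝓘(ℂ, Cm d) 𝓘(ℂ, Cm n) ω f) (y : N) :
    ∃ g : X → N, g (f y) = y ∧ ContMDiffAt 𝓘(ℂ, Cm n) 𝓘(ℂ, Cm d) ω g (f y) ∧
      (∀ᶠ z in 𝓝 y, g (f z) = z) ∧ (∀ᶠ x in 𝓝 (f y), f (g x) = x) := by
  obtain ⟨Φ, hy, heq⟩ := hf y
  have hs : Φ.source ∈ 𝓝 y := Φ.open_source.mem_nhds hy
  have hfy : f y = Φ y := heq hy
  have ht : Φ.target ∈ 𝓝 (f y) := by
    rw [hfy]; exact Φ.open_target.mem_nhds (Φ.map_source hy)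
  have hl : ∀ z ∈ Φ.source, Φ.symm (f z) = z := by
    intro z hz
    rw [show f z = Φ z from heq hz]
    exact Φ.left_inv hz
  refine ⟨Φ.symm, hl y hy, ?_, ?_, ?_⟩
  · exact Φ.contMDiffOn_invFun.contMDiffAt ht
  · filter_upwards [hs] with z hz using hl z hz
  · filter_upwards [ht] with x hx
    have h1 : Φ.symm x ∈ Φ.source := Φ.map_target hx
    rw [show f (Φ.symm x) = Φ (Φ.symm x) from heq h1]
    exact Φ.right_inv hx

lemma contMDiff_of_localDiffeo {f : N → X} (hf : IsLocalDiffeomorph 𝓘(ℂ, Cm d) 𝓘(ℂ, Cm n) ω f) :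
    ContMDiff 𝓘(ℂ, Cm d) 𝓘(ℂ, Cm n) ω f := hf.contMDiff

lemma immersive_of_localDiffeo {f : N → X}
    (hf : IsLocalDiffeomorph 𝓘(ℂ, Cm d) 𝓘(ℂ, Cm n) ω f) : Immersive d n f := by
  intro e e' y h h' u hu
  obtain ⟨g, hgy, hg, hgf, -⟩ := exists_localInverse hf y
  have hf' : ContMDiffAt 𝓘(ℂ, Cm d) 𝓘(ℂ, Cm n) ω f y := hf.contMDiff.contMDiffAt
  have h1 := jacF_comp (g := g) (e'' := e) hf' hg h h' (by rw [hgy]; exact h)
  have h2 : jacF (fun y => g (f y)) e e y = 1 := by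
    rw [jacF_congr (f₁ := fun y => y) h hgf, jacF_id, jacM_self h]
  rw [h2] at h1
  exact mulVec_inj_of_left h1.symm u hu

end Vale.Agent.P299.H956
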