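import Vale.Agent.P299.H956.D1.ParRic

/-! Parallel fields and the projection onto their span. -/

open scoped Manifold ContDiff ComplexOrder Topology Matrix
open Complex Vale.Agent.P272.K Vale.Agent.P299.D

set_option linter.all false

noncomputable section

namespace Vale.Agent.P299.H956

section alg
variable {n : ℕ} {w A B P Q : Matrix (Fin n) (Fin n) ℂ}

lemma ip_eq_sum (u v : Cm n) : ip w u v = ∑ i, u i * ∑ j, w i j * (starRingEnd ℂ) (v j) := rfl

lemma ip_change {d : ℕ} (J : Matrix (Fin n) (Fin d) ℂ) (u v : Cm d) :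
    ip (J.transpose * w * J.map (starRingEnd ℂ)) u v = ip w (J.mulVec u) (J.mulVec v) := by
  unfold ip
  have h1 : star (J.mulVec v) = (J.map (starRingEnd ℂ)).mulVec (star v) := by
    funext i
    simp [Matrix.mulVec, dotProduct, mul_comm]
  rw [h1, Matrix.mulVec_mulVec, Matrix.mul_assoc, ← Matrix.mulVec_mulVec, Matrix.dotProduct_mulVec u,
    Matrix.vecMul_transpose, ← Matrix.mulVec_mulVec]

lemma ip_conj (hw : w.IsHermitian) (u v : Cm n) : (starRingEnd ℂ) (ip w u v) = ip w v u := by
  rw [ip_eq_sum, ip_eq_sum]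
  simp only [map_sum, map_mul, starRingEnd_self_apply, Finset.mul_sum]
  rw [Finset.sum_comm]
  refine Finset.sum_congr rfl fun j _ => Finset.sum_congr rfl fun i _ => ?_
  have : (starRingEnd ℂ) (w i j) = w j i := by
    have := congrFun (congrFun hw j) i
    rw [Matrix.conjTranspose_apply] at this
    exact this
  rw [this]; ring

lemma ip_smul_left (c : ℂ) (u v : Cm n) : ip w (c • u) v = c * ip w u v := by
  unfold ip; rw [smul_dotProduct, smul_eq_mul]

lemma ip_sub_left (u v x : Cm n) : ip w (u - v) x = ip w u x - ip w v x := by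
  unfold ip; rw [sub_dotProduct]

lemma ip_zero_right (x : Cm n) : ip w x 0 = 0 := by
  unfold ip; simp

lemma ip_sum_left {ι : Type*} (s : Finset ι) (u : ι → Cm n) (v : Cm n) :
    ip w (∑ a ∈ s, u a) v = ∑ a ∈ s, ip w (u a) v := by
  unfold ip; rw [sum_dotProduct]

end alg

section
variable {n : ℕ} {X : Type*} [TopologicalSpace X] [ChartedSpace (Cm n) X] {w : FormM n X}
  {v v' : VField n X} {e e' : Chart n X} {x x' : X}

lemma ip_lower (w : FormM n X) (v : VField n X) (e : Chart n X) (z : Cm n) (u : Cm n) :
    ip (w e z) u (v e z) = lowerV w v e z ⬝ᵥ u := by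
  rw [ip_eq_sum]
  show _ = ∑ i, lowerV w v e z i * u i
  exact Finset.sum_congr rfl fun i _ => by rw [mul_comm]; rfl

lemma holVF_add (h : IsHolVF v) (h' : IsHolVF v') : IsHolVF (fun e z => v e z + v' e z) where
  holo e x hx := (h.holo e x hx).add (h'.holo e x hx)
  change e e' x hx hx' := by
    rw [Matrix.mulVec_add, h.change e e' x hx hx', h'.change e e' x hx hx']

lemma holVF_smul (c : ℂ) (h : IsHolVF v) : IsHolVF (fun e z => c • v e z) where
  holo e x hx := (analyticAt_const (v := c)).smul (h.holo e x hx)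
  change e e' x hx hx' := by
    rw [Matrix.mulVec_smul, h.change e e' x hx hx']

lemma holVF_zero : IsHolVF (fun _ _ => 0 : VField n X) where
  holo e x hx := analyticAt_const
  change e e' x hx hx' := by simp

lemma parVF_add (h : IsParVF w v) (h' : IsParVF w v') : IsParVF w (fun e z => v e z + v' e z) where
  toIsHolVF := holVF_add h.toIsHolVF h'.toIsHolVF
  holo' e x hx := by
    have : lowerV w (fun e z => v e z + v' e z) e = fun z => lowerV w v e z + lowerV w v' e z := by
      funext z i
      simp [lowerV, mul_add, Finset.sum_add_distrib]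
    rw [this]
    exact (h.holo' e x hx).add (h'.holo' e x hx)

lemma parVF_smul (c : ℂ) (h : IsParVF w v) : IsParVF w (fun e z => c • v e z) where
  toIsHolVF := holVF_smul c h.toIsHolVF
  holo' e x hx := by
    have : lowerV w (fun e z => c • v e z) e = fun z => (starRingEnd ℂ) c • lowerV w v e z := by
      funext z i
      simp only [lowerV, Pi.smul_apply, smul_eq_mul, map_mul, Finset.mul_sum]
      exact Finset.sum_congr rfl fun j _ => by ring
    rw [this]
    exact (analyticAt_const (v := (starRingEnd ℂ) c)).smul (h.holo' e x hx)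

lemma parVF_zero : IsParVF w (fun _ _ => 0 : VField n X) where
  toIsHolVF := holVF_zero
  holo' e x hx := by
    have : lowerV w (fun _ _ => 0 : VField n X) e = fun z => 0 := by
      funext z i
      simp [lowerV]
    rw [this]
    exact analyticAt_const

lemma parVF_sum {ι : Type*} (s : Finset ι) {v : ι → VField n X} (h : ∀ a ∈ s, IsParVF w (v a))
    (c : ι → ℂ) : IsParVF w (fun e z => ∑ a ∈ s, c a • v a e z) := by
  classical
  induction s using Finset.induction_on with
  | empty => simpa using parVF_zero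
  | insert a s ha ih =>
    simp only [Finset.sum_insert ha]
    exact parVF_add (parVF_smul (c a) (h a (Finset.mem_insert_self a s)))
      (ih fun b hb => h b (Finset.mem_insert_of_mem hb))

variable [PreconnectedSpace X] [IsManifold 𝓘(ℂ, Cm n) ω X]

/-- inner products of parallel fields are constant -/
lemma ip_par_const (hw : IsHermitian w) (h : IsParVF w v) (h' : IsParVF w v') (hx : At e x)
    (hx' : At e' x') : ip (w e (e x)) (v e (e x)) (v' e (e x)) =
      ip (w e' (e' x')) (v e' (e' x')) (v' e' (e' x')) := by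
  have han : ∀ {v v' : VField n X}, IsParVF w v → IsParVF w v' → ∀ e x, At e x →
      AnalyticAt ℂ (fun z => ip (w e z) (v e z) (v' e z)) (e x) := by
    intro v v' h h' e x hx
    simp only [ip_lower]
    have h1 := analyticAt_pi_iff.1 (h.holo e x hx)
    have h2 := analyticAt_pi_iff.1 (h'.holo' e x hx)
    exact Finset.analyticAt_fun_sum _ fun i _ => (h2 i).mul (h1 i)
  refine chart_const (t := fun e z => ip (w e z) (v e z) (v' e z)) ?_ (han h h') ?_ hx hx'
  · intro e e' x hx hx'
    show ip (w e (e x)) (v e (e x)) (v' e (e x)) = ip (w e' (e' x)) (v e' (e' x)) (v' e' (e' x))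
    rw [hw.change e e' x hx hx', ip_change, h.change e e' x hx hx', h'.change e e' x hx hx']
  · intro e x hx
    refine (han h' h e x hx).congr ?_
    filter_upwards [hx.nhds_target] with z hz
    have hz' := At.of_target hx.1 hz
    have := ip_conj (hw.posDef e _ hz').isHermitian (v e (e (e.symm z))) (v' e (e (e.symm z)))
    rw [e.right_inv hz] at this
    exact this.symm

/-- a parallel field vanishing at a point vanishes everywhere -/
lemma par_eq_zero (hw : IsHermitian w) (h : IsParVF w v) (hx : At e x)
    (hx' : At e' x') (h0 : v e (e x) = 0) : v e' (e' x') = 0 := by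
  refine ip_self_eq_zero (hw.posDef e' x' hx') ?_
  rw [← ip_par_const hw h h hx hx', h0, ip_zero_left]

variable [Nonempty X]

/-- finitely many parallel fields span all of them -/
lemma exists_par_span (hw : IsHermitian w) : ∃ (r : ℕ) (V : Fin r → VField n X),
    (∀ a, IsParVF w (V a)) ∧ ∀ v, IsParVF w v → ∃ c : Fin r → ℂ, ∀ e x, At e x →
      v e (e x) = ∑ a, c a • V a e (e x) := by
  obtain ⟨x0⟩ := (inferInstance : Nonempty X)
  have h0 := at_chartAt (n := n) x0
  set e0 := chartAt (Cm n) x0
  let S : Submodule ℂ (Cm n) :=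
    { carrier := {u | ∃ v, IsParVF w v ∧ v e0 (e0 x0) = u}
      add_mem' := by
        rintro _ _ ⟨v, hv, rfl⟩ ⟨v', hv', rfl⟩
        exact ⟨_, parVF_add hv hv', rfl⟩
      zero_mem' := ⟨_, parVF_zero, rfl⟩
      smul_mem' := by
        rintro c _ ⟨v, hv, rfl⟩
        exact ⟨_, parVF_smul c hv, rfl⟩ }
  let b := Module.finBasis ℂ S
  have hb : ∀ a, ∃ v, IsParVF w v ∧ v e0 (e0 x0) = (b a : Cm n) := fun a => (b a).2
  choose V hV hVb using hb
  refine ⟨_, V, hV, fun v hv => ?_⟩
  have hvS : v e0 (e0 x0) ∈ S := ⟨v, hv, rfl⟩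
  set c := b.repr ⟨_, hvS⟩ with hc
  refine ⟨fun a => c a, fun e x hx => ?_⟩
  have h1 : IsParVF w (fun e z => v e z + (-1 : ℂ) • ∑ a, c a • V a e z) :=
    parVF_add hv (parVF_smul (-1) (parVF_sum Finset.univ (fun a _ => hV a) fun a => c a))
  have h2 : (fun e z => v e z + (-1 : ℂ) • ∑ a, c a • V a e z : VField n X) e0 (e0 x0) = 0 := by
    show v e0 (e0 x0) + (-1 : ℂ) • ∑ a, c a • V a e0 (e0 x0) = 0
    have h3 : ∑ a, c a • V a e0 (e0 x0) = v e0 (e0 x0) := by
      have := congrArg (fun s : S => (s : Cm n)) (b.sum_repr ⟨_, hvS⟩)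
      simp only [Submodule.coe_sum, Submodule.coe_smul] at this
      rw [← this]
      exact Finset.sum_congr rfl fun a _ => by rw [hVb]
    rw [h3]; simp
  have h4 := par_eq_zero hw h1 h0 hx h2
  have h5 : v e (e x) + (-1 : ℂ) • ∑ a, c a • V a e (e x) = 0 := h4
  rw [neg_smul, one_smul, ← sub_eq_add_neg, sub_eq_zero] at h5
  exact h5

/-- **the projection onto the span of the parallel fields** -/
theorem exists_P0 (hw : IsKahler w) : ∃ P0 : FormM n X, ParEnd w P0 ∧ IsProjF P0 ∧ RicKills w P0 ∧
    (∀ v, IsParVF w v → ∀ e x, At e x → (P0 e (e x)).mulVec (v e (e x)) = v e (e x)) ∧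
    ∀ e x, At e x → ∀ u, ∃ v, IsParVF w v ∧ v e (e x) = (P0 e (e x)).mulVec u := by
  have hwh := hw.toIsHermitian
  obtain ⟨r, V, hV, hspan⟩ := exists_par_span (w := w) hwh
  set A : FormM n X := fun e z => ∑ a, Matrix.vecMulVec (V a e z) (lowerV w (V a) e z) with hA
  have hAmul : ∀ e z (u : Cm n), (A e z).mulVec u = ∑ a, ip (w e z) u (V a e z) • V a e z := by
    intro e z u
    rw [hA, Matrix.sum_mulVec]
    refine Finset.sum_congr rfl fun a _ => ?_
    rw [Matrix.vecMulVec_mulVec, ip_lower]
    funext i
    simp [mul_comm]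
  have hApar : ParEnd w A := by
    refine ⟨⟨fun e x hx i j => ?_, fun e e' x hx hx' => ?_⟩, fun e x hx => ?_⟩
    · have : (fun z => A e z i j) = fun z => ∑ a, V a e z i * lowerV w (V a) e z j := by
        funext z
        show (∑ a, Matrix.vecMulVec (V a e z) (lowerV w (V a) e z)) i j = _
        rw [Matrix.sum_apply]
        rfl
      rw [this]
      exact Finset.analyticAt_fun_sum _ fun a _ =>
        ((analyticAt_pi_iff.1 ((hV a).holo e x hx)) i).mul
          ((analyticAt_pi_iff.1 ((hV a).holo' e x hx)) j)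
    · ext i j
      have h1 : (jacM e e' x * A e (e x)).mulVec (Pi.single j 1) =
          (A e' (e' x) * jacM e e' x).mulVec (Pi.single j 1) := by
        rw [← Matrix.mulVec_mulVec, ← Matrix.mulVec_mulVec, hAmul, hAmul, Matrix.mulVec_sum]
        refine Finset.sum_congr rfl fun a _ => ?_
        rw [Matrix.mulVec_smul, ← (hV a).change e e' x hx hx', hwh.change e e' x hx hx', ip_change,
          ← (hV a).change e e' x hx hx']
      have := congrFun h1 i
      simpa using this
    · have hH : (w e (e x)).IsHermitian := (hwh.posDef e x hx).isHermitian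
      ext j l
      have e1 : ((A e (e x)).transpose * w e (e x)) j l =
          ∑ a, lowerV w (V a) e (e x) j * (starRingEnd ℂ) (lowerV w (V a) e (e x) l) := by
        rw [Matrix.mul_apply]
        simp only [Matrix.transpose_apply, hA, Matrix.sum_apply, Matrix.vecMulVec_apply]
        simp only [Finset.sum_mul]
        rw [Finset.sum_comm]
        refine Finset.sum_congr rfl fun a _ => ?_
        have h2 : (starRingEnd ℂ) (lowerV w (V a) e (e x) l) = ∑ i, V a e (e x) i * w e (e x) i l := by
          unfold lowerV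
          rw [map_sum]
          refine Finset.sum_congr rfl fun i _ => ?_
          rw [map_mul, starRingEnd_self_apply]
          have : (starRingEnd ℂ) (w e (e x) l i) = w e (e x) i l := by
            have := congrFun (congrFun hH i) l
            rwa [Matrix.conjTranspose_apply] at this
          rw [this, mul_comm]
        rw [h2, Finset.mul_sum]
        exact Finset.sum_congr rfl fun i _ => by ring
      have e2 : (w e (e x) * (A e (e x)).map (starRingEnd ℂ)) j l =
          ∑ a, lowerV w (V a) e (e x) j * (starRingEnd ℂ) (lowerV w (V a) e (e x) l) := by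
        rw [Matrix.mul_apply]
        simp only [Matrix.map_apply, hA, Matrix.sum_apply, Matrix.vecMulVec_apply, map_sum, map_mul]
        simp only [Finset.mul_sum]
        rw [Finset.sum_comm]
        refine Finset.sum_congr rfl fun a _ => ?_
        conv_rhs => rw [show lowerV w (V a) e (e x) j = ∑ i, w e (e x) j i *
          (starRingEnd ℂ) (V a e (e x) i) from rfl, Finset.sum_mul]
        exact Finset.sum_congr rfl fun i _ => by ring
      rw [e1, e2]
  have hARic : RicKills w A := by
    intro e x hx
    ext j l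
    rw [Matrix.mul_apply, Matrix.zero_apply]
    simp only [Matrix.transpose_apply, hA, Matrix.sum_apply, Matrix.vecMulVec_apply, Finset.sum_mul]
    rw [Finset.sum_comm]
    refine Finset.sum_eq_zero fun a _ => ?_
    have h2 := congrFun (vecMul_ric_par hw (hV a) hx) l
    have h3 : ∑ i, V a e (e x) i * ric w e (e x) i l = 0 := h2
    calc ∑ i, V a e (e x) i * lowerV w (V a) e (e x) j * ric w e (e x) i l
        = lowerV w (V a) e (e x) j * ∑ i, V a e (e x) i * ric w e (e x) i l := by
          rw [Finset.mul_sum]; exact Finset.sum_congr rfl fun i _ => by ring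
      _ = 0 := by rw [h3, mul_zero]
  obtain ⟨p, hp⟩ := hApar.exists_proj hwh
  set P0 := pol (p * Polynomial.X) A with hP0
  have hP0par : ParEnd w P0 := hApar.pol _
  have hfix : ∀ a e x, At e x → (P0 e (e x)).mulVec (V a e (e x)) = V a e (e x) := by
    intro a e x hx
    have hw' := hwh.posDef e x hx
    set Q := 1 - P0 e (e x) with hQ
    have hQsa : SA (w e (e x)) Q := SA.one.sub (hP0par.SA hx)
    have hQA : Q * A e (e x) = 0 := by
      rw [hQ, Matrix.sub_mul, Matrix.one_mul, (hp e x hx).1, sub_self]
    have hAQ : A e (e x) * Q = 0 := SA.mul_eq_zero_comm hw' hQsa (hApar.SA hx) hQA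
    have key : ∀ u, ip (w e (e x)) (Q.mulVec u) (V a e (e x)) = 0 := by
      intro u
      have h1 : ip (w e (e x)) ((A e (e x)).mulVec (Q.mulVec u)) (Q.mulVec u) = 0 := by
        rw [Matrix.mulVec_mulVec, hAQ, Matrix.zero_mulVec, ip_zero_left]
      rw [hAmul, ip_sum_left] at h1
      have h2 : ∀ a, ip (w e (e x)) (ip (w e (e x)) (Q.mulVec u) (V a e (e x)) • V a e (e x))
          (Q.mulVec u) = ((‖ip (w e (e x)) (Q.mulVec u) (V a e (e x))‖ ^ 2 : ℝ) : ℂ) := by
        intro a
        rw [ip_smul_left, ← ip_conj hw'.isHermitian (Q.mulVec u) (V a e (e x)), Complex.mul_conj,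
          Complex.normSq_eq_norm_sq]
      simp only [h2] at h1
      rw [← Complex.ofReal_sum] at h1
      have h3 : ∑ a, ‖ip (w e (e x)) (Q.mulVec u) (V a e (e x))‖ ^ 2 = 0 := by exact_mod_cast h1
      have h4 := (Finset.sum_eq_zero_iff_of_nonneg fun a _ => by positivity).1 h3 a
        (Finset.mem_univ a)
      simpa using h4
    have h5 : Q.mulVec (V a e (e x)) = 0 := by
      refine ip_self_eq_zero hw' ?_
      rw [ip_SA hQsa, ← ip_conj hw'.isHermitian]
      have h6 := key (Q.mulVec (V a e (e x)))
      -- `⟨V, Q Q V⟩ = 0`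
      rw [show ip (w e (e x)) (Q.mulVec (Q.mulVec (V a e (e x)))) (V a e (e x)) = 0 from h6]
      simp
    rw [hQ, Matrix.sub_mulVec, Matrix.one_mulVec, sub_eq_zero] at h5
    exact h5.symm
  refine ⟨P0, hP0par, fun e x hx => (hp e x hx).2, ricKills_pol hARic p, ?_, ?_⟩
  · intro v hv e x hx
    obtain ⟨c, hc⟩ := hspan v hv
    rw [hc e x hx, Matrix.mulVec_sum]
    refine Finset.sum_congr rfl fun a _ => ?_
    rw [Matrix.mulVec_smul, hfix a e x hx]
  · intro e x hx u
    have h1 : P0 e (e x) = A e (e x) * Polynomial.aeval (A e (e x)) p := by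
      rw [hP0]
      unfold pol
      rw [mul_comm p, map_mul, Polynomial.aeval_X]
    refine ⟨fun e' z' => ∑ a, ip (w e (e x)) ((Polynomial.aeval (A e (e x)) p).mulVec u) (V a e (e x)) •
      V a e' z', parVF_sum Finset.univ (fun a _ => hV a) _, ?_⟩
    rw [h1, ← Matrix.mulVec_mulVec, hAmul]

end

end Vale.Agent.P299.H956
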