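import Vale.Agent.P299.H956.D1.Dist

/-! Integrability of the images of parallel projections. -/

open scoped Manifold ContDiff ComplexOrder Topology Matrix
open Complex Vale.Agent.P272.K Vale.Agent.P299.D Bundle

set_option linter.all false

noncomputable section

namespace Vale.Agent.P299.H956

section
variable {n : ℕ}

/-- differentiation of `w(V, Ū) = 0` -/
lemma dz_ip {G : Cm n → Matrix (Fin n) (Fin n) ℂ} {V U : Cm n → Cm n} {z : Cm n}
    (hG : ∀ i j, DifferentiableAt ℝ (fun y => G y i j) z) (hV : AnalyticAt ℂ V z)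
    (hU : AnalyticAt ℂ U z) (k : Fin n) :
    dz k (fun y => ip (G y) (V y) (U y)) z =
      ∑ i, ∑ j, (dz k (fun y => V y i) z * G z i j + V z i * dz k (fun y => G y i j) z) *
        cj (U z j) := by
  have hVi : ∀ i, DifferentiableAt ℝ (fun y => V y i) z := fun i =>
    ((analyticAt_pi_iff.1 hV i).differentiableAt).restrictScalars ℝ
  have hUi : ∀ i, DifferentiableAt ℝ (fun y => U y i) z := fun i =>
    ((analyticAt_pi_iff.1 hU i).differentiableAt).restrictScalars ℝ
  have hUc : ∀ i, DifferentiableAt ℝ (fun y => cj (U y i)) z := fun i =>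
    Complex.conjCLE.differentiableAt.comp z (hUi i)
  have h0 : (fun y => ip (G y) (V y) (U y)) = fun y => ∑ i, ∑ j, V y i * G y i j * cj (U y j) := by
    funext y
    rw [ip_eq_sum]
    refine Finset.sum_congr rfl fun i _ => ?_
    rw [Finset.mul_sum]
    exact Finset.sum_congr rfl fun j _ => by rw [← mul_assoc]
  have hd : ∀ i j, DifferentiableAt ℝ (fun y => V y i * G y i j * cj (U y j)) z := fun i j =>
    ((hVi i).mul (hG i j)).mul (hUc j)
  rw [h0, dz_sum (F := fun i y => ∑ j, V y i * G y i j * cj (U y j)) Finset.univ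
    fun i _ => DifferentiableAt.fun_sum fun j _ => hd i j]
  refine Finset.sum_congr rfl fun i _ => ?_
  rw [dz_sum (F := fun j y => V y i * G y i j * cj (U y j)) Finset.univ fun j _ => hd i j]
  refine Finset.sum_congr rfl fun j _ => ?_
  have e1 : DifferentiableAt ℝ (fun y => V y i * G y i j) z := (hVi i).mul (hG i j)
  rw [dz_mul e1 (hUc j), dz_mul (hVi i) (hG i j), dz_cj (hUi j),
    dzb_of_holo (analyticAt_pi_iff.1 hU j).differentiableAt]
  simp

/-- the bracket of two fields orthogonal to `U` is orthogonal to `U` (Kähler metric) -/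
lemma bracket_orth {G : Cm n → Matrix (Fin n) (Fin n) ℂ} {V W U : Cm n → Cm n} {z : Cm n}
    (hG : ∀ i j, DifferentiableAt ℝ (fun y => G y i j) z)
    (hK : ∀ i j k, dz k (fun y => G y i j) z = dz i (fun y => G y k j) z)
    (hV : AnalyticAt ℂ V z) (hW : AnalyticAt ℂ W z) (hU : AnalyticAt ℂ U z)
    (h1 : ∀ᶠ y in 𝓝 z, ip (G y) (V y) (U y) = 0) (h2 : ∀ᶠ y in 𝓝 z, ip (G y) (W y) (U y) = 0) :
    ip (G z) (fderiv ℂ W z (V z) - fderiv ℂ V z (W z)) (U z) = 0 := by
  have d1 : ∀ k, dz k (fun y => ip (G y) (V y) (U y)) z = 0 := fun k => by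
    rw [dz_congr (f := fun y => ip (G y) (V y) (U y)) (g := fun _ => 0) h1, dz_const]
  have d2 : ∀ k, dz k (fun y => ip (G y) (W y) (U y)) z = 0 := fun k => by
    rw [dz_congr (f := fun y => ip (G y) (W y) (U y)) (g := fun _ => 0) h2, dz_const]
  have hWd : DifferentiableAt ℂ W z := hW.differentiableAt
  have hVd : DifferentiableAt ℂ V z := hV.differentiableAt
  rw [ip_sub_left, jmR_mulVec hWd, jmR_mulVec hVd]
  have e1 : ∀ {W V : Cm n → Cm n}, ip (G z) ((jmR W z).mulVec (V z)) (U z) =
      ∑ k, V z k * ∑ i, ∑ j, dz k (fun y => W y i) z * G z i j * cj (U z j) := by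
    intro W V
    rw [ip_eq_sum]
    simp only [Matrix.mulVec, dotProduct, jmR, Matrix.of_apply, Finset.sum_mul, Finset.mul_sum]
    have : ∀ i, ∑ k, ∑ j, dz k (fun y => W y i) z * V z k * (G z i j * cj (U z j)) =
        ∑ j, ∑ k, dz k (fun y => W y i) z * V z k * (G z i j * cj (U z j)) := fun i =>
      Finset.sum_comm
    rw [Finset.sum_comm (s := (Finset.univ : Finset (Fin n))) (t := Finset.univ)
      (f := fun k i => ∑ j, V z k * (dz k (fun y => W y i) z * G z i j * cj (U z j)))]
    refine Finset.sum_congr rfl fun i _ => ?_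
    rw [Finset.sum_comm]
    refine Finset.sum_congr rfl fun k _ => Finset.sum_congr rfl fun j _ => ?_
    ring
  rw [e1, e1]
  -- the differentiated identities
  have f1 : ∑ k, W z k * dz k (fun y => ip (G y) (V y) (U y)) z = 0 := by simp [d1]
  have f2 : ∑ k, V z k * dz k (fun y => ip (G y) (W y) (U y)) z = 0 := by simp [d2]
  simp only [dz_ip hG hV hU, add_mul, Finset.sum_add_distrib, mul_add] at f1
  simp only [dz_ip hG hW hU, add_mul, Finset.sum_add_distrib, mul_add] at f2
  have e3 : ∑ k, W z k * ∑ i, ∑ j, V z i * dz k (fun y => G y i j) z * cj (U z j) =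
      ∑ k, V z k * ∑ i, ∑ j, W z i * dz k (fun y => G y i j) z * cj (U z j) := by
    simp only [Finset.mul_sum]
    rw [Finset.sum_comm]
    refine Finset.sum_congr rfl fun i _ => Finset.sum_congr rfl fun k _ =>
      Finset.sum_congr rfl fun j _ => ?_
    rw [hK i j k]
    ring
  rw [e3] at f1
  linear_combination f2 - f1

end

section
variable {n : ℕ} {X : Type*} [TopologicalSpace X] [ChartedSpace (Cm n) X]
  [IsManifold 𝓘(ℂ, Cm n) ω X] {w : FormM n X}

theorem isIntegrable_imDist (hw : IsKahler w) {P : FormM n X} (hP : ParEnd w P)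
    (hPP : IsProjF P) : Vale.Agent.P278.StmtF.IsIntegrable (imDist P) := by
  intro O V W hO hV hW x hx
  have hat := at_chartAt (n := n) x
  rw [mem_imDist hPP]
  have hbr := mlieBracket_chart (V := V) (W := W) x
  set c := chartAt (Cm n) x with hc
  have hw' := hw.posDef c x hat
  set Vh := toVF V c with hVh
  set Wh := toVF W c with hWh
  have hVa : AnalyticAt ℂ Vh (c x) :=
    contMDiffAt_section_iff.1 ((hV.1 x hx).contMDiffAt (hO.mem_nhds hx))
  have hWa : AnalyticAt ℂ Wh (c x) :=
    contMDiffAt_section_iff.1 ((hW.1 x hx).contMDiffAt (hO.mem_nhds hx))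
  have hnear : ∀ᶠ z in 𝓝 (c x), c.symm z ∈ O := by
    have := c.continuousAt_symm hat.mem_target
    rw [ContinuousAt, hat.left_inv] at this
    exact this.eventually (hO.mem_nhds hx)
  -- the bracket
  set B : Cm n := fderiv ℂ Wh (c x) (Vh (c x)) - fderiv ℂ Vh (c x) (Wh (c x)) with hB
  have hfixV : ∀ᶠ z in 𝓝 (c x), At c (c.symm z) ∧ (P c z).mulVec (Vh z) = Vh z ∧
      (P c z).mulVec (Wh z) = Wh z := by
    filter_upwards [hat.nhds_target, hnear] with z hz hz2
    have hz' := At.of_target hat.1 hz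
    have h1 := (mem_imDist_chart hP.hol hPP V hz').1 (hV.2 _ hz2)
    have h2 := (mem_imDist_chart hP.hol hPP W hz').1 (hW.2 _ hz2)
    rw [c.right_inv hz] at h1 h2
    exact ⟨hz', h1, h2⟩
  have hfix : ∀ᶠ z in 𝓝 (c x), At c (c.symm z) ∧ c (c.symm z) = z := by
    filter_upwards [hat.nhds_target] with z hz
    exact ⟨At.of_target hat.1 hz, c.right_inv hz⟩
  have key : ∀ u : Cm n, ip (w c (c x)) B ((1 - P c (c x)).mulVec u) = 0 := by
    intro u
    have hUa : AnalyticAt ℂ (fun z => (1 - P c z).mulVec u) (c x) := by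
      rw [analyticAt_pi_iff]
      intro i
      simp only [Matrix.mulVec, dotProduct]
      exact Finset.analyticAt_fun_sum _ fun j _ =>
        (analyticAt_const.sub (hP.hol.holo c x hat i j)).mul analyticAt_const
    have horth : ∀ z, At c (c.symm z) → c (c.symm z) = z → ∀ v : Cm n, (P c z).mulVec v = v →
        ip (w c z) v ((1 - P c z).mulVec u) = 0 := by
      intro z hz1 hz2 v hv
      have hsa : SA (w c z) (P c z) := by
        have := hP.SA hz1
        rwa [hz2] at this
      have hpp : P c z * P c z = P c z := by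
        have := hPP c _ hz1
        rwa [hz2] at this
      rw [← hv, ip_SA hsa, Matrix.mulVec_mulVec, Matrix.mul_sub, Matrix.mul_one, hpp, sub_self,
        Matrix.zero_mulVec, ip_zero_right]
    refine bracket_orth (G := fun z => w c z) (V := Vh) (W := Wh)
      (U := fun z => (1 - P c z).mulVec u) ?_ ?_ hVa hWa hUa ?_ ?_
    · exact fun i j => (hw.smooth c x hat i j).differentiableAt (by simp)
    · exact fun i j k => hw.closed c x hat i j k
    · filter_upwards [hfixV, hfix] with z hz hz2
      exact horth z hz.1 hz2.2 _ hz.2.1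
    · filter_upwards [hfixV, hfix] with z hz hz2
      exact horth z hz.1 hz2.2 _ hz.2.2
  have hQ : (1 - P c (c x)).mulVec B = 0 := by
    refine ip_self_eq_zero hw' ?_
    rw [ip_SA (SA.one.sub (hP.SA hat))]
    rw [Matrix.mulVec_mulVec]
    have h1 : (1 - P c (c x)) * (1 - P c (c x)) = 1 - P c (c x) := by
      rw [Matrix.sub_mul, Matrix.one_mul, Matrix.mul_sub, Matrix.mul_one, hPP c x hat, sub_self,
        sub_zero]
    rw [h1]
    exact key B
  rw [Matrix.sub_mulVec, Matrix.one_mulVec, sub_eq_zero] at hQ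
  rw [hbr]
  exact hQ.symm

end

end Vale.Agent.P299.H956
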