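import Vale.Agent.P299.H956.D1.PullE
import Vale.Agent.P299.H956.D1.KForm

/-! Descending endomorphism fields along Galois coverings; the splitting of the tangent bundle. -/

open scoped Manifold ContDiff ComplexOrder Topology Matrix
open Complex Vale.Agent.P272.K Vale.Agent.P299.D Vale.Agent.P278.H837

set_option linter.all false

noncomputable section

namespace Vale.Agent.P299.H956

section
variable {n : ℕ} {M X : Type*} [TopologicalSpace M] [TopologicalSpace X]
  [ChartedSpace (Cm n) M] [ChartedSpace (Cm n) X]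
  [IsManifold 𝓘(ℂ, Cm n) ω M] [IsManifold 𝓘(ℂ, Cm n) ω X] {π : M → X}

/-- `P` is invariant under the deck transformations -/
def Inv (π : M → X) (P : FormM n M) : Prop := ∀ (γ : Deck π) (e₁ e₂ : Chart n M) (m : M), At e₁ m →
  At e₂ ((γ : M ≃ₜ M) m) → jacF (γ : M ≃ₜ M) e₁ e₂ m * P e₁ (e₁ m) =
    P e₂ (e₂ ((γ : M ≃ₜ M) m)) * jacF (γ : M ≃ₜ M) e₁ e₂ m

omit [ChartedSpace (Cm n) X] [IsManifold 𝓘(ℂ, Cm n) ω X] in
lemma deck_proj (γ : Deck π) (m : M) : π ((γ : M ≃ₜ M) m) = π m := γ.2 m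

/-- the push forward at two points of the fibre agree -/
lemma push_eq (hl : IsLocalDiffeomorph 𝓘(ℂ, Cm n) 𝓘(ℂ, Cm n) ω π) {P : FormM n M} (hP : Inv π P)
    (γ : Deck π) {e₁ e₂ : Chart n M} {e' : Chart n X} {m : M} (h₁ : At e₁ m)
    (h₂ : At e₂ ((γ : M ≃ₜ M) m)) (h' : At e' (π m)) :
    jacF π e₁ e' m * P e₁ (e₁ m) * (jacF π e₁ e' m)⁻¹ =
      jacF π e₂ e' ((γ : M ≃ₜ M) m) * P e₂ (e₂ ((γ : M ≃ₜ M) m)) *
        (jacF π e₂ e' ((γ : M ≃ₜ M) m))⁻¹ := by
  have hγ : ContMDiff 𝓘(ℂ, Cm n) 𝓘(ℂ, Cm n) ω (γ : M ≃ₜ M) := contMDiff_deck hl γ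
  have h'' : At e' (π ((γ : M ≃ₜ M) m)) := by rw [deck_proj γ m]; exact h'
  have h1 : jacF (fun m => π ((γ : M ≃ₜ M) m)) e₁ e' m = jacF π e₂ e' ((γ : M ≃ₜ M) m) *
      jacF (γ : M ≃ₜ M) e₁ e₂ m :=
    jacF_comp (f := (γ : M ≃ₜ M)) (g := π) hγ.contMDiffAt hl.contMDiff.contMDiffAt h₁ h₂ h''
  have h2 : (fun m => π ((γ : M ≃ₜ M) m)) = π := funext (deck_proj γ)
  rw [h2] at h1
  have hi := immersive_of_localDiffeo hl
  have u1 := jac_isUnit hi h₁ h'
  have u2 := jac_isUnit hi h₂ h''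
  set A := jacF π e₂ e' ((γ : M ≃ₜ M) m)
  set J := jacF (γ : M ≃ₜ M) e₁ e₂ m
  set p := P e₂ (e₂ ((γ : M ≃ₜ M) m))
  have h3 : J * P e₁ (e₁ m) = p * J := hP γ e₁ e₂ m h₁ h₂
  have h4 : jacF π e₁ e' m * P e₁ (e₁ m) = A * p * A⁻¹ * jacF π e₁ e' m := by
    rw [h1, Matrix.mul_assoc A J, h3]
    calc A * (p * J) = A * p * (A⁻¹ * A) * J := by
          rw [Matrix.nonsing_inv_mul _ u2, Matrix.mul_one, Matrix.mul_assoc]
      _ = A * p * A⁻¹ * (A * J) := by simp only [Matrix.mul_assoc]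
  rw [h4, Matrix.mul_assoc, Matrix.mul_nonsing_inv _ u1, Matrix.mul_one]

/-- **descent** -/
theorem exists_desc (hl : IsLocalDiffeomorph 𝓘(ℂ, Cm n) 𝓘(ℂ, Cm n) ω π)
    (hs : Function.Surjective π) (hgal : ∀ m m' : M, π m = π m' → ∃ γ : Deck π, (γ : M ≃ₜ M) m = m')
    {P : FormM n M} (hP : IsHolEnd P) (hinv : Inv π P) :
    ∃ Q : FormM n X, IsHolEnd Q ∧ ∀ e e' m, At e m → At e' (π m) →
      Q e' (e' (π m)) = jacF π e e' m * P e (e m) * (jacF π e e' m)⁻¹ := by
  classical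
  choose σ hσ using hs
  let Q : FormM n X := fun e' z' =>
    jacF π (chartAt (Cm n) (σ (e'.symm z'))) e' (σ (e'.symm z')) *
      P (chartAt (Cm n) (σ (e'.symm z'))) (chartAt (Cm n) (σ (e'.symm z')) (σ (e'.symm z'))) *
      (jacF π (chartAt (Cm n) (σ (e'.symm z'))) e' (σ (e'.symm z')))⁻¹
  have hi := immersive_of_localDiffeo hl
  have key : ∀ e e' m, At e m → At e' (π m) →
      Q e' (e' (π m)) = jacF π e e' m * P e (e m) * (jacF π e e' m)⁻¹ := by
    intro e e' m he he'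
    simp only [Q]
    rw [he'.left_inv]
    obtain ⟨γ, hγ⟩ := hgal (σ (π m)) m (hσ _)
    have h1 := at_chartAt (n := n) (σ (π m))
    have h2 : At e' (π (σ (π m))) := by rw [hσ]; exact he'
    have := push_eq hl hinv γ (e₁ := chartAt (Cm n) (σ (π m))) (e₂ := e) (e' := e') h1
      (by rw [hγ]; exact he) h2
    rw [hγ] at this
    exact this
  refine ⟨Q, ⟨fun e' x h' => ?_, fun e₁ e₂ x h₁ h₂ => ?_⟩, key⟩
  · obtain ⟨m, rfl⟩ : ∃ m, π m = x := ⟨σ x, hσ x⟩
    have hat := at_chartAt (n := n) m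
    set c := chartAt (Cm n) m
    obtain ⟨g, hgm, hg, hgf, hfg⟩ := exists_localInverse hl m
    have hatg : At c (g (π m)) := by rw [hgm]; exact hat
    have hG : ContDiffAt ℂ ω (fun z => c (g (e'.symm z))) (e' (π m)) := rep_hol hg h' hatg
    have hG0 : c (g (e'.symm (e' (π m)))) = c m := by rw [h'.left_inv, hgm]
    have hJ := jacF_analytic (hl.contMDiff.contMDiffAt (x := m)) hat h'
    have hu : (jmR (fun z => e' (π (c.symm z))) (c m)).det ≠ 0 :=
      det_inj (hi c e' m hat h')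
    intro i j
    have hJ' : ∀ i j, AnalyticAt ℂ (fun z => jmR (fun z => e' (π (c.symm z)))
        (c (g (e'.symm z))) i j) (e' (π m)) := by
      intro i j
      refine AnalyticAt.comp' (g := fun z => jmR (fun z => e' (π (c.symm z))) z i j) ?_
        hG.analyticAt
      rw [hG0]
      exact hJ i j
    have hP' : ∀ i j, AnalyticAt ℂ (fun z => P c (c (g (e'.symm z))) i j) (e' (π m)) := by
      intro i j
      refine AnalyticAt.comp' (g := fun z => P c z i j) ?_ hG.analyticAt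
      rw [hG0]
      exact hP.holo c m hat i j
    have h3 : AnalyticAt ℂ (fun z => (jmR (fun z => e' (π (c.symm z))) (c (g (e'.symm z))) *
        P c (c (g (e'.symm z))) * (jmR (fun z => e' (π (c.symm z))) (c (g (e'.symm z))))⁻¹) i j)
        (e' (π m)) :=
      analytic_mul_entry (fun i j => analytic_mul_entry hJ' hP' i j)
        (fun i j => analytic_inv hJ' (by rw [hG0]; exact hu) i j) i j
    refine h3.congr ?_
    have hev : ∀ᶠ z in 𝓝 (e' (π m)), At c (g (e'.symm z)) ∧ π (g (e'.symm z)) = e'.symm z ∧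
        z ∈ e'.target := by
      filter_upwards [nhds_at_map hg.continuousAt h' hatg,
        (e'.continuousAt_symm h'.mem_target).eventually (by rw [h'.left_inv]; exact hfg)]
        with z hz hz2
      exact ⟨hz.2.2, hz2, hz.1⟩
    filter_upwards [hev] with z hz
    have h4 := key c e' (g (e'.symm z)) hz.1 (by rw [hz.2.1]; exact At.of_target h'.1 hz.2.2)
    rw [hz.2.1, e'.right_inv hz.2.2] at h4
    rw [h4, jacF_eq]
  · obtain ⟨m, rfl⟩ : ∃ m, π m = x := ⟨σ x, hσ x⟩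
    have hat := at_chartAt (n := n) m
    set c := chartAt (Cm n) m
    have u1 := jac_isUnit hi hat h₁
    have u2 := jac_isUnit hi hat h₂
    have h3 := jacF_right (hl.contMDiff.contMDiffAt (x := m)) hat h₁ h₂
    rw [key c e₁ m hat h₁, key c e₂ m hat h₂]
    set A := jacF π c e₁ m
    set B := jacF π c e₂ m
    set J := jacM e₁ e₂ (π m)
    calc J * (A * P c (c m) * A⁻¹) = B * P c (c m) * A⁻¹ := by
          rw [h3]; simp only [Matrix.mul_assoc]
      _ = B * P c (c m) * (B⁻¹ * B) * A⁻¹ := by rw [Matrix.nonsing_inv_mul _ u2, Matrix.mul_one]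
      _ = B * P c (c m) * B⁻¹ * (J * A) * A⁻¹ := by rw [← h3]; simp only [Matrix.mul_assoc]
      _ = B * P c (c m) * B⁻¹ * J := by
          rw [Matrix.mul_assoc, Matrix.mul_assoc J, Matrix.mul_nonsing_inv _ u1, Matrix.mul_one]

/-- self-adjointness descends -/
lemma SA_push {w B J : Matrix (Fin n) (Fin n) ℂ} (hJ : IsUnit J.det)
    (h : SA (J.transpose * w * mcj J) B) : SA w (J * B * J⁻¹) := by
  have hJ' : IsUnit (J⁻¹).det := by
    rw [Matrix.det_nonsing_inv]
    exact hJ.ringInverse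
  have h1 := SA_pull hJ' h
  rw [Matrix.nonsing_inv_nonsing_inv _ hJ] at h1
  have h2 : (J⁻¹).transpose * (J.transpose * w * mcj J) * mcj J⁻¹ = w := by
    have h3 : (J⁻¹).transpose * J.transpose = 1 := by
      rw [← Matrix.transpose_mul, Matrix.mul_nonsing_inv _ hJ, Matrix.transpose_one]
    calc (J⁻¹).transpose * (J.transpose * w * mcj J) * mcj J⁻¹
        = ((J⁻¹).transpose * J.transpose) * w * (mcj J * mcj J⁻¹) := by
          simp only [Matrix.mul_assoc]
      _ = w := by rw [h3, mcj_inv' hJ, Matrix.one_mul, Matrix.mul_one]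
  rwa [h2] at h1

/-- an orthogonal decomposition of the tangent bundle by parallel projections -/
structure PDec (w : FormM n X) {k : ℕ} (Q : Fin k → FormM n X) : Prop where
  par : ∀ i, ParEnd w (Q i)
  idem : ∀ i, IsProjF (Q i)
  orth : ∀ i j, i ≠ j → ∀ e x, At e x → Q i e (e x) * Q j e (e x) = 0
  sum : ∀ e x, At e x → ∑ i, Q i e (e x) = 1

/-- descent of an orthogonal decomposition -/
theorem PDec.desc (hl : IsLocalDiffeomorph 𝓘(ℂ, Cm n) 𝓘(ℂ, Cm n) ω π)
    (hs : Function.Surjective π) (hgal : ∀ m m' : M, π m = π m' → ∃ γ : Deck π, (γ : M ≃ₜ M) m = m')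
    {w : FormM n X} (hw : IsHermitian w) {k : ℕ} {P : Fin k → FormM n M}
    (h : PDec (pullM π w) P) (hinv : ∀ i, Inv π (P i)) :
    ∃ Q : Fin k → FormM n X, PDec w Q ∧ ∀ i e e' m, At e m → At e' (π m) →
      Q i e' (e' (π m)) = jacF π e e' m * P i e (e m) * (jacF π e e' m)⁻¹ := by
  choose Q hQ1 hQ2 using fun i => exists_desc hl hs hgal (h.par i).hol (hinv i)
  have hi := immersive_of_localDiffeo hl
  refine ⟨Q, ⟨fun i => ⟨hQ1 i, fun e' x h' => ?_⟩, fun i e' x h' => ?_, fun i j hij e' x h' => ?_,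
    fun e' x h' => ?_⟩, hQ2⟩
  all_goals
    obtain ⟨m, rfl⟩ := hs x
    have hat := at_chartAt (n := n) m
    have hu := jac_isUnit hi hat h'
  · have h1 := (h.par i).SA hat
    rw [pullM_eq hw.isForm (hl.contMDiff.contMDiffAt (x := m)) hat h'] at h1
    have h2 := SA_push hu h1
    rw [hQ2 i _ e' m hat h']
    exact h2
  · rw [hQ2 i _ e' m hat h']
    have h1 := h.idem i _ m hat
    set J := jacF π (chartAt (Cm n) m) e' m
    set p := P i (chartAt (Cm n) m) (chartAt (Cm n) m m)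
    calc J * p * J⁻¹ * (J * p * J⁻¹) = J * (p * (J⁻¹ * J) * p) * J⁻¹ := by
          simp only [Matrix.mul_assoc]
      _ = J * p * J⁻¹ := by rw [Matrix.nonsing_inv_mul _ hu, Matrix.mul_one, h1]
  · rw [hQ2 i _ e' m hat h', hQ2 j _ e' m hat h']
    have h1 := h.orth i j hij _ m hat
    set J := jacF π (chartAt (Cm n) m) e' m
    set p := P i (chartAt (Cm n) m) (chartAt (Cm n) m m)
    set q := P j (chartAt (Cm n) m) (chartAt (Cm n) m m)
    calc J * p * J⁻¹ * (J * q * J⁻¹) = J * (p * (J⁻¹ * J) * q) * J⁻¹ := by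
          simp only [Matrix.mul_assoc]
      _ = 0 := by rw [Matrix.nonsing_inv_mul _ hu, Matrix.mul_one, h1, Matrix.mul_zero,
          Matrix.zero_mul]
  · simp only [hQ2 _ _ e' m hat h']
    rw [← Finset.sum_mul, ← Finset.mul_sum, h.sum _ m hat, Matrix.mul_one,
      Matrix.mul_nonsing_inv _ hu]

end

end Vale.Agent.P299.H956
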