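import Vale.Agent.P299.H956.D1.Bridge
import Vale.Agent.P299.H956.D1.Par0
import Vale.Agent.P278.H976.Pair
import Mathlib.Analysis.Normed.Module.FiniteDimension

/-! Parallel projections give integrable holomorphic subbundles. -/

open scoped Manifold ContDiff ComplexOrder Topology Matrix
open Complex Vale.Agent.P272.K Vale.Agent.P299.D Bundle

set_option linter.all false

noncomputable section

namespace Vale.Agent.P299.H956

section
variable {n : ℕ} {X : Type*} [TopologicalSpace X] [ChartedSpace (Cm n) X]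
  [IsManifold 𝓘(ℂ, Cm n) ω X]

/-- a section is holomorphic at `x` if its components in one chart are -/
lemma contMDiffAt_section_of_chart {V : ∀ x : X, TangentSpace 𝓘(ℂ, Cm n) x} {e : Chart n X} {x : X}
    (h : At e x) (hV : AnalyticAt ℂ (toVF V e) (e x)) :
    ContMDiffAt 𝓘(ℂ, Cm n) 𝓘(ℂ, Cm n).tangent ω
      (fun x => (⟨x, V x⟩ : TangentBundle 𝓘(ℂ, Cm n) X)) x := by
  rw [contMDiffAt_section_iff]
  have hat := at_chartAt (n := n) x
  set c := chartAt (Cm n) x with hc
  have h2 : toVF V c =ᶠ[𝓝 (c x)] fun z => (jacM e c (e.symm (e (c.symm z)))).mulVec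
      (toVF V e (e (c.symm z))) := by
    filter_upwards [hat.nhds_at h] with z hz
    have := toVF_change V hz.2.2 hz.2.1
    rw [c.right_inv hz.1] at this
    rw [this, hz.2.2.left_inv]
  refine AnalyticAt.congr ?_ h2.symm
  have h3 : AnalyticAt ℂ (fun z => e (c.symm z)) (c x) := (transition hat h).analyticAt
  have h4 : ∀ p i, AnalyticAt ℂ (fun z => jacM e c (e.symm (e (c.symm z))) p i) (c x) := by
    intro p i
    refine AnalyticAt.comp' (g := fun z => jacM e c (e.symm z) p i) ?_ h3
    rw [hat.left_inv]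
    exact (jacM_holo h hat p i).analyticAt
  have h5 : AnalyticAt ℂ (fun z => toVF V e (e (c.symm z))) (c x) := by
    refine AnalyticAt.comp' (g := toVF V e) ?_ h3
    rw [hat.left_inv]
    exact hV
  rw [analyticAt_pi_iff]
  intro p
  simp only [Matrix.mulVec, dotProduct]
  exact Finset.analyticAt_fun_sum _ fun i _ => (h4 p i).mul ((analyticAt_pi_iff.1 h5) i)

/-- the image of an endomorphism field -/
def imDist (P : FormM n X) : Vale.Agent.P278.StmtF.Dist (Cm n) X := fun x =>
  (LinearMap.range (Matrix.toLin' (P (chartAt (Cm n) x) (chartAt (Cm n) x x))) :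
    Submodule ℂ (Cm n))

omit [IsManifold 𝓘(ℂ, Cm n) ω X] in
lemma mem_range_proj {P : Matrix (Fin n) (Fin n) ℂ} (hPP : P * P = P) (u : Cm n) :
    u ∈ LinearMap.range (Matrix.toLin' P) ↔ P.mulVec u = u := by
  constructor
  · rintro ⟨v, rfl⟩
    rw [Matrix.toLin'_apply, Matrix.mulVec_mulVec, hPP]
  · intro h
    exact ⟨u, by rw [Matrix.toLin'_apply, h]⟩

lemma mem_imDist {P : FormM n X} (hPP : IsProjF P) (x : X) (u : TangentSpace 𝓘(ℂ, Cm n) x) :
    u ∈ imDist P x ↔ (P (chartAt (Cm n) x) (chartAt (Cm n) x x)).mulVec (u : Cm n) = u :=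
  mem_range_proj (hPP _ _ (at_chartAt x)) u

/-- the same in any chart -/
lemma mem_imDist_chart {P : FormM n X} (hP : IsHolEnd P) (hPP : IsProjF P)
    (V : ∀ x : X, TangentSpace 𝓘(ℂ, Cm n) x) {e : Chart n X} {x : X} (h : At e x) :
    V x ∈ imDist P x ↔ (P e (e x)).mulVec (toVF V e (e x)) = toVF V e (e x) := by
  have hat := at_chartAt (n := n) x
  rw [mem_imDist hPP, ← toVF_chartAt V x, toVF_change V hat h, Matrix.mulVec_mulVec,
    ← hP.change _ _ x hat h, ← Matrix.mulVec_mulVec]
  constructor
  · intro h1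
    rw [h1]
  · intro h1
    have h2 := congrArg (jacM e (chartAt (Cm n) x) x).mulVec h1
    have key : ∀ u : Cm n, (jacM e (chartAt (Cm n) x) x).mulVec
        ((jacM (chartAt (Cm n) x) e x).mulVec u) = u := fun u => by
      rw [Matrix.mulVec_mulVec, jacM_mul hat h, Matrix.one_mulVec]
    rwa [key, key] at h2

/-- the rank of a projection field is locally constant -/
lemma trace_eventually {P : FormM n X} (hP : IsHolEnd P) (hPP : IsProjF P) {e : Chart n X} {x : X}
    (h : At e x) : ∀ᶠ y in 𝓝 x, At e y ∧ (P e (e y)).trace = (P e (e x)).trace := by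
  have hcont : ContinuousAt (fun z => (P e z).trace) (e x) := by
    unfold Matrix.trace
    exact (Finset.analyticAt_fun_sum _ fun i _ => hP.holo e x h i i).continuousAt
  have h1 : ContinuousAt (fun y => (P e (e y)).trace) x :=
    ContinuousAt.comp (g := fun z => (P e z).trace) hcont (e.continuousAt h.2)
  have h2 := h1.eventually (Metric.ball_mem_nhds _ (show (0 : ℝ) < 1 by norm_num))
  filter_upwards [h2, e.open_source.mem_nhds h.2] with y hy hy2
  have hy' : At e y := ⟨h.1, hy2⟩
  refine ⟨hy', ?_⟩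
  obtain ⟨r1, -, e1⟩ := trace_idem (hPP e y hy')
  obtain ⟨r2, -, e2⟩ := trace_idem (hPP e x h)
  rw [dist_eq_norm, e1, e2] at hy
  rw [e1, e2]
  have h3 : ‖((r1 : ℤ) - (r2 : ℤ) : ℤ)‖ < 1 := by
    have : ((((r1 : ℤ) - (r2 : ℤ) : ℤ) : ℂ)) = (r1 : ℂ) - r2 := by push_cast; ring
    rw [← this, Complex.norm_intCast] at hy
    rw [Int.norm_eq_abs]
    exact hy
  have h4 : ((r1 : ℤ) - (r2 : ℤ) : ℤ) = 0 := by
    rw [Int.norm_eq_abs] at h3
    have : |((r1 : ℤ) - (r2 : ℤ))| < 1 := by exact_mod_cast h3
    exact Int.abs_lt_one_iff.1 this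
  have : (r1 : ℤ) = r2 := sub_eq_zero.1 h4
  exact_mod_cast this

omit [IsManifold 𝓘(ℂ, Cm n) ω X] in
lemma span_eq_of {r : ℕ} (D : Submodule ℂ (Cm n)) (s : Fin r → Cm n)
    (hli : LinearIndependent ℂ s) (hmem : ∀ a, s a ∈ D) (hD : Module.finrank ℂ D = r) :
    Submodule.span ℂ (Set.range s) = D := by
  refine Submodule.eq_of_le_of_finrank_le ?_ ?_
  · rw [Submodule.span_le]
    rintro _ ⟨a, rfl⟩
    exact hmem a
  · rw [finrank_span_eq_card hli, Fintype.card_fin, hD]

omit [IsManifold 𝓘(ℂ, Cm n) ω X] in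
lemma finrank_conj (J J' P : Matrix (Fin n) (Fin n) ℂ) (hJ : J' * J = 1) :
    Module.finrank ℂ (LinearMap.range (Matrix.toLin' (J * P * J'))) =
      Module.finrank ℂ (LinearMap.range (Matrix.toLin' P)) := by
  have hLinj : Function.Injective (Matrix.toLin' J) := by
    intro u v huv
    have h1 : J.mulVec u = J.mulVec v := huv
    have h2 := congrArg J'.mulVec h1
    rwa [Matrix.mulVec_mulVec, Matrix.mulVec_mulVec, hJ, Matrix.one_mulVec,
      Matrix.one_mulVec] at h2
  have h5 : LinearMap.range (Matrix.toLin' (J * P * J')) =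
      (LinearMap.range (Matrix.toLin' P)).map (Matrix.toLin' J) := by
    ext u
    constructor
    · rintro ⟨v, rfl⟩
      refine ⟨P.mulVec (J'.mulVec v), ⟨_, rfl⟩, ?_⟩
      simp only [Matrix.toLin'_apply, Matrix.mulVec_mulVec, Matrix.mul_assoc]
    · rintro ⟨_, ⟨v, rfl⟩, rfl⟩
      refine ⟨J.mulVec v, ?_⟩
      simp only [Matrix.toLin'_apply, Matrix.mulVec_mulVec, Matrix.mul_assoc, hJ, Matrix.mul_one]
  rw [h5]
  exact (LinearEquiv.finrank_eq (Submodule.equivMapOfInjective _ hLinj _)).symm

/-- the image of a holomorphic field of projections is a holomorphic subbundle -/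
theorem isSubbundle_imDist {P : FormM n X} (hP : IsHolEnd P) (hPP : IsProjF P) :
    Vale.Agent.P278.StmtF.IsSubbundle (imDist P) := by
  intro x0
  have h0 := at_chartAt (n := n) x0
  set c := chartAt (Cm n) x0 with hc
  set R : Submodule ℂ (Cm n) := LinearMap.range (Matrix.toLin' (P c (c x0))) with hR
  set r := Module.finrank ℂ R with hr
  let b := Module.finBasis ℂ R
  -- the frame
  let s : Fin r → ∀ x : X, TangentSpace 𝓘(ℂ, Cm n) x := fun a x =>
    (jacM c (chartAt (Cm n) x) x).mulVec ((P c (c x)).mulVec (b a : Cm n))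
  have hsc : ∀ a x, At c x → toVF (s a) c (c x) = (P c (c x)).mulVec (b a : Cm n) := by
    intro a x hx
    unfold toVF
    rw [hx.left_inv]
    show (jacM (chartAt (Cm n) x) c x).mulVec ((jacM c (chartAt (Cm n) x) x).mulVec _) = _
    rw [Matrix.mulVec_mulVec _ (jacM (chartAt (Cm n) x) c x), jacM_mul hx (at_chartAt x),
      Matrix.one_mulVec]
  -- linear independence near `x0`
  have hcontP : ∀ a, ContinuousAt (fun x => (P c (c x)).mulVec (b a : Cm n)) x0 := by
    intro a
    have h1 : ContinuousAt (fun z => (P c z).mulVec (b a : Cm n)) (c x0) := by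
      rw [continuousAt_pi]
      intro i
      simp only [Matrix.mulVec, dotProduct]
      exact tendsto_finsetSum _ fun j _ =>
        ((hP.holo c x0 h0 i j).continuousAt.mul continuousAt_const)
    exact ContinuousAt.comp (g := fun z => (P c z).mulVec (b a : Cm n)) h1 (c.continuousAt h0.2)
  have hfix : ∀ a, (P c (c x0)).mulVec (b a : Cm n) = (b a : Cm n) := fun a =>
    (mem_range_proj (hPP c x0 h0) _).1 (b a).2
  have hli0 : LinearIndependent ℂ (fun a => (b a : Cm n)) :=
    b.linearIndependent.map' R.subtype (by simp)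
  have hli : ∀ᶠ x in 𝓝 x0, LinearIndependent ℂ (fun a => (P c (c x)).mulVec (b a : Cm n)) := by
    have h1 : ContinuousAt (fun x => fun a => (P c (c x)).mulVec (b a : Cm n)) x0 :=
      continuousAt_pi.2 hcontP
    refine h1.eventually (isOpen_setOf_linearIndependent.mem_nhds ?_)
    show LinearIndependent ℂ (fun a => (P c (c x0)).mulVec (b a : Cm n))
    simp only [hfix]
    exact hli0
  have hrank : ∀ᶠ x in 𝓝 x0, At c x ∧
      Module.finrank ℂ (LinearMap.range (Matrix.toLin' (P c (c x)))) = r := by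
    filter_upwards [trace_eventually hP hPP h0] with x hx
    refine ⟨hx.1, ?_⟩
    have key : ∀ x, At c x → (P c (c x)).trace =
        (Module.finrank ℂ (LinearMap.range (Matrix.toLin' (P c (c x)))) : ℂ) := by
      intro x hx
      have h1 : IsIdempotentElem (Matrix.toLin' (P c (c x))) := by
        show Matrix.toLin' _ * Matrix.toLin' _ = Matrix.toLin' _
        rw [Module.End.mul_eq_comp, ← Matrix.toLin'_mul, hPP c x hx]
      have h2 := (LinearMap.IsIdempotentElem.isProj_range _ h1).trace
      rwa [Matrix.trace_toLin'_eq] at h2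
    have h3 := hx.2
    rw [key x hx.1, key x0 h0] at h3
    exact_mod_cast h3
  obtain ⟨U, hU, hUo, hx0U⟩ := eventually_nhds_iff.1 (hli.and hrank)
  refine ⟨U, hUo.mem_nhds hx0U, r, s, fun a => ⟨fun x hx => ?_, fun x hx => ?_⟩, fun x hx => ?_⟩
  · have hx' := (hU x hx).2.1
    refine (contMDiffAt_section_of_chart hx' ?_).contMDiffWithinAt
    have h1 : AnalyticAt ℂ (fun z => (P c z).mulVec (b a : Cm n)) (c x) := by
      rw [analyticAt_pi_iff]
      intro i
      simp only [Matrix.mulVec, dotProduct]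
      exact Finset.analyticAt_fun_sum _ fun j _ => (hP.holo c x hx' i j).mul analyticAt_const
    refine h1.congr ?_
    filter_upwards [hx'.nhds_target] with z hz
    have := hsc a (c.symm z) (At.of_target hx'.1 hz)
    rw [c.right_inv hz] at this
    exact this.symm
  · have hx' := (hU x hx).2.1
    rw [mem_imDist_chart hP hPP (s a) hx', hsc a x hx', Matrix.mulVec_mulVec, hPP c x hx']
  · have hx' := (hU x hx).2.1
    have hat := at_chartAt (n := n) x
    -- the invertible change of coordinates
    let L : Cm n →ₗ[ℂ] Cm n := Matrix.toLin' (jacM c (chartAt (Cm n) x) x)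
    have hLinj : Function.Injective L := by
      intro u v huv
      have h1 : (jacM c (chartAt (Cm n) x) x).mulVec u = (jacM c (chartAt (Cm n) x) x).mulVec v := huv
      have h2 := congrArg (jacM (chartAt (Cm n) x) c x).mulVec h1
      rwa [Matrix.mulVec_mulVec, Matrix.mulVec_mulVec, jacM_mul hx' hat, Matrix.one_mulVec,
        Matrix.one_mulVec] at h2
    have hs : (fun a => (s a x : Cm n)) = fun a => L ((P c (c x)).mulVec (b a : Cm n)) := rfl
    have hli' : LinearIndependent ℂ (fun a => (s a x : Cm n)) := by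
      rw [hs]
      exact (hU x hx).1.map' L (LinearMap.ker_eq_bot.2 hLinj)
    refine ⟨hli', ?_⟩
    refine span_eq_of (LinearMap.range (Matrix.toLin'
      (P (chartAt (Cm n) x) (chartAt (Cm n) x x)))) (fun a => (s a x : Cm n)) hli' ?_ ?_
    · intro a
      show s a x ∈ imDist P x
      rw [mem_imDist_chart hP hPP (s a) hx', hsc a x hx', Matrix.mulVec_mulVec, hPP c x hx']
    · have h6 := hP.change c (chartAt (Cm n) x) x hx' hat
      have h7 : P (chartAt (Cm n) x) (chartAt (Cm n) x x) =
          jacM c (chartAt (Cm n) x) x * P c (c x) * jacM (chartAt (Cm n) x) c x := by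
        rw [h6, Matrix.mul_assoc, jacM_mul hat hx', Matrix.mul_one]
      rw [h7, finrank_conj _ _ _ (jacM_mul hx' hat), (hU x hx).2.2]

end

end Vale.Agent.P299.H956
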