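import Mathlib.Analysis.Matrix.PosDef
import Mathlib.Analysis.Matrix.Order
import Mathlib.Analysis.Complex.Basic
import Mathlib.FieldTheory.Minpoly.Field
import Mathlib.LinearAlgebra.Matrix.PosDef

/-!
# Pointwise algebra: endomorphisms which are self-adjoint with respect to a Hermitian form

`w` is the coefficient matrix of a Hermitian inner product `⟨u, v⟩ = uᵀ w v̄` on `ℂⁿ`; a matrix `B`
is self-adjoint (`SA w B`) if `Bᵀ w = w B̄`.
-/

open scoped ComplexOrder Matrix MatrixOrder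
open Matrix Polynomial

noncomputable section

namespace Vale.Agent.P299.H956

variable {n : ℕ}

/-- complex conjugate of a matrix -/
abbrev mcj (B : Matrix (Fin n) (Fin n) ℂ) : Matrix (Fin n) (Fin n) ℂ := B.map (starRingEnd ℂ)

/-- `B` is self-adjoint for the Hermitian form `⟨u, v⟩ = uᵀ w v̄` -/
def SA (w B : Matrix (Fin n) (Fin n) ℂ) : Prop := Bᵀ * w = w * mcj B

lemma mcj_mul (A B : Matrix (Fin n) (Fin n) ℂ) : mcj (A * B) = mcj A * mcj B := by
  unfold mcj; rw [Matrix.map_mul]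

lemma mcj_add (A B : Matrix (Fin n) (Fin n) ℂ) : mcj (A + B) = mcj A + mcj B := by
  unfold mcj
  exact Matrix.map_add _ (fun a b => map_add _ a b) A B

lemma mcj_sub (A B : Matrix (Fin n) (Fin n) ℂ) : mcj (A - B) = mcj A - mcj B := by
  unfold mcj
  exact Matrix.map_sub _ (fun a b => map_sub _ a b) A B

lemma mcj_one : mcj (1 : Matrix (Fin n) (Fin n) ℂ) = 1 := by
  unfold mcj
  exact Matrix.map_one _ (map_zero _) (map_one _)

lemma mcj_zero : mcj (0 : Matrix (Fin n) (Fin n) ℂ) = 0 := by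
  unfold mcj
  exact Matrix.map_zero _ (map_zero _)

lemma mcj_smul_real (r : ℝ) (A : Matrix (Fin n) (Fin n) ℂ) : mcj (r • A) = r • mcj A := by
  ext i j
  simp [mcj]

lemma mcj_eq (A : Matrix (Fin n) (Fin n) ℂ) : mcj A = (Aᵀ)ᴴ := by
  ext i j
  simp [mcj, Matrix.conjTranspose_apply]

namespace SA

variable {w A B : Matrix (Fin n) (Fin n) ℂ}

lemma zero : SA w 0 := by simp [SA]

lemma one : SA w 1 := by simp [SA]

lemma add (hA : SA w A) (hB : SA w B) : SA w (A + B) := by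
  unfold SA at *
  rw [mcj_add, transpose_add, Matrix.add_mul, Matrix.mul_add, hA, hB]

lemma sub (hA : SA w A) (hB : SA w B) : SA w (A - B) := by
  unfold SA at *
  rw [mcj_sub, transpose_sub, Matrix.sub_mul, Matrix.mul_sub, hA, hB]

lemma smul (r : ℝ) (hA : SA w A) : SA w (r • A) := by
  unfold SA at *
  rw [mcj_smul_real, transpose_smul, Matrix.smul_mul, Matrix.mul_smul, hA]

lemma mul (hA : SA w A) (hB : SA w B) (h : A * B = B * A) : SA w (A * B) := by
  unfold SA at *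
  rw [transpose_mul, Matrix.mul_assoc, hA, ← Matrix.mul_assoc, hB, Matrix.mul_assoc, ← mcj_mul, h]

lemma pow (hA : SA w A) (k : ℕ) : SA w (A ^ k) := by
  induction k with
  | zero => simpa using one
  | succ k ih =>
    rw [pow_succ]
    exact ih.mul hA ((Commute.refl A).pow_left k).eq

lemma aeval (hA : SA w A) (p : ℝ[X]) : SA w (Polynomial.aeval A p) := by
  induction p using Polynomial.induction_on' with
  | add p q hp hq => rw [map_add]; exact hp.add hq
  | monomial k a =>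
    rw [Polynomial.aeval_monomial, ← Algebra.smul_def]
    exact (hA.pow k).smul a

/-- the trace of a self-adjoint endomorphism is real -/
lemma trace_real (hw : w.PosDef) (hA : SA w A) : (starRingEnd ℂ) A.trace = A.trace := by
  have hu : IsUnit w.det := (Matrix.isUnit_iff_isUnit_det w).1 hw.isUnit
  have h1 : mcj A = w⁻¹ * (Aᵀ * w) := by
    rw [show Aᵀ * w = w * mcj A from hA, ← Matrix.mul_assoc, Matrix.nonsing_inv_mul _ hu,
      Matrix.one_mul]
  have h2 : (mcj A).trace = (starRingEnd ℂ) A.trace := by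
    unfold Matrix.trace mcj
    rw [map_sum]
    rfl
  rw [← h2, h1, Matrix.trace_mul_comm, Matrix.mul_assoc, Matrix.mul_nonsing_inv _ hu,
    Matrix.mul_one, Matrix.trace_transpose]

/-- the square of the Hilbert-Schmidt norm -/
lemma trace_sq (hw : w.PosDef) (hA : SA w A) :
    ∃ R : Matrix (Fin n) (Fin n) ℂ, (A * A).trace = (R * Rᴴ).trace ∧ (R = 0 → A = 0) := by
  have hu : IsUnit w.det := (Matrix.isUnit_iff_isUnit_det w).1 hw.isUnit
  obtain ⟨S, hS⟩ : ∃ S, w = Sᴴ * S := by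
    obtain ⟨S, hS⟩ := CStarAlgebra.nonneg_iff_eq_star_mul_self.mp hw.posSemidef.nonneg
    exact ⟨S, hS⟩
  obtain ⟨T, hT⟩ : ∃ T, w⁻¹ = Tᴴ * T := by
    obtain ⟨S, hS⟩ := CStarAlgebra.nonneg_iff_eq_star_mul_self.mp hw.posSemidef.inv.nonneg
    exact ⟨S, hS⟩
  have hSu : IsUnit S.det := by
    have := hu
    rw [hS, Matrix.det_mul] at this
    exact isUnit_of_mul_isUnit_right this
  have hTu : IsUnit T.det := by
    have h1 : IsUnit (w⁻¹).det := (Matrix.isUnit_nonsing_inv_det _ hu)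
    rw [hT, Matrix.det_mul] at h1
    exact isUnit_of_mul_isUnit_right h1
  -- with `C = Aᵀ`: `C * C = C * w * Cᴴ * w⁻¹`
  have h1 : Aᵀ = w * (Aᵀ)ᴴ * w⁻¹ := by
    rw [← mcj_eq, ← show Aᵀ * w = w * mcj A from hA, Matrix.mul_assoc,
      Matrix.mul_nonsing_inv _ hu, Matrix.mul_one]
  refine ⟨T * Aᵀ * Sᴴ, ?_, ?_⟩
  · have h2 : (A * A).trace = (Aᵀ * Aᵀ).trace := by
      rw [← Matrix.transpose_mul, Matrix.trace_transpose]
    have h3 : Aᵀ * Aᵀ = Aᵀ * w * (Aᵀ)ᴴ * w⁻¹ := by
      conv_lhs => rw [h1]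
      conv_rhs => rw [h1]
      simp only [Matrix.mul_assoc, Matrix.nonsing_inv_mul _ hu, Matrix.mul_one]
      have h4 : w⁻¹ * (w * ((Aᵀ)ᴴ * w⁻¹)) = (Aᵀ)ᴴ * w⁻¹ := by
        rw [← Matrix.mul_assoc, Matrix.nonsing_inv_mul _ hu, Matrix.one_mul]
      rw [h4]
      have h5 : (w * ((Aᵀ)ᴴ * w⁻¹))ᴴ * w⁻¹ = (Aᵀ)ᴴ * w⁻¹ := by
        rw [← Matrix.mul_assoc w, ← h1]
      rw [h5]
    rw [h2, h3]
    conv_lhs => rw [hT, hS]
    have h6 : (T * Aᵀ * Sᴴ) * (T * Aᵀ * Sᴴ)ᴴ = T * (Aᵀ * (Sᴴ * S) * (Aᵀ)ᴴ * Tᴴ) := by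
      rw [Matrix.conjTranspose_mul, Matrix.conjTranspose_mul, Matrix.conjTranspose_conjTranspose]
      simp only [Matrix.mul_assoc]
    rw [h6, Matrix.trace_mul_comm T]
    simp only [Matrix.mul_assoc]
  · intro h
    have h2 : T * Aᵀ = 0 := by
      have : T * Aᵀ * Sᴴ * (Sᴴ)⁻¹ = 0 := by rw [h, Matrix.zero_mul]
      rwa [Matrix.mul_assoc, Matrix.mul_nonsing_inv _ (by
        rw [Matrix.det_conjTranspose]; exact hSu.star), Matrix.mul_one] at this
    have h3 : Aᵀ = 0 := by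
      have : T⁻¹ * (T * Aᵀ) = 0 := by rw [h2, Matrix.mul_zero]
      rwa [← Matrix.mul_assoc, Matrix.nonsing_inv_mul _ hTu, Matrix.one_mul] at this
    rw [← Matrix.transpose_transpose A, h3, Matrix.transpose_zero]

lemma trace_sq_nonneg (hw : w.PosDef) (hA : SA w A) : 0 ≤ (A * A).trace := by
  obtain ⟨R, h, -⟩ := hA.trace_sq hw
  rw [h]
  exact (Matrix.posSemidef_self_mul_conjTranspose R).trace_nonneg

/-- `tr (A²) = 0` only for `A = 0` -/
lemma eq_zero_of_trace (hw : w.PosDef) (hA : SA w A) (h : (A * A).trace = 0) : A = 0 := by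
  obtain ⟨R, h1, h2⟩ := hA.trace_sq hw
  rw [h] at h1
  exact h2 (Matrix.trace_mul_conjTranspose_self_eq_zero_iff.1 h1.symm)

lemma eq_zero_of_sq (hw : w.PosDef) (hA : SA w A) (h : A * A = 0) : A = 0 :=
  hA.eq_zero_of_trace hw (by rw [h, Matrix.trace_zero])

lemma eq_zero_of_nilpotent (hw : w.PosDef) (hA : SA w A) {k : ℕ} (h : A ^ k = 0) : A = 0 := by
  have key : ∀ j : ℕ, A ^ (2 ^ j) = 0 → A = 0 := by
    intro j
    induction j with
    | zero => intro h; simpa using h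
    | succ j ih =>
      intro h
      apply ih
      refine (hA.pow _).eq_zero_of_sq hw ?_
      rw [← pow_add, ← two_mul, ← pow_succ']
      exact h
  refine key k ?_
  have h2 : k ≤ 2 ^ k := Nat.lt_two_pow_self.le
  obtain ⟨m, hm⟩ := Nat.exists_eq_add_of_le h2
  rw [hm, pow_add, h, zero_mul]

/-- the orthogonal projection onto the image of a self-adjoint endomorphism is a real polynomial
without constant term in it -/
lemma exists_poly (hw : w.PosDef) (hA : SA w A) : ∃ p : ℝ[X],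
    Polynomial.aeval A (p * X) * A = A ∧
    Polynomial.aeval A (p * X) * Polynomial.aeval A (p * X) = Polynomial.aeval A (p * X) := by
  have hint : IsIntegral ℝ A := IsIntegral.of_finite ℝ A
  set m := minpoly ℝ A with hm
  have hm0 : m ≠ 0 := minpoly.ne_zero hint
  obtain ⟨q, hq, hq0⟩ := Polynomial.exists_eq_pow_rootMultiplicity_mul_and_not_dvd m hm0 0
  rw [map_zero, sub_zero] at hq hq0
  set k := m.rootMultiplicity 0 with hk
  have hc : q.coeff 0 ≠ 0 := fun h => hq0 (Polynomial.X_dvd_iff.2 h)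
  set c := q.coeff 0 with hcdef
  -- `A * q(A)` is nilpotent
  have h1 : Polynomial.aeval A (X * q) = 0 := by
    refine (hA.aeval _).eq_zero_of_nilpotent hw (k := k + 1) ?_
    rw [← map_pow, mul_pow]
    have h2 : X ^ (k + 1) * q ^ (k + 1) = (X * q ^ k) * m := by
      rw [hq]; ring
    rw [h2, map_mul, hm, minpoly.aeval, mul_zero]
  -- `1 - q / c` is divisible by `X`
  obtain ⟨p, hp⟩ : X ∣ (1 - C c⁻¹ * q : ℝ[X]) := by
    rw [Polynomial.X_dvd_iff, Polynomial.coeff_sub, Polynomial.coeff_C_mul, Polynomial.coeff_one_zero,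
      ← hcdef, inv_mul_cancel₀ hc, sub_self]
  have h3 : Polynomial.aeval A (p * X) = 1 - Polynomial.aeval A (C c⁻¹ * q) := by
    rw [mul_comm p X, ← hp, map_sub, map_one]
  have h4 : Polynomial.aeval A (C c⁻¹ * q) * A = 0 := by
    have h5 : Polynomial.aeval A (C c⁻¹ * q) * A = Polynomial.aeval A (C c⁻¹ * (X * q)) := by
      rw [show C c⁻¹ * (X * q) = (C c⁻¹ * q) * X by ring, map_mul _ _ X, Polynomial.aeval_X]
    rw [h5, map_mul, h1, mul_zero]
  have h6 : Polynomial.aeval A (p * X) * A = A := by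
    rw [h3, sub_mul, one_mul, h4, sub_zero]
  refine ⟨p, h6, ?_⟩
  have h7 : Polynomial.aeval A (C c⁻¹ * q) * Polynomial.aeval A (p * X) = 0 := by
    rw [← map_mul, show C c⁻¹ * q * (p * X) = p * (C c⁻¹ * q * X) by ring, map_mul _ p,
      map_mul _ _ X, Polynomial.aeval_X, h4, mul_zero]
  conv_lhs => rw [h3, sub_mul, one_mul]
  rw [← h3, h7, sub_zero]

end SA

end Vale.Agent.P299.H956
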