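import Vale.Agent.P299.H956.D1.Imm
import Vale.Agent.P299.H956.D1.SA
import Mathlib.Analysis.Calculus.FDeriv.Analytic
import Mathlib.Topology.LocallyConstant.Basic
import Mathlib.Analysis.Calculus.MeanValue

/-! Holomorphic self-adjoint endomorphism fields (= parallel self-adjoint fields). -/

open scoped Manifold ContDiff ComplexOrder Topology Polynomial
open Complex Vale.Agent.P272.K Vale.Agent.P299.D Polynomial

set_option linter.all false

noncomputable section

namespace Vale.Agent.P299.H956

/-- a function which is holomorphic together with its conjugate is locally constant -/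
lemma ev_const {n : ℕ} {F : Cm n → ℂ} {z0 : Cm n} (h : AnalyticAt ℂ F z0)
    (h' : AnalyticAt ℂ (fun z => cj (F z)) z0) : ∀ᶠ z in 𝓝 z0, F z = F z0 := by
  have h1 := h.eventually_analyticAt
  have h2 := h'.eventually_analyticAt
  obtain ⟨r, hr, hb⟩ := Metric.eventually_nhds_iff_ball.1 (h1.and h2)
  filter_upwards [Metric.ball_mem_nhds z0 hr] with z hz
  have hd : ∀ y ∈ Metric.ball z0 r, HasFDerivAt F (0 : Cm n →L[ℂ] ℂ) y := by
    intro y hy
    have h3 : DifferentiableAt ℂ F y := (hb y hy).1.differentiableAt
    have h4 : DifferentiableAt ℂ (fun z => cj (F z)) y := (hb y hy).2.differentiableAt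
    have h5 : fderiv ℂ F y = 0 := by
      ext v
      have e1 : fderiv ℝ (fun z => cj (F z)) y v = cj (fderiv ℝ F y v) :=
        fderiv_cj (h3.restrictScalars ℝ) v
      have e2 : fderiv ℝ (fun z => cj (F z)) y (Complex.I • v) = cj (fderiv ℝ F y (Complex.I • v)) :=
        fderiv_cj (h3.restrictScalars ℝ) _
      rw [fderivR_of_holo h4, fderivR_of_holo h3, map_smul, map_smul, smul_eq_mul, smul_eq_mul] at e2
      rw [fderivR_of_holo h4, fderivR_of_holo h3] at e1
      rw [e1] at e2
      have e3 : cj (Complex.I * fderiv ℂ F y v) = -Complex.I * cj (fderiv ℂ F y v) := by simp [cj]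
      rw [e3] at e2
      have e4 : Complex.I * cj (fderiv ℂ F y v) = 0 := by linear_combination e2 / 2
      have e5 : cj (fderiv ℂ F y v) = 0 := by
        rcases mul_eq_zero.1 e4 with h | h
        · exact absurd h Complex.I_ne_zero
        · exact h
      have e6 : fderiv ℂ F y v = 0 := by
        have := congrArg (starRingEnd ℂ) e5
        simpa [cj] using this
      rw [e6]; rfl
    rw [← h5]
    exact h3.hasFDerivAt
  have hconv : Convex ℝ (Metric.ball z0 r) := convex_ball z0 r
  refine hconv.is_const_of_fderivWithin_eq_zero (𝕜 := ℂ) (f := F) ?_ ?_ hz (Metric.mem_ball_self hr)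
  · intro y hy
    exact (hd y hy).differentiableAt.differentiableWithinAt
  · intro y hy
    rw [fderivWithin_of_isOpen Metric.isOpen_ball hy]
    exact (hd y hy).fderiv

section
variable {n : ℕ} {X : Type*} [TopologicalSpace X] [ChartedSpace (Cm n) X]

/-- a function on a connected manifold which is holomorphic together with its conjugate is
constant -/
lemma chart_const [PreconnectedSpace X] {t : Chart n X → Cm n → ℂ}
    (hc : ∀ e e' x, At e x → At e' x → t e (e x) = t e' (e' x))
    (h : ∀ e x, At e x → AnalyticAt ℂ (t e) (e x))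
    (h' : ∀ e x, At e x → AnalyticAt ℂ (fun z => cj (t e z)) (e x)) {e e' : Chart n X} {x x' : X}
    (hx : At e x) (hx' : At e' x') : t e (e x) = t e' (e' x') := by
  set g : X → ℂ := fun x => t (chartAt (Cm n) x) (chartAt (Cm n) x x) with hg
  have hgx : ∀ {e : Chart n X} {x : X}, At e x → t e (e x) = g x := fun {e x} hx =>
    hc _ _ _ hx (at_chartAt x)
  have hl : IsLocallyConstant g := by
    rw [IsLocallyConstant.iff_eventually_eq]
    intro x
    have hx := at_chartAt (n := n) x
    set c := chartAt (Cm n) x
    have h1 := ev_const (h c x hx) (h' c x hx)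
    have h2 : Filter.Tendsto c (𝓝 x) (𝓝 (c x)) := c.continuousAt hx.2
    filter_upwards [h2.eventually h1, c.open_source.mem_nhds hx.2] with y hy hy2
    rw [← hgx (⟨hx.1, hy2⟩ : At c y), hy, hgx hx]
  rw [hgx hx, hgx hx']
  exact hl.apply_eq_of_preconnectedSpace x x'

/-- real polynomials in an endomorphism field -/
def pol (p : ℝ[X]) (B : FormM n X) : FormM n X := fun e z => Polynomial.aeval (B e z) p

lemma analytic_mul_entry {A B : Cm n → Matrix (Fin n) (Fin n) ℂ} {z : Cm n}
    (hA : ∀ i j, AnalyticAt ℂ (fun y => A y i j) z) (hB : ∀ i j, AnalyticAt ℂ (fun y => B y i j) z)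
    (i j : Fin n) : AnalyticAt ℂ (fun y => (A y * B y) i j) z := by
  simp only [Matrix.mul_apply]
  exact Finset.analyticAt_fun_sum _ fun k _ => (hA i k).mul (hB k j)

namespace HolEnd

variable {A B : FormM n X}

lemma zero : IsHolEnd (fun _ _ => 0 : FormM n X) where
  holo e x h i j := analyticAt_const
  change e e' x h h' := by simp

lemma one : IsHolEnd (fun _ _ => 1 : FormM n X) where
  holo e x h i j := analyticAt_const
  change e e' x h h' := by simp

lemma add (hA : IsHolEnd A) (hB : IsHolEnd B) : IsHolEnd (fun e z => A e z + B e z) where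
  holo e x h i j := (hA.holo e x h i j).add (hB.holo e x h i j)
  change e e' x h h' := by
    rw [Matrix.mul_add, Matrix.add_mul, hA.change e e' x h h', hB.change e e' x h h']

lemma sub (hA : IsHolEnd A) (hB : IsHolEnd B) : IsHolEnd (fun e z => A e z - B e z) where
  holo e x h i j := (hA.holo e x h i j).sub (hB.holo e x h i j)
  change e e' x h h' := by
    rw [Matrix.mul_sub, Matrix.sub_mul, hA.change e e' x h h', hB.change e e' x h h']

lemma mul (hA : IsHolEnd A) (hB : IsHolEnd B) : IsHolEnd (fun e z => A e z * B e z) where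
  holo e x h i j := analytic_mul_entry (hA.holo e x h) (hB.holo e x h) i j
  change e e' x h h' := by
    rw [← Matrix.mul_assoc, hA.change e e' x h h', Matrix.mul_assoc, hB.change e e' x h h',
      Matrix.mul_assoc]

lemma smul (r : ℝ) (hA : IsHolEnd A) : IsHolEnd (fun e z => r • A e z) where
  holo e x h i j := by
    have : (fun z => (r • A e z) i j) = fun z => (r : ℂ) * A e z i j := by
      funext z; simp
    rw [this]
    exact analyticAt_const.mul (hA.holo e x h i j)
  change e e' x h h' := by
    rw [Matrix.mul_smul, Matrix.smul_mul, hA.change e e' x h h']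

lemma pow (hA : IsHolEnd A) (k : ℕ) : IsHolEnd (fun e z => A e z ^ k) := by
  induction k with
  | zero => simpa using one
  | succ k ih =>
    simp only [pow_succ]
    exact HolEnd.mul ih hA

lemma pol (hA : IsHolEnd A) (p : ℝ[X]) : IsHolEnd (pol p A) := by
  unfold H956.pol
  induction p using Polynomial.induction_on' with
  | add p q hp hq =>
    simp only [map_add]
    exact HolEnd.add hp hq
  | monomial k a =>
    simp only [Polynomial.aeval_monomial, ← Algebra.smul_def]
    exact HolEnd.smul a (HolEnd.pow hA k)

end HolEnd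

/-- a parallel self-adjoint endomorphism field -/
structure ParEnd (w B : FormM n X) : Prop where
  hol : IsHolEnd B
  sa : IsSelfAdj w B

namespace ParEnd

variable {w A B : FormM n X}

lemma SA (h : ParEnd w B) {e : Chart n X} {x : X} (hx : At e x) : SA (w e (e x)) (B e (e x)) :=
  h.sa e x hx

lemma one : ParEnd w (fun _ _ => 1) := ⟨HolEnd.one, fun _ _ _ => H956.SA.one⟩

lemma zero : ParEnd w (fun _ _ => 0) := ⟨HolEnd.zero, fun _ _ _ => H956.SA.zero⟩

lemma add (hA : ParEnd w A) (hB : ParEnd w B) : ParEnd w (fun e z => A e z + B e z) :=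
  ⟨HolEnd.add hA.hol hB.hol, fun _ _ h => (hA.SA h).add (hB.SA h)⟩

lemma sub (hA : ParEnd w A) (hB : ParEnd w B) : ParEnd w (fun e z => A e z - B e z) :=
  ⟨HolEnd.sub hA.hol hB.hol, fun _ _ h => (hA.SA h).sub (hB.SA h)⟩

lemma pol (hA : ParEnd w A) (p : ℝ[X]) : ParEnd w (pol p A) :=
  ⟨HolEnd.pol hA.hol p, fun _ _ h => (hA.SA h).aeval p⟩

lemma sq (hA : ParEnd w A) : ParEnd w (fun e z => A e z * A e z) :=
  ⟨HolEnd.mul hA.hol hA.hol, fun _ _ h => (hA.SA h).mul (hA.SA h) rfl⟩

lemma congr (hA : ParEnd w A) (h : ∀ e x, At e x → B e (e x) = A e (e x)) : ParEnd w B where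
  hol :=
    { holo := fun e x hx i j => by
        refine (hA.hol.holo e x hx i j).congr ?_
        filter_upwards [hx.nhds_target] with z hz
        have := h e (e.symm z) (At.of_target hx.1 hz)
        rw [e.right_inv hz] at this
        rw [this]
      change := fun e e' x hx hx' => by
        rw [h e x hx, h e' x hx', hA.hol.change e e' x hx hx'] }
  sa e x hx := by rw [h e x hx]; exact hA.sa e x hx

variable [PreconnectedSpace X] [IsManifold 𝓘(ℂ, Cm n) ω X] (hw : IsHermitian w)
include hw

/-- the trace of a parallel self-adjoint field is constant -/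
lemma trace_const (hB : ParEnd w B) {e e' : Chart n X} {x x' : X} (hx : At e x) (hx' : At e' x') :
    (B e (e x)).trace = (B e' (e' x')).trace := by
  have han : ∀ e x, At e x → AnalyticAt ℂ (fun z => (B e z).trace) (e x) := by
    intro e x hx
    unfold Matrix.trace
    exact Finset.analyticAt_fun_sum _ fun i _ => hB.hol.holo e x hx i i
  refine chart_const (t := fun e z => (B e z).trace) ?_ han ?_ hx hx'
  · intro e e' x hx hx'
    have h1 := hB.hol.change e e' x hx hx'
    have h2 : B e (e x) = jacM e' e x * (B e' (e' x) * jacM e e' x) := by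
      rw [← h1, ← Matrix.mul_assoc, jacM_mul hx hx', Matrix.one_mul]
    show (B e (e x)).trace = (B e' (e' x)).trace
    rw [h2, Matrix.trace_mul_comm, Matrix.mul_assoc, jacM_mul hx' hx, Matrix.mul_one]
  · intro e x hx
    refine (han e x hx).congr ?_
    filter_upwards [hx.nhds_target] with z hz
    have hz' := At.of_target hx.1 hz
    have := (hB.SA hz').trace_real (hw.posDef e _ hz')
    rw [e.right_inv hz] at this
    exact this.symm

/-- a parallel field vanishing at a point vanishes everywhere -/
lemma eq_zero (hB : ParEnd w B) {e e' : Chart n X} {x x' : X} (hx : At e x) (hx' : At e' x')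
    (h0 : B e (e x) = 0) : B e' (e' x') = 0 := by
  refine (hB.SA hx').eq_zero_of_trace (hw.posDef _ _ hx') ?_
  have := (hB.sq).trace_const hw hx hx'
  rw [← this, h0]
  simp

/-- the orthogonal projection onto the image of a parallel field, as a polynomial in it -/
lemma exists_proj (hB : ParEnd w B) [Nonempty X] : ∃ p : ℝ[X], ∀ e x, At e x →
    H956.pol (p * Polynomial.X) B e (e x) * B e (e x) = B e (e x) ∧
    H956.pol (p * Polynomial.X) B e (e x) * H956.pol (p * Polynomial.X) B e (e x) =
      H956.pol (p * Polynomial.X) B e (e x) := by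
  obtain ⟨x0⟩ := (inferInstance : Nonempty X)
  have h0 := at_chartAt (n := n) x0
  set e0 := chartAt (Cm n) x0
  obtain ⟨p, hp1, hp2⟩ := (hB.SA h0).exists_poly (hw.posDef e0 x0 h0)
  refine ⟨p, fun e x hx => ⟨?_, ?_⟩⟩
  · have h1 := (hB.pol (p * Polynomial.X * Polynomial.X - Polynomial.X)).eq_zero hw h0 hx ?_
    · unfold H956.pol at h1 ⊢
      rw [map_sub, map_mul _ _ Polynomial.X, Polynomial.aeval_X, sub_eq_zero] at h1
      exact h1
    · unfold H956.pol
      rw [map_sub, map_mul _ _ Polynomial.X, Polynomial.aeval_X, hp1, sub_self]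
  · have h1 := (hB.pol ((p * Polynomial.X) * (p * Polynomial.X) - p * Polynomial.X)).eq_zero hw h0 hx ?_
    · unfold H956.pol at h1 ⊢
      rw [map_sub, map_mul _ (p * Polynomial.X) (p * Polynomial.X), sub_eq_zero] at h1
      exact h1
    · unfold H956.pol
      rw [map_sub, map_mul _ (p * Polynomial.X) (p * Polynomial.X), hp2, sub_self]

end ParEnd

end

end Vale.Agent.P299.H956
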