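import Vale.Agent.P299.H956.D1.Model

/-! Linear algebra of a product decomposition. -/

open scoped Manifold ContDiff ComplexOrder Topology Matrix
open Complex Vale.Agent.P272.K Vale.Agent.P299.D Vale.Agent.P278.H837

set_option linter.all false

noncomputable section

namespace Vale.Agent.P299.H956

lemma jacF_const {d n : ℕ} {N X : Type*} [TopologicalSpace N] [TopologicalSpace X] (c : X)
    (e : Chart d N) (e' : Chart n X) (y : N) : jacF (fun _ : N => c) e e' y = 0 := by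
  ext p i
  exact dz_const (e' c p)

lemma mat_ext {a b : ℕ} {A B : Matrix (Fin a) (Fin b) ℂ} (h : ∀ u, A.mulVec u = B.mulVec u) :
    A = B := by
  ext p q
  have := congrFun (h (Pi.single q 1)) p
  simpa using this

variable {n : ℕ} {M : Type} [TopologicalSpace M] [ChartedSpace (Cm n) M]
  [IsManifold 𝓘(ℂ, Cm n) ω M] {g : FormM n M} {P : Fin 3 → FormM n M}

namespace Prd

/-- the slice through `y` -/
def sl (D : Prd n M P) (i : Fin 3) (y : (i : Fin 3) → D.Y i) (z : D.Y i) : M :=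
  D.Φ.symm (Function.update y i z)

variable (D : Prd n M P)

@[simp] lemma Φ_sl (i : Fin 3) (y : (i : Fin 3) → D.Y i) (z : D.Y i) :
    D.Φ (D.sl i y z) = Function.update y i z := D.Φ.apply_symm_apply _

lemma Φ_sl_self (i : Fin 3) (y : (i : Fin 3) → D.Y i) (z : D.Y i) : D.Φ (D.sl i y z) i = z := by
  rw [Φ_sl, Function.update_self]

lemma Φ_sl_ne {i j : Fin 3} (h : j ≠ i) (y : (i : Fin 3) → D.Y i) (z : D.Y i) :
    D.Φ (D.sl i y z) j = y j := by
  rw [Φ_sl, Function.update_of_ne h]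

lemma sl_Φ (i : Fin 3) (m : M) : D.sl i (D.Φ m) (D.Φ m i) = m := by
  unfold sl
  rw [Function.update_eq_self]
  exact D.Φ.symm_apply_apply m

lemma sl_hol (i : Fin 3) (y : (i : Fin 3) → D.Y i) :
    ContMDiff 𝓘(ℂ, Cm (D.d i)) 𝓘(ℂ, Cm n) ω (D.sl i y) := D.slice_hol i y

lemma K_slice (i : Fin 3) (y : (i : Fin 3) → D.Y i) {z : D.Y i} {e : Chart n M}
    {e' : Chart (D.d i) (D.Y i)} (h : At e (D.sl i y z)) (h' : At e' z) :
    jacF (fun m => D.Φ m i) e e' (D.sl i y z) * jacF (D.sl i y) e' e z = 1 := by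
  have h1 := jacF_comp (g := fun m => D.Φ m i) (e'' := e') ((D.sl_hol i y).contMDiffAt (x := z))
    ((D.Φ_hol i).contMDiffAt) h' h (by rw [D.Φ_sl_self]; exact h')
  rw [← h1]
  have h2 : (fun z => D.Φ (D.sl i y z) i) = fun z => z := funext fun z => D.Φ_sl_self i y z
  rw [h2, jacF_id, jacM_self h']

lemma K_slice_ne {i j : Fin 3} (hij : j ≠ i) (y : (i : Fin 3) → D.Y i) {z : D.Y i} {e : Chart n M}
    {e' : Chart (D.d i) (D.Y i)} {e'' : Chart (D.d j) (D.Y j)} (h : At e (D.sl i y z))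
    (h' : At e' z) (h'' : At e'' (y j)) :
    jacF (fun m => D.Φ m j) e e'' (D.sl i y z) * jacF (D.sl i y) e' e z = 0 := by
  have h1 := jacF_comp (g := fun m => D.Φ m j) (e'' := e'') ((D.sl_hol i y).contMDiffAt (x := z))
    ((D.Φ_hol j).contMDiffAt) h' h (by rw [D.Φ_sl_ne hij]; exact h'')
  rw [← h1]
  have h2 : (fun z => D.Φ (D.sl i y z) j) = fun z => y j := funext fun z => D.Φ_sl_ne hij y z
  rw [h2, jacF_const]

lemma P_slice (i : Fin 3) (y : (i : Fin 3) → D.Y i) {z : D.Y i} {e : Chart n M}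
    {e' : Chart (D.d i) (D.Y i)} (h : At e (D.sl i y z)) (h' : At e' z) :
    P i e (e (D.sl i y z)) * jacF (D.sl i y) e' e z = jacF (D.sl i y) e' e z := by
  have key : ∀ u : Cm (D.d i), (P i e (e (D.sl i y z))).mulVec ((jacF (D.sl i y) e' e z).mulVec u) =
      (jacF (D.sl i y) e' e z).mulVec u := by
    intro u
    rw [D.ker i e (D.sl i y z) (fun j => chartAt (Cm (D.d j)) (D.Φ (D.sl i y z) j)) h
      fun j => at_chartAt _]
    intro j hj
    have h1 := D.K_slice_ne hj y (e'' := chartAt (Cm (D.d j)) (D.Φ (D.sl i y z) j)) h h'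
      (by rw [D.Φ_sl_ne hj]; exact at_chartAt _)
    rw [Matrix.mulVec_mulVec, h1, Matrix.zero_mulVec]
  refine mat_ext fun u => ?_
  rw [← Matrix.mulVec_mulVec]
  exact key u

variable (hP : PDec g P)

include hP in
lemma jac_inj {e : Chart n M} {m : M} {e' : (i : Fin 3) → Chart (D.d i) (D.Y i)} (h : At e m)
    (h' : ∀ i, At (e' i) (D.Φ m i)) (u : Cm n)
    (hu : ∀ i, (jacF (fun m => D.Φ m i) e (e' i) m).mulVec u = 0) : u = 0 := by
  have h0 : (P 0 e (e m)).mulVec u = u := (D.ker 0 e m e' h h' u).2 fun j _ => hu j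
  have h1 : (P 1 e (e m)).mulVec u = u := (D.ker 1 e m e' h h' u).2 fun j _ => hu j
  rw [← h0, ← h1, Matrix.mulVec_mulVec, hP.orth 0 1 (by decide) e m h, Matrix.zero_mulVec]

/-- `K_i` at `m` -/
abbrev K (i : Fin 3) (e : Chart n M) (e' : Chart (D.d i) (D.Y i)) (m : M) :
    Matrix (Fin (D.d i)) (Fin n) ℂ := jacF (fun m => D.Φ m i) e e' m

/-- `L_i` at `m` -/
abbrev L (i : Fin 3) (e : Chart n M) (e' : Chart (D.d i) (D.Y i)) (m : M) :
    Matrix (Fin n) (Fin (D.d i)) ℂ := jacF (D.sl i (D.Φ m)) e' e (D.Φ m i)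

variable {e : Chart n M} {m : M} {e' : (i : Fin 3) → Chart (D.d i) (D.Y i)}

lemma KL_self (i : Fin 3) {e₁ : Chart (D.d i) (D.Y i)} (h : At e m) (h' : At e₁ (D.Φ m i)) :
    D.K i e e₁ m * D.L i e e₁ m = 1 := by
  have h1 : At e (D.sl i (D.Φ m) (D.Φ m i)) := by rw [sl_Φ]; exact h
  have h2 := D.K_slice i (D.Φ m) h1 h'
  rwa [sl_Φ] at h2

lemma KL_ne {i j : Fin 3} (hij : j ≠ i) {e₁ : Chart (D.d i) (D.Y i)} {e₂ : Chart (D.d j) (D.Y j)}
    (h : At e m) (h₁ : At e₁ (D.Φ m i)) (h₂ : At e₂ (D.Φ m j)) :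
    D.K j e e₂ m * D.L i e e₁ m = 0 := by
  have h1 : At e (D.sl i (D.Φ m) (D.Φ m i)) := by rw [sl_Φ]; exact h
  have h2 := D.K_slice_ne hij (D.Φ m) h1 h₁ h₂
  rwa [sl_Φ] at h2

lemma PL_self (i : Fin 3) {e₁ : Chart (D.d i) (D.Y i)} (h : At e m) (h' : At e₁ (D.Φ m i)) :
    P i e (e m) * D.L i e e₁ m = D.L i e e₁ m := by
  have h1 : At e (D.sl i (D.Φ m) (D.Φ m i)) := by rw [sl_Φ]; exact h
  have h2 := D.P_slice i (D.Φ m) h1 h'
  rwa [sl_Φ] at h2

include hP in
lemma sum_LK (h : At e m) (h' : ∀ i, At (e' i) (D.Φ m i)) :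
    ∑ i, D.L i e (e' i) m * D.K i e (e' i) m = 1 := by
  have key : ∀ u : Cm n, (∑ i, D.L i e (e' i) m * D.K i e (e' i) m).mulVec u = u := by
    intro u
    rw [← sub_eq_zero]
    refine D.jac_inj hP h h' _ fun j => ?_
    rw [Matrix.mulVec_sub, Matrix.mulVec_mulVec, Matrix.mul_sum, sub_eq_zero]
    congr 1
    rw [Finset.sum_eq_single j]
    · rw [← Matrix.mul_assoc, D.KL_self j h (h' j), Matrix.one_mul]
    · intro i _ hij
      rw [← Matrix.mul_assoc, D.KL_ne (Ne.symm hij) h (h' i) (h' j), Matrix.zero_mul]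
    · simp
  refine mat_ext fun u => ?_
  rw [Matrix.one_mulVec]
  exact key u

include hP in
lemma PL_ne {i j : Fin 3} (hij : j ≠ i) {e₁ : Chart (D.d i) (D.Y i)}
    (h : At e m) (h₁ : At e₁ (D.Φ m i)) : P j e (e m) * D.L i e e₁ m = 0 := by
  rw [← D.PL_self i h h₁, ← Matrix.mul_assoc, hP.orth j i hij e m h, Matrix.zero_mul]

include hP in
lemma P_eq (i : Fin 3) {e₁ : Chart (D.d i) (D.Y i)} (h : At e m) (h₁ : At e₁ (D.Φ m i)) :
    P i e (e m) = D.L i e e₁ m * D.K i e e₁ m := by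
  classical
  let e' : (j : Fin 3) → Chart (D.d j) (D.Y j) :=
    Function.update (fun j => chartAt (Cm (D.d j)) (D.Φ m j)) i e₁
  have he'i : e' i = e₁ := Function.update_self ..
  have h' : ∀ j, At (e' j) (D.Φ m j) := by
    intro j
    by_cases hj : j = i
    · subst hj; rw [he'i]; exact h₁
    · have : e' j = chartAt (Cm (D.d j)) (D.Φ m j) := Function.update_of_ne hj ..
      rw [this]; exact at_chartAt _
  have h2 := D.sum_LK hP h h'
  calc P i e (e m) = P i e (e m) * ∑ j, D.L j e (e' j) m * D.K j e (e' j) m := by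
        rw [h2, Matrix.mul_one]
    _ = D.L i e (e' i) m * D.K i e (e' i) m := by
        rw [Finset.mul_sum, Finset.sum_eq_single i]
        · rw [← Matrix.mul_assoc, D.PL_self i h (h' i)]
        · intro j _ hj
          rw [← Matrix.mul_assoc, D.PL_ne hP (Ne.symm hj) h (h' j), Matrix.zero_mul]
        · simp
    _ = D.L i e e₁ m * D.K i e e₁ m := by rw [he'i]

include hP in
lemma dsum [Nonempty M] : ∑ i, D.d i = n := by
  obtain ⟨m⟩ := (inferInstance : Nonempty M)
  have h := at_chartAt (n := n) m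
  have h' : ∀ i, At (chartAt (Cm (D.d i)) (D.Φ m i)) (D.Φ m i) := fun i => at_chartAt _
  have h1 := congrArg Matrix.trace (D.sum_LK hP h h')
  rw [Matrix.trace_sum] at h1
  have h2 : ∀ i, (D.L i (chartAt (Cm n) m) (chartAt (Cm (D.d i)) (D.Φ m i)) m *
      D.K i (chartAt (Cm n) m) (chartAt (Cm (D.d i)) (D.Φ m i)) m).trace = D.d i := by
    intro i
    rw [Matrix.trace_mul_comm, D.KL_self i h (h' i), Matrix.trace_one, Fintype.card_fin]
  rw [Finset.sum_congr rfl fun i _ => h2 i, Matrix.trace_one, Fintype.card_fin] at h1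
  exact_mod_cast h1

include hP in
/-- the factors are orthogonal -/
lemma cross {i j : Fin 3} (hij : i ≠ j) {e₁ : Chart (D.d i) (D.Y i)} {e₂ : Chart (D.d j) (D.Y j)}
    (h : At e m) (h₁ : At e₁ (D.Φ m i)) (h₂ : At e₂ (D.Φ m j)) :
    (D.L i e e₁ m).transpose * g e (e m) * (D.L j e e₂ m).map (starRingEnd ℂ) = 0 := by
  have h1 : (P i e (e m)).transpose * g e (e m) = g e (e m) * mcj (P i e (e m)) := (hP.par i).SA h
  rw [← D.PL_self i h h₁, Matrix.transpose_mul, Matrix.mul_assoc (D.L i e e₁ m).transpose, h1,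
    Matrix.mul_assoc, Matrix.mul_assoc, ← mcj_rect_mul, D.PL_ne hP hij h h₂]
  simp

lemma sl_immersive (i : Fin 3) (y : (i : Fin 3) → D.Y i) : Immersive (D.d i) n (D.sl i y) :=
  immersive_of_leftInverse (g := fun m => D.Φ m i) (D.sl_hol i y) (D.Φ_hol i) fun z =>
    D.Φ_sl_self i y z

include hP in
/-- the metric is the sum of its restrictions to the slices -/
lemma metric_eq (hg : IsForm g) (h : At e m) (h' : ∀ i, At (e' i) (D.Φ m i)) :
    g e (e m) = ∑ i, (D.K i e (e' i) m).transpose *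
      pullM (D.sl i (D.Φ m)) g (e' i) (e' i (D.Φ m i)) *
      (D.K i e (e' i) m).map (starRingEnd ℂ) := by
  have h1 := D.sum_LK hP h h'
  have h2 : ∀ i, pullM (D.sl i (D.Φ m)) g (e' i) (e' i (D.Φ m i)) =
      (D.L i e (e' i) m).transpose * g e (e m) * (D.L i e (e' i) m).map (starRingEnd ℂ) := by
    intro i
    have hA : At e (D.sl i (D.Φ m) (D.Φ m i)) := by rw [sl_Φ]; exact h
    have := pullM_eq hg ((D.sl_hol i (D.Φ m)).contMDiffAt (x := D.Φ m i)) (h' i) hA
    rwa [sl_Φ] at this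
  have h3 : g e (e m) = (∑ i, D.L i e (e' i) m * D.K i e (e' i) m).transpose * g e (e m) *
      (∑ i, D.L i e (e' i) m * D.K i e (e' i) m).map (starRingEnd ℂ) := by
    rw [h1]
    simp
  have h4 : (∑ i, D.L i e (e' i) m * D.K i e (e' i) m).map (starRingEnd ℂ) =
      ∑ i, (D.L i e (e' i) m).map (starRingEnd ℂ) * (D.K i e (e' i) m).map (starRingEnd ℂ) := by
    ext p q
    simp [Matrix.sum_apply, Matrix.mul_apply]
  rw [h4, Matrix.transpose_sum, Finset.sum_mul, Finset.sum_mul] at h3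
  rw [h3]
  refine Finset.sum_congr rfl fun i _ => ?_
  rw [Finset.mul_sum, Finset.sum_eq_single i]
  · rw [h2, Matrix.transpose_mul]
    simp only [Matrix.mul_assoc]
  · intro j _ hj
    rw [Matrix.transpose_mul]
    have := D.cross hP (Ne.symm hj) h (h' i) (h' j)
    calc (D.K i e (e' i) m).transpose * (D.L i e (e' i) m).transpose * g e (e m) *
          ((D.L j e (e' j) m).map (starRingEnd ℂ) * (D.K j e (e' j) m).map (starRingEnd ℂ))
        = (D.K i e (e' i) m).transpose * ((D.L i e (e' i) m).transpose * g e (e m) *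
          (D.L j e (e' j) m).map (starRingEnd ℂ)) * (D.K j e (e' j) m).map (starRingEnd ℂ) := by
          simp only [Matrix.mul_assoc]
      _ = 0 := by rw [this, Matrix.mul_zero, Matrix.zero_mul]
  · simp

end Prd

end Vale.Agent.P299.H956
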