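import Vale.Agent.P299.H956.D1.LocA

/-! The restriction of the metric to a slice does not depend on the slice. -/

open scoped Manifold ContDiff ComplexOrder Topology Matrix
open Complex Vale.Agent.P272.K Vale.Agent.P299.D

set_option linter.all false

noncomputable section

namespace Vale.Agent.P299.H956

variable {n : ℕ} {M : Type} [TopologicalSpace M] [ChartedSpace (Cm n) M]
  [IsManifold 𝓘(ℂ, Cm n) ω M] {g : FormM n M} {P : Fin 3 → FormM n M}

namespace Prd

variable (D : Prd n M P)

lemma sl_congr {i : Fin 3} {y y' : (i : Fin 3) → D.Y i} (h : ∀ j, j ≠ i → y j = y' j) :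
    D.sl i y = D.sl i y' := by
  funext z
  unfold sl
  congr 1
  funext j
  by_cases hj : j = i
  · subst hj; simp
  · rw [Function.update_of_ne hj, Function.update_of_ne hj, h j hj]

/-- the map in two blocks of coordinates -/
def two (i j : Fin 3) (y : (i : Fin 3) → D.Y i) (ei : Chart (D.d i) (D.Y i))
    (ej : Chart (D.d j) (D.Y j)) (x : Cm (D.d j + D.d i)) : M :=
  D.Φ.symm (Function.update (Function.update y j (ej.symm fun c => x (Fin.castAdd _ c))) i
    (ei.symm fun a => x (Fin.natAdd _ a)))

lemma two_hol {i j : Fin 3} (hij : j ≠ i) (y : (i : Fin 3) → D.Y i) {ei : Chart (D.d i) (D.Y i)}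
    {ej : Chart (D.d j) (D.Y j)} (hei : ei ∈ atlas (Cm (D.d i)) (D.Y i))
    (hej : ej ∈ atlas (Cm (D.d j)) (D.Y j)) {x : Cm (D.d j + D.d i)}
    (h1 : (fun c => x (Fin.castAdd _ c)) ∈ ej.target) (h2 : (fun a => x (Fin.natAdd _ a)) ∈ ei.target) :
    ContMDiffAt 𝓘(ℂ, Cm (D.d j + D.d i)) 𝓘(ℂ, Cm n) ω (D.two i j y ei ej) x := by
  refine D.symm_hol (Cm (D.d j + D.d i)) _ _ x fun l => ?_
  have hp1 : ContMDiff 𝓘(ℂ, Cm (D.d j + D.d i)) 𝓘(ℂ, Cm (D.d j)) ω
      (fun x : Cm (D.d j + D.d i) => (fun c => x (Fin.castAdd _ c) : Cm (D.d j))) := by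
    rw [contMDiff_iff_contDiff]
    exact contDiff_pi.2 fun c => contDiff_apply ℂ ℂ _
  have hp2 : ContMDiff 𝓘(ℂ, Cm (D.d j + D.d i)) 𝓘(ℂ, Cm (D.d i)) ω
      (fun x : Cm (D.d j + D.d i) => (fun a => x (Fin.natAdd _ a) : Cm (D.d i))) := by
    rw [contMDiff_iff_contDiff]
    exact contDiff_pi.2 fun c => contDiff_apply ℂ ℂ _
  by_cases hl : l = i
  · subst hl
    simp only [Function.update_self]
    exact (chart_symm_contMDiffAt hei h2).comp x hp2.contMDiffAt
  · simp only [Function.update_of_ne hl]
    by_cases hl' : l = j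
    · subst hl'
      simp only [Function.update_self]
      exact (chart_symm_contMDiffAt hej h1).comp x hp1.contMDiffAt
    · simp only [Function.update_of_ne hl']
      exact contMDiffAt_const

/-- the slices in the two blocks -/
lemma two_append2 {i j : Fin 3} (y : (i : Fin 3) → D.Y i) (ei : Chart (D.d i) (D.Y i))
    (ej : Chart (D.d j) (D.Y j)) (ζ : Cm (D.d j)) (η : Cm (D.d i)) :
    D.two i j y ei ej (Fin.append ζ η) = D.sl i (Function.update y j (ej.symm ζ)) (ei.symm η) := by
  unfold two sl
  simp only [Fin.append_left, Fin.append_right]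

lemma two_append1 {i j : Fin 3} (hij : j ≠ i) (y : (i : Fin 3) → D.Y i)
    (ei : Chart (D.d i) (D.Y i)) (ej : Chart (D.d j) (D.Y j)) (ζ : Cm (D.d j)) (η : Cm (D.d i)) :
    D.two i j y ei ej (Fin.append ζ η) = D.sl j (Function.update y i (ei.symm η)) (ej.symm ζ) := by
  rw [two_append2]
  unfold sl
  rw [Function.update_comm hij]

/-- the Jacobian matrices of the slices are the blocks of the Jacobian matrix of `two` -/
lemma jac_two2 {i j : Fin 3} (hij : j ≠ i) (y : (i : Fin 3) → D.Y i) {ei : Chart (D.d i) (D.Y i)}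
    {ej : Chart (D.d j) (D.Y j)} (hei : ei ∈ atlas (Cm (D.d i)) (D.Y i))
    (hej : ej ∈ atlas (Cm (D.d j)) (D.Y j)) {ζ : Cm (D.d j)} {η : Cm (D.d i)}
    (h1 : ζ ∈ ej.target) (h2 : η ∈ ei.target) {c : Chart n M}
    (hc : At c (D.two i j y ei ej (Fin.append ζ η))) (r : Fin n) (a : Fin (D.d i)) :
    jacF (D.sl i (Function.update y j (ej.symm ζ))) ei c (ei.symm η) r a =
      jmR (fun x => c (D.two i j y ei ej x)) (Fin.append ζ η) r (Fin.natAdd _ a) := by
  rw [jacF_target hei h2]
  have e1 : (fun z => c (D.sl i (Function.update y j (ej.symm ζ)) (ei.symm z))) =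
      fun z => (fun x => c (D.two i j y ei ej x)) ((fun η => (Fin.append ζ η : Cm _)) z) := by
    funext z
    show c (D.sl i (Function.update y j (ej.symm ζ)) (ei.symm z)) =
      c (D.two i j y ei ej (Fin.append ζ z))
    rw [two_append2]
  have h3 : DifferentiableAt ℂ (fun x => c (D.two i j y ei ej x))
      ((fun η => (Fin.append ζ η : Cm (D.d j + D.d i))) η) := by
    have h4 := D.two_hol hij y hei hej (x := Fin.append ζ η) (by simpa using h1) (by simpa using h2)
    exact ((contMDiffAt_iff_contDiffAt.1 ((chart_contMDiffAt hc).comp _ h4))).differentiableAt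
      (by simp)
  rw [e1, jmR_comp (σ := fun x => c (D.two i j y ei ej x))
    (τ := fun η => (Fin.append ζ η : Cm (D.d j + D.d i))) h3
    ((append2_hol ζ).differentiable (by simp) η), mul_append2]

lemma jac_two1 {i j : Fin 3} (hij : j ≠ i) (y : (i : Fin 3) → D.Y i) {ei : Chart (D.d i) (D.Y i)}
    {ej : Chart (D.d j) (D.Y j)} (hei : ei ∈ atlas (Cm (D.d i)) (D.Y i))
    (hej : ej ∈ atlas (Cm (D.d j)) (D.Y j)) {ζ : Cm (D.d j)} {η : Cm (D.d i)}
    (h1 : ζ ∈ ej.target) (h2 : η ∈ ei.target) {c : Chart n M}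
    (hc : At c (D.two i j y ei ej (Fin.append ζ η))) (r : Fin n) (a : Fin (D.d j)) :
    jacF (D.sl j (Function.update y i (ei.symm η))) ej c (ej.symm ζ) r a =
      jmR (fun x => c (D.two i j y ei ej x)) (Fin.append ζ η) r (Fin.castAdd _ a) := by
  rw [jacF_target hej h1]
  have e1 : (fun z => c (D.sl j (Function.update y i (ei.symm η)) (ej.symm z))) =
      fun z => (fun x => c (D.two i j y ei ej x)) ((fun ζ => (Fin.append ζ η : Cm _)) z) := by
    funext z
    show c (D.sl j (Function.update y i (ei.symm η)) (ej.symm z)) =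
      c (D.two i j y ei ej (Fin.append z η))
    rw [two_append1 D hij]
  have h3 : DifferentiableAt ℂ (fun x => c (D.two i j y ei ej x))
      ((fun ζ => (Fin.append ζ η : Cm (D.d j + D.d i))) ζ) := by
    have h4 := D.two_hol hij y hei hej (x := Fin.append ζ η) (by simpa using h1) (by simpa using h2)
    exact ((contMDiffAt_iff_contDiffAt.1 ((chart_contMDiffAt hc).comp _ h4))).differentiableAt
      (by simp)
  rw [e1, jmR_comp (σ := fun x => c (D.two i j y ei ej x))
    (τ := fun ζ => (Fin.append ζ η : Cm (D.d j + D.d i))) h3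
    ((append1_hol η).differentiable (by simp) ζ), mul_append1]

variable (hP : PDec g P) (hg : IsKahler g)

include hP hg in
/-- local constancy -/
theorem slice_eventually {i j : Fin 3} (hij : j ≠ i) (y : (i : Fin 3) → D.Y i)
    {ei : Chart (D.d i) (D.Y i)} {z : D.Y i} (hz : At ei z) (t : D.Y j) :
    ∀ᶠ s in 𝓝 t, pullM (D.sl i (Function.update y j s)) g ei (ei z) =
      pullM (D.sl i (Function.update y j t)) g ei (ei z) := by
  have hej := at_chartAt (n := D.d j) t
  set ej := chartAt (Cm (D.d j)) t with hejdef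
  set ζ0 := ej t with hζ0
  set η0 := ei z with hη0
  set x0 : Cm (D.d j + D.d i) := Fin.append ζ0 η0 with hx0
  have hc := at_chartAt (n := n) (D.two i j y ei ej x0)
  set c := chartAt (Cm n) (D.two i j y ei ej x0) with hcdef
  set τ : Cm (D.d j + D.d i) → Cm n := fun x => c (D.two i j y ei ej x) with hτdef
  have hζ0t : ζ0 ∈ ej.target := hej.mem_target
  have hη0t : η0 ∈ ei.target := hz.mem_target
  have htwo0 := D.two_hol hij y hz.1 hej.1 (x := x0) (by simpa [hx0] using hζ0t)
    (by simpa [hx0] using hη0t)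
  have hτ : ContDiffAt ℂ ω τ x0 :=
    contMDiffAt_iff_contDiffAt.1 ((chart_contMDiffAt hc).comp _ htwo0)
  -- near `x0`
  have hnear : ∀ᶠ x in 𝓝 x0, (fun k => x (Fin.castAdd (D.d i) k)) ∈ ej.target ∧
      (fun a => x (Fin.natAdd (D.d j) a)) ∈ ei.target ∧ At c (D.two i j y ei ej x) := by
    have c1 : Continuous fun x : Cm (D.d j + D.d i) =>
        (fun k => x (Fin.castAdd (D.d i) k) : Cm (D.d j)) := by fun_prop
    have c2 : Continuous fun x : Cm (D.d j + D.d i) =>
        (fun a => x (Fin.natAdd (D.d j) a) : Cm (D.d i)) := by fun_prop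
    have e1 := (c1.continuousAt (x := x0)).eventually (ej.open_target.mem_nhds
      (by simpa [hx0] using hζ0t))
    have e2 := (c2.continuousAt (x := x0)).eventually (ei.open_target.mem_nhds
      (by simpa [hx0] using hη0t))
    have e3 := htwo0.continuousAt.eventually (c.open_source.mem_nhds hc.2)
    filter_upwards [e1, e2, e3] with x h1 h2 h3
    exact ⟨h1, h2, hc.1, h3⟩
  have hb : ∀ᶠ w in 𝓝 (τ x0), (∀ i j, DifferentiableAt ℝ (fun y => g c y i j) w) ∧
      (∀ i j k, dz k (fun y => g c y i j) w = dz i (fun y => g c y k j) w) ∧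
        (g c w).IsHermitian := by
    filter_upwards [c.open_target.mem_nhds (c.map_source hc.2)] with w hw
    have hw' := At.of_target hc.1 hw
    have r1 := c.right_inv hw
    refine ⟨fun i j => ?_, fun i j k => ?_, ?_⟩
    · have := (hg.smooth c _ hw' i j).differentiableAt (by simp)
      rwa [r1] at this
    · have := hg.closed c _ hw' i j k
      rwa [r1] at this
    · have := (hg.posDef c _ hw').isHermitian
      rwa [r1] at this
  have hpull : ∀ ζ ∈ ej.target, At c (D.two i j y ei ej (Fin.append ζ η0)) → ∀ a a',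
      pullM (D.sl i (Function.update y j (ej.symm ζ))) g ei η0 a a' =
        pb τ (g c) (Fin.append ζ η0) (Fin.natAdd _ a) (Fin.natAdd _ a') := by
    intro ζ hζ hcζ a a'
    have hzz : ei.symm η0 = z := hz.left_inv
    have hAt : At c (D.sl i (Function.update y j (ej.symm ζ)) z) := by
      rw [two_append2, hzz] at hcζ; exact hcζ
    have h1 := pullM_eq hg.isForm ((D.sl_hol i (Function.update y j (ej.symm ζ))).contMDiffAt
      (x := z)) hz hAt
    have h2 : ∀ r a, jacF (D.sl i (Function.update y j (ej.symm ζ))) ei c z r a =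
        jmR τ (Fin.append ζ η0) r (Fin.natAdd _ a) := by
      intro r a
      have := D.jac_two2 hij y hz.1 hej.1 hζ hη0t hcζ r a
      rwa [hzz] at this
    have h3 : c (D.sl i (Function.update y j (ej.symm ζ)) z) = τ (Fin.append ζ η0) := by
      show _ = c (D.two i j y ei ej (Fin.append ζ η0))
      rw [two_append2, hzz]
    rw [h1, h3]
    unfold pb
    simp only [Matrix.mul_apply, Matrix.transpose_apply, Matrix.map_apply, h2]
  have hcross : ∀ᶠ x in 𝓝 x0, ∀ (k : Fin (D.d j)) (a : Fin (D.d i)),
      pb τ (g c) x (Fin.castAdd (D.d i) k) (Fin.natAdd (D.d j) a) = 0 := by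
    filter_upwards [hnear] with x hx k a
    set ζ : Cm (D.d j) := fun k => x (Fin.castAdd (D.d i) k) with hζ
    set η : Cm (D.d i) := fun a => x (Fin.natAdd (D.d j) a) with hη
    have hxx : (Fin.append ζ η : Cm (D.d j + D.d i)) = x := append_split x
    obtain ⟨hζt, hηt, hcx⟩ := hx
    rw [← hxx] at hcx ⊢
    set m := D.two i j y ei ej (Fin.append ζ η) with hm
    have hΦ : D.Φ m = Function.update (Function.update y j (ej.symm ζ)) i (ei.symm η) := by
      rw [hm, two_append2, Φ_sl]
    have hmi : D.Φ m i = ei.symm η := by rw [hΦ, Function.update_self]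
    have hmj : D.Φ m j = ej.symm ζ := by
      rw [hΦ, Function.update_of_ne hij, Function.update_self]
    have hati : At ei (D.Φ m i) := by rw [hmi]; exact At.of_target hz.1 hηt
    have hatj : At ej (D.Φ m j) := by rw [hmj]; exact At.of_target hej.1 hζt
    have hcr := D.cross hP hij hcx hatj hati
    have hsi : D.sl i (D.Φ m) = D.sl i (Function.update y j (ej.symm ζ)) := by
      refine D.sl_congr fun l hl => ?_
      rw [hΦ, Function.update_of_ne hl]
    have hsj : D.sl j (D.Φ m) = D.sl j (Function.update y i (ei.symm η)) := by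
      refine D.sl_congr fun l hl => ?_
      rw [hΦ, Function.update_comm hij, Function.update_of_ne hl]
    have hLi : ∀ r a, D.L i c ei m r a = jmR τ (Fin.append ζ η) r (Fin.natAdd _ a) := by
      intro r a
      have := D.jac_two2 hij y hz.1 hej.1 hζt hηt hcx r a
      show jacF (D.sl i (D.Φ m)) ei c (D.Φ m i) r a = _
      rw [hsi, hmi]
      exact this
    have hLj : ∀ r a, D.L j c ej m r a = jmR τ (Fin.append ζ η) r (Fin.castAdd _ a) := by
      intro r a
      have := D.jac_two1 hij y hz.1 hej.1 hζt hηt hcx r a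
      show jacF (D.sl j (D.Φ m)) ej c (D.Φ m j) r a = _
      rw [hsj, hmj]
      exact this
    have h1 := congrFun (congrFun hcr k) a
    simp only [Matrix.mul_apply, Matrix.transpose_apply, Matrix.map_apply, hLi, hLj,
      Matrix.zero_apply] at h1
    unfold pb
    simp only [Matrix.mul_apply, Matrix.transpose_apply, Matrix.map_apply]
    exact h1
  have hmain := locA (τ := τ) (b := g c) (x0 := x0) hτ hb hcross
  have hx01 : (fun k => x0 (Fin.castAdd (D.d i) k)) = ζ0 := by
    funext k; simp [hx0]
  have hx02 : (fun a => x0 (Fin.natAdd (D.d j) a)) = η0 := by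
    funext k; simp [hx0]
  rw [hx01, hx02] at hmain
  have happ : Continuous fun ζ : Cm (D.d j) => (Fin.append ζ η0 : Cm (D.d j + D.d i)) :=
    (append1_hol η0).continuous
  have hnear2 : ∀ᶠ ζ in 𝓝 ζ0, ζ ∈ ej.target ∧ At c (D.two i j y ei ej (Fin.append ζ η0)) := by
    filter_upwards [(happ.continuousAt (x := ζ0)).eventually hnear] with ζ hζ
    exact ⟨by simpa using hζ.1, hζ.2.2⟩
  have hej_cont : Filter.Tendsto ej (𝓝 t) (𝓝 ζ0) := ej.continuousAt hej.2
  filter_upwards [hej_cont.eventually (hmain.and hnear2), ej.open_source.mem_nhds hej.2] with s hs hs2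
  have hs3 : ej.symm (ej s) = s := ej.left_inv hs2
  ext a a'
  have h1 := hpull (ej s) hs.2.1 hs.2.2 a a'
  have h2 := hpull ζ0 hζ0t hnear2.self_of_nhds.2 a a'
  rw [hs3] at h1
  rw [hζ0, hej.left_inv, ← hζ0] at h2
  rw [h1, h2]
  exact hs.1 a a'

include hP hg in
/-- **independence of the slice** -/
theorem slice_indep (i : Fin 3) (y y' : (i : Fin 3) → D.Y i) {ei : Chart (D.d i) (D.Y i)}
    {z : D.Y i} (hz : At ei z) : pullM (D.sl i y) g ei (ei z) = pullM (D.sl i y') g ei (ei z) := by
  classical
  have key : ∀ (y : (i : Fin 3) → D.Y i) (j : Fin 3) (t : D.Y j),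
      pullM (D.sl i (Function.update y j t)) g ei (ei z) = pullM (D.sl i y) g ei (ei z) := by
    intro y j t
    by_cases hij : j = i
    · subst hij
      rw [D.sl_congr (i := j) (y := Function.update y j t) (y' := y) fun l hl => by
        rw [Function.update_of_ne hl]]
    · have hl : IsLocallyConstant fun s : D.Y j =>
          pullM (D.sl i (Function.update y j s)) g ei (ei z) := by
        rw [IsLocallyConstant.iff_eventually_eq]
        intro t
        exact D.slice_eventually hP hg hij y hz t
      have h1 := hl.apply_eq_of_preconnectedSpace t (y j)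
      simp only [Function.update_eq_self] at h1
      exact h1
  have key2 : ∀ (s : Finset (Fin 3)), ∀ y y' : ∀ i, D.Y i, (∀ i, i ∉ s → y i = y' i) →
      pullM (D.sl i y) g ei (ei z) = pullM (D.sl i y') g ei (ei z) := by
    intro s
    induction s using Finset.induction_on with
    | empty =>
      intro y y' hy
      have : y = y' := funext fun i => hy i (by simp)
      rw [this]
    | insert a s ha ih =>
      intro y y' hy
      rw [← key y a (y' a)]
      refine ih _ _ fun i hi => ?_
      by_cases hia : i = a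
      · subst hia; simp
      · rw [Function.update_of_ne hia]
        exact hy i (by simp [hia, hi])
  exact key2 Finset.univ y y' (by simp)

end Prd

end Vale.Agent.P299.H956
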