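import Vale.Agent.P299.H956.D1.Fac

/-! A closed form for which two blocks of coordinates are orthogonal: the restriction to one block
does not depend on the other coordinates. -/

open scoped Manifold ContDiff ComplexOrder Topology Matrix
open Complex Vale.Agent.P272.K Vale.Agent.P299.D

set_option linter.all false

noncomputable section

namespace Vale.Agent.P299.H956

section
variable {p q n : ℕ}

/-- inclusion of the first block -/
def inc1 (p q : ℕ) : Cm p →L[ℂ] Cm (p + q) :=
  LinearMap.toContinuousLinearMap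
    { toFun := fun ζ => Fin.append ζ 0
      map_add' := fun a b => by
        funext i
        refine Fin.addCases (fun i => ?_) (fun i => ?_) i <;> simp
      map_smul' := fun c a => by
        funext i
        refine Fin.addCases (fun i => ?_) (fun i => ?_) i <;> simp }

/-- inclusion of the second block -/
def inc2 (p q : ℕ) : Cm q →L[ℂ] Cm (p + q) :=
  LinearMap.toContinuousLinearMap
    { toFun := fun ζ => Fin.append 0 ζ
      map_add' := fun a b => by
        funext i
        refine Fin.addCases (fun i => ?_) (fun i => ?_) i <;> simp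
      map_smul' := fun c a => by
        funext i
        refine Fin.addCases (fun i => ?_) (fun i => ?_) i <;> simp }

lemma inc1_apply (ζ : Cm p) : inc1 p q ζ = Fin.append ζ 0 := rfl

lemma inc2_apply (ζ : Cm q) : inc2 p q ζ = Fin.append 0 ζ := rfl

lemma append_eq (ζ : Cm p) (η : Cm q) : (Fin.append ζ η : Cm (p + q)) = inc1 p q ζ + inc2 p q η := by
  funext i
  refine Fin.addCases (fun i => ?_) (fun i => ?_) i <;> simp [inc1_apply, inc2_apply]

lemma append_split (x : Cm (p + q)) :
    (Fin.append (fun c => x (Fin.castAdd q c)) (fun a => x (Fin.natAdd p a)) : Cm (p + q)) = x := by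
  funext i
  refine Fin.addCases (fun i => ?_) (fun i => ?_) i <;> simp

lemma append1_hol (η : Cm q) : ContDiff ℂ ω (fun ζ : Cm p => (Fin.append ζ η : Cm (p + q))) := by
  simp only [append_eq]
  exact (inc1 p q).contDiff.add contDiff_const

lemma append2_hol (ζ : Cm p) : ContDiff ℂ ω (fun η : Cm q => (Fin.append ζ η : Cm (p + q))) := by
  simp only [append_eq]
  exact contDiff_const.add (inc2 p q).contDiff

lemma jmR_append1 (η : Cm q) (ζ : Cm p) (r : Fin (p + q)) (i : Fin p) :
    jmR (fun ζ : Cm p => (Fin.append ζ η : Cm (p + q))) ζ r i =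
      (Fin.append (Pi.single i 1 : Cm p) 0 : Cm (p + q)) r := by
  rw [jmR_apply ((append1_hol η).differentiable (by simp) ζ)]
  have h : fderiv ℂ (fun ζ : Cm p => (Fin.append ζ η : Cm (p + q))) ζ = inc1 p q := by
    simp only [append_eq]
    rw [fderiv_add_const]
    exact (inc1 p q).fderiv
  rw [h]; rfl

lemma jmR_append2 (η : Cm q) (ζ : Cm p) (r : Fin (p + q)) (i : Fin q) :
    jmR (fun η : Cm q => (Fin.append ζ η : Cm (p + q))) η r i =
      (Fin.append 0 (Pi.single i 1 : Cm q) : Cm (p + q)) r := by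
  rw [jmR_apply ((append2_hol ζ).differentiable (by simp) η)]
  have h : fderiv ℂ (fun η : Cm q => (Fin.append ζ η : Cm (p + q))) η = inc2 p q := by
    simp only [append_eq]
    rw [fderiv_const_add]
    exact (inc2 p q).fderiv
  rw [h]; rfl

lemma mul_append1 (T : Matrix (Fin n) (Fin (p + q)) ℂ) (η : Cm q) (ζ : Cm p) (r : Fin n)
    (i : Fin p) : (T * jmR (fun ζ : Cm p => (Fin.append ζ η : Cm (p + q))) ζ) r i =
      T r (Fin.castAdd q i) := by
  rw [Matrix.mul_apply, Fin.sum_univ_add]
  simp [jmR_append1, Pi.single_apply]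

lemma mul_append2 (T : Matrix (Fin n) (Fin (p + q)) ℂ) (η : Cm q) (ζ : Cm p) (r : Fin n)
    (i : Fin q) : (T * jmR (fun η : Cm q => (Fin.append ζ η : Cm (p + q))) η) r i =
      T r (Fin.natAdd p i) := by
  rw [Matrix.mul_apply, Fin.sum_univ_add]
  simp [jmR_append2, Pi.single_apply]

/-- the pull back of `b` by `τ` -/
def pb (τ : Cm (p + q) → Cm n) (b : Cm n → Matrix (Fin n) (Fin n) ℂ) (x : Cm (p + q)) :
    Matrix (Fin (p + q)) (Fin (p + q)) ℂ :=
  (jmR τ x).transpose * b (τ x) * (jmR τ x).map (starRingEnd ℂ)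

lemma dist_append (ζ ζ' : Cm p) (η : Cm q) :
    dist (Fin.append ζ η : Cm (p + q)) (Fin.append ζ' η) ≤ dist ζ ζ' := by
  rw [dist_pi_le_iff dist_nonneg]
  intro i
  refine Fin.addCases (fun i => ?_) (fun i => ?_) i
  · simpa using dist_le_pi_dist ζ ζ' i
  · simp

theorem locA {τ : Cm (p + q) → Cm n} {b : Cm n → Matrix (Fin n) (Fin n) ℂ} {x0 : Cm (p + q)}
    (hτ : ContDiffAt ℂ ω τ x0)
    (hb : ∀ᶠ y in 𝓝 (τ x0), (∀ i j, DifferentiableAt ℝ (fun y => b y i j) y) ∧
      (∀ i j k, dz k (fun y => b y i j) y = dz i (fun y => b y k j) y) ∧ (b y).IsHermitian)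
    (hcross : ∀ᶠ x in 𝓝 x0, ∀ (c : Fin p) (a : Fin q),
      pb τ b x (Fin.castAdd q c) (Fin.natAdd p a) = 0) :
    ∀ᶠ ζ in 𝓝 (fun c : Fin p => x0 (Fin.castAdd q c)), ∀ a a' : Fin q,
      pb τ b (Fin.append ζ (fun a => x0 (Fin.natAdd p a))) (Fin.natAdd p a) (Fin.natAdd p a') =
        pb τ b x0 (Fin.natAdd p a) (Fin.natAdd p a') := by
  set ζ0 : Cm p := fun c => x0 (Fin.castAdd q c) with hζ0
  set η0 : Cm q := fun a => x0 (Fin.natAdd p a) with hη0
  have hx0 : (Fin.append ζ0 η0 : Cm (p + q)) = x0 := append_split x0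
  have hev : ∀ᶠ x in 𝓝 x0, ContDiffAt ℂ ω τ x ∧
      ((∀ i j, DifferentiableAt ℝ (fun y => b y i j) (τ x)) ∧
      (∀ i j k, dz k (fun y => b y i j) (τ x) = dz i (fun y => b y k j) (τ x)) ∧
      (b (τ x)).IsHermitian) ∧ ∀ (c : Fin p) (a : Fin q),
      pb τ b x (Fin.castAdd q c) (Fin.natAdd p a) = 0 :=
    (hτ.eventually (by simp)).and ((hτ.continuousAt.eventually hb).and hcross)
  obtain ⟨r, hr, hball⟩ := Metric.eventually_nhds_iff_ball.1 hev
  have hmem : ∀ ζ ∈ Metric.ball ζ0 r, (Fin.append ζ η0 : Cm (p + q)) ∈ Metric.ball x0 r := by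
    intro ζ hζ
    rw [Metric.mem_ball, ← hx0]
    exact lt_of_le_of_lt (dist_append ζ ζ0 η0) hζ
  -- smoothness
  have hdiff : ∀ x ∈ Metric.ball x0 r, ∀ s t, DifferentiableAt ℝ (fun x => pb τ b x s t) x := by
    intro x hx s t
    obtain ⟨hτx, ⟨hbd, -, -⟩, -⟩ := hball x hx
    have hJ : ∀ p i, DifferentiableAt ℝ (fun y => jmR τ y p i) x := fun p i =>
      ((jmR_holo hτx p i).differentiableAt (by simp)).restrictScalars ℝ
    have hJc : ∀ p i, DifferentiableAt ℝ (fun y => cj (jmR τ y p i)) x := fun p i =>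
      Complex.conjCLE.differentiableAt.comp x (hJ p i)
    have hbc : ∀ p q, DifferentiableAt ℝ (fun y => b (τ y) p q) x := fun p q =>
      (hbd p q).comp x ((hτx.differentiableAt (by simp)).restrictScalars ℝ)
    have h0 : (fun x => pb τ b x s t) =
        fun y => ∑ q, ∑ p, jmR τ y p s * b (τ y) p q * cj (jmR τ y q t) := by
      funext y
      simp only [pb, Matrix.mul_apply, Matrix.transpose_apply, Matrix.map_apply, Finset.sum_mul]
    rw [h0]
    exact DifferentiableAt.fun_sum fun q _ => DifferentiableAt.fun_sum fun p _ =>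
      ((hJ p s).mul (hbc p q)).mul (hJc q t)
  -- the derivative in the direction of the first block vanishes
  have hdz : ∀ x ∈ Metric.ball x0 r, ∀ (c : Fin p) (a a' : Fin q),
      dz (Fin.castAdd q c) (fun x => pb τ b x (Fin.natAdd p a) (Fin.natAdd p a')) x = 0 := by
    intro x hx c a a'
    obtain ⟨hτx, ⟨hbd, hbc, -⟩, -⟩ := hball x hx
    have h1 := closed_comp hτx hbd hbc (Fin.natAdd p a) (Fin.natAdd p a') (Fin.castAdd q c)
    have h2 : (fun x => pb τ b x (Fin.castAdd q c) (Fin.natAdd p a')) =ᶠ[𝓝 x] fun _ => 0 := by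
      filter_upwards [Metric.isOpen_ball.mem_nhds hx] with y hy
      exact (hball y hy).2.2 c a'
    have h3 : dz (Fin.natAdd p a) (fun x => pb τ b x (Fin.castAdd q c) (Fin.natAdd p a')) x = 0 := by
      rw [dz_congr h2, dz_const]
    exact h1.trans h3
  have hherm : ∀ x ∈ Metric.ball x0 r, ∀ s t, cj (pb τ b x s t) = pb τ b x t s := by
    intro x hx s t
    have hH := (hball x hx).2.1.2.2
    have h1 : (pb τ b x).conjTranspose = pb τ b x := by
      have e1 : ((jmR τ x).map (starRingEnd ℂ)).conjTranspose = (jmR τ x).transpose := by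
        ext i j; simp [Matrix.conjTranspose_apply]
      have e2 : ((jmR τ x).transpose).conjTranspose = (jmR τ x).map (starRingEnd ℂ) := by
        ext i j; simp [Matrix.conjTranspose_apply]
      unfold pb
      rw [Matrix.conjTranspose_mul, Matrix.conjTranspose_mul, e1, e2, hH.eq, Matrix.mul_assoc]
    have h2 := congrFun (congrFun h1 t) s
    rw [Matrix.conjTranspose_apply] at h2
    exact h2
  have hdzb : ∀ x ∈ Metric.ball x0 r, ∀ (c : Fin p) (a a' : Fin q),
      dzb (Fin.castAdd q c) (fun x => pb τ b x (Fin.natAdd p a) (Fin.natAdd p a')) x = 0 := by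
    intro x hx c a a'
    have h2 : (fun x => pb τ b x (Fin.natAdd p a) (Fin.natAdd p a')) =ᶠ[𝓝 x]
        fun x => cj (pb τ b x (Fin.natAdd p a') (Fin.natAdd p a)) := by
      filter_upwards [Metric.isOpen_ball.mem_nhds hx] with y hy
      exact (hherm y hy _ _).symm
    rw [dzb_congr h2, dzb_cj (hdiff x hx _ _), hdz x hx c a' a]
    simp [cj]
  -- constancy
  filter_upwards [Metric.ball_mem_nhds ζ0 hr] with ζ hζ a a'
  set H : Cm p → ℂ := fun ζ => pb τ b (Fin.append ζ η0) (Fin.natAdd p a) (Fin.natAdd p a') with hH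
  have hd : ∀ y ∈ Metric.ball ζ0 r, HasFDerivAt H (0 : Cm p →L[ℝ] ℂ) y := by
    intro y hy
    have hx := hmem y hy
    have happ : DifferentiableAt ℂ (fun ζ : Cm p => (Fin.append ζ η0 : Cm (p + q))) y :=
      (append1_hol η0).differentiable (by simp) y
    have hG := hdiff _ hx (Fin.natAdd p a) (Fin.natAdd p a')
    have hHd : DifferentiableAt ℝ H y :=
      DifferentiableAt.comp (g := fun x => pb τ b x (Fin.natAdd p a) (Fin.natAdd p a'))
        (f := fun ζ : Cm p => (Fin.append ζ η0 : Cm (p + q))) y hG (happ.restrictScalars ℝ)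
    have h0 : fderiv ℝ H y = 0 := by
      ext v
      rw [fderiv_eq]
      refine Finset.sum_eq_zero fun i _ => ?_
      have e1 : dz i H y = 0 := by
        have := dz_compR (i := i) hG happ
        rw [show dz i H y = _ from this, Fin.sum_univ_add]
        simp only [jmR_append1, Fin.append_left, Fin.append_right, Pi.zero_apply, mul_zero,
          Finset.sum_const_zero, add_zero]
        refine Finset.sum_eq_zero fun c _ => ?_
        rw [hdz _ hx c a a', zero_mul]
      have e2 : dzb i H y = 0 := by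
        have := dzb_compR (i := i) hG happ
        rw [show dzb i H y = _ from this, Fin.sum_univ_add]
        simp only [jmR_append1, Fin.append_left, Fin.append_right, Pi.zero_apply]
        have e3 : ∑ x : Fin q, dzb (Fin.natAdd p x) (fun x => pb τ b x (Fin.natAdd p a)
            (Fin.natAdd p a')) (Fin.append y η0) * cj 0 = 0 :=
          Finset.sum_eq_zero fun c _ => by simp [cj]
        rw [e3, add_zero]
        refine Finset.sum_eq_zero fun c _ => ?_
        rw [hdzb _ hx c a a', zero_mul]
      rw [e1, e2]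
      simp
    rw [← h0]
    exact hHd.hasFDerivAt
  have hconv : Convex ℝ (Metric.ball ζ0 r) := convex_ball ζ0 r
  have hconst : H ζ = H ζ0 := by
    refine hconv.is_const_of_fderivWithin_eq_zero (𝕜 := ℝ) (f := H) ?_ ?_ hζ
      (Metric.mem_ball_self hr)
    · intro y hy
      exact (hd y hy).differentiableAt.differentiableWithinAt
    · intro y hy
      rw [fderivWithin_of_isOpen Metric.isOpen_ball hy]
      exact (hd y hy).fderiv
  have h1 : H ζ0 = pb τ b x0 (Fin.natAdd p a) (Fin.natAdd p a') := by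
    show pb τ b (Fin.append ζ0 η0) _ _ = _
    rw [hx0]
  rw [← h1]
  exact hconst

end

end Vale.Agent.P299.H956
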