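import Vale.Agent.P299.H956.D1.End
import Mathlib.LinearAlgebra.Trace

/-! Projections; the maximal parallel projection killed by `Ric`. -/

open scoped Manifold ContDiff ComplexOrder Topology Polynomial
open Complex Vale.Agent.P272.K Vale.Agent.P299.D Polynomial

set_option linter.all false

noncomputable section

namespace Vale.Agent.P299.H956

section alg
variable {n : ℕ}

/-- the trace of an idempotent matrix is its rank -/
lemma trace_idem {P : Matrix (Fin n) (Fin n) ℂ} (h : P * P = P) :
    ∃ r : ℕ, r ≤ n ∧ P.trace = r := by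
  have h1 : IsIdempotentElem (Matrix.toLin' P) := by
    show Matrix.toLin' P * Matrix.toLin' P = Matrix.toLin' P
    rw [Module.End.mul_eq_comp, ← Matrix.toLin'_mul, h]
  have h2 := (LinearMap.IsIdempotentElem.isProj_range _ h1).trace
  rw [Matrix.trace_toLin'_eq] at h2
  refine ⟨_, ?_, h2⟩
  have := Submodule.finrank_le (LinearMap.range (Matrix.toLin' P))
  simpa using this

/-- the Hermitian inner product with coefficient matrix `w` -/
def ip (w : Matrix (Fin n) (Fin n) ℂ) (u v : Cm n) : ℂ := u ⬝ᵥ w.mulVec (star v)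

variable {w A B P P' Q : Matrix (Fin n) (Fin n) ℂ}

lemma ip_SA (h : SA w B) (u v : Cm n) : ip w (B.mulVec u) v = ip w u (B.mulVec v) := by
  unfold ip
  have h1 : star (B.mulVec v) = (mcj B).mulVec (star v) := by
    funext i
    simp [Matrix.mulVec, dotProduct, mcj, mul_comm]
  rw [h1, Matrix.mulVec_mulVec, ← show B.transpose * w = w * mcj B from h, ← Matrix.mulVec_mulVec,
    Matrix.dotProduct_mulVec u, Matrix.vecMul_transpose]

lemma ip_pos (hw : w.PosDef) {u : Cm n} (hu : u ≠ 0) : 0 < ip w u u := by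
  have := hw.dotProduct_mulVec_pos (x := star u) (by simpa using hu)
  simpa [ip] using this

lemma ip_self_nonneg (hw : w.PosDef) (u : Cm n) : 0 ≤ ip w u u := by
  by_cases hu : u = 0
  · subst hu; simp [ip]
  · exact (ip_pos hw hu).le

lemma ip_self_eq_zero (hw : w.PosDef) {u : Cm n} (h : ip w u u = 0) : u = 0 := by
  by_contra hu
  exact (ip_pos hw hu).ne' h

lemma ip_add_left (u v x : Cm n) : ip w (u + v) x = ip w u x + ip w v x := by
  unfold ip; rw [add_dotProduct]

lemma ip_zero_left (x : Cm n) : ip w 0 x = 0 := by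
  unfold ip; rw [zero_dotProduct]

/-- `P Q = 0` implies `Q P = 0` -/
lemma SA.mul_eq_zero_comm (hw : w.PosDef) (hP : SA w P) (hQ : SA w Q) (h : P * Q = 0) :
    Q * P = 0 := by
  have hu : IsUnit w.det := (Matrix.isUnit_iff_isUnit_det w).1 hw.isUnit
  have h1 : w * mcj (Q * P) = 0 := by
    rw [mcj_mul, ← Matrix.mul_assoc, ← show Q.transpose * w = w * mcj Q from hQ, Matrix.mul_assoc,
      ← show P.transpose * w = w * mcj P from hP, ← Matrix.mul_assoc, ← Matrix.transpose_mul, h]
    simp
  have h2 : mcj (Q * P) = 0 := by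
    have := congrArg (w⁻¹ * ·) h1
    simpa only [← Matrix.mul_assoc, Matrix.nonsing_inv_mul _ hu, Matrix.one_mul, Matrix.mul_zero]
      using this
  ext i j
  have := congrFun (congrFun h2 i) j
  simpa [mcj] using this

/-- the symmetric version for `P Q = Q` -/
lemma SA.mul_eq_right_comm (hw : w.PosDef) (hP : SA w P) (hQ : SA w Q) (h : P * Q = Q) :
    Q * P = Q := by
  have h1 : (1 - P) * Q = 0 := by rw [Matrix.sub_mul, Matrix.one_mul, h, sub_self]
  have h2 := SA.mul_eq_zero_comm hw (SA.one.sub hP) hQ h1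
  rw [Matrix.mul_sub, Matrix.mul_one, sub_eq_zero] at h2
  exact h2.symm

/-- what kills the sum of two orthogonal projections kills both -/
lemma SA.kills_left (hw : w.PosDef) (hP : SA w P) (hPP : P * P = P) (hP' : SA w P')
    (hPP' : P' * P' = P') (hQ : SA w Q) (h : Q * (P + P') = 0) : Q * P = 0 := by
  refine SA.mul_eq_zero_comm hw hP hQ ?_
  have key : ∀ u : Cm n, (P * Q).mulVec u = 0 := by
    intro u
    have e : ∀ {R : Matrix (Fin n) (Fin n) ℂ}, SA w R → R * R = R →
        ip w ((Q * R).mulVec (Q.mulVec u)) u = ip w (R.mulVec (Q.mulVec u)) (R.mulVec (Q.mulVec u)) := by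
      intro R hR hRR
      rw [← Matrix.mulVec_mulVec, ip_SA hQ]
      conv_lhs => rw [← hRR, ← Matrix.mulVec_mulVec, ip_SA hR]
    have h1 : ip w ((Q * P).mulVec (Q.mulVec u)) u + ip w ((Q * P').mulVec (Q.mulVec u)) u = 0 := by
      rw [← ip_add_left, ← Matrix.add_mulVec, ← Matrix.mul_add, h, Matrix.zero_mulVec, ip_zero_left]
    rw [e hP hPP, e hP' hPP'] at h1
    have h2 := ip_self_nonneg hw (P.mulVec (Q.mulVec u))
    have h3 := ip_self_nonneg hw (P'.mulVec (Q.mulVec u))
    have h4 : ip w (P.mulVec (Q.mulVec u)) (P.mulVec (Q.mulVec u)) = 0 := by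
      refine le_antisymm ?_ h2
      rw [← h1]
      exact le_add_of_nonneg_right h3
    rw [← Matrix.mulVec_mulVec]
    exact ip_self_eq_zero hw h4
  ext i j
  have := congrFun (key (Pi.single j 1)) i
  simpa using this

lemma SA.kills_right (hw : w.PosDef) (hP : SA w P) (hPP : P * P = P) (hP' : SA w P')
    (hPP' : P' * P' = P') (hQ : SA w Q) (h : Q * (P + P') = 0) : Q * P' = 0 :=
  SA.kills_left hw hP' hPP' hP hPP hQ (by rwa [add_comm])

end alg

section
variable {n : ℕ} {X : Type*} [TopologicalSpace X] [ChartedSpace (Cm n) X]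

/-- a field of projections -/
def IsProjF (P : FormM n X) : Prop := ∀ e x, At e x → P e (e x) * P e (e x) = P e (e x)

/-- the polynomial in `B` without constant term is killed by everything that kills `B` -/
lemma ricKills_pol {w B : FormM n X} (h : RicKills w B) (p : ℝ[X]) :
    RicKills w (pol (p * Polynomial.X) B) := by
  intro e x hx
  unfold pol
  have h1 : Polynomial.aeval (B e (e x)) (p * Polynomial.X) =
      B e (e x) * Polynomial.aeval (B e (e x)) p := by
    rw [mul_comm p, map_mul, Polynomial.aeval_X]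
  rw [h1, Matrix.transpose_mul, Matrix.mul_assoc, h e x hx, Matrix.mul_zero]

variable [PreconnectedSpace X] [Nonempty X] [IsManifold 𝓘(ℂ, Cm n) ω X] {w : FormM n X}

/-- **the maximal parallel projection killed by `Ric`** -/
theorem exists_max (hw : IsHermitian w) : ∃ P : FormM n X, ParEnd w P ∧ IsProjF P ∧ RicKills w P ∧
    ∀ B : FormM n X, ParEnd w B → RicKills w B → ∀ e x, At e x → P e (e x) * B e (e x) = B e (e x) := by
  obtain ⟨x0⟩ := (inferInstance : Nonempty X)
  have h0 := at_chartAt (n := n) x0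
  set e0 := chartAt (Cm n) x0
  let S : Set ℕ := {r | ∃ P : FormM n X, ParEnd w P ∧ IsProjF P ∧ RicKills w P ∧
    (P e0 (e0 x0)).trace = r}
  have hS : S.Finite := by
    refine (Set.finite_Iic n).subset ?_
    rintro r ⟨P, hP, hPP, -, hr⟩
    obtain ⟨r', h1, h2⟩ := trace_idem (hPP e0 x0 h0)
    rw [hr] at h2
    have : r = r' := by exact_mod_cast h2
    rw [this]; exact h1
  have hne : S.Nonempty := ⟨0, fun _ _ => 0, ParEnd.zero, fun _ _ _ => by simp, fun _ _ _ => by simp,
    by simp⟩
  obtain ⟨r, ⟨P, hP, hPP, hPR, hr⟩, hmax⟩ := S.exists_max_image id hS hne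
  refine ⟨P, hP, hPP, hPR, fun B hB hBR => ?_⟩
  -- the projection onto the image of `B`
  obtain ⟨p, hp⟩ := hB.exists_proj hw
  set P' := pol (p * Polynomial.X) B with hP'def
  have hP' : ParEnd w P' := hB.pol _
  have hPP' : IsProjF P' := fun e x h => (hp e x h).2
  have hPR' : RicKills w P' := ricKills_pol hBR p
  -- the sum
  have hsum : ParEnd w (fun e z => P e z + P' e z) := hP.add hP'
  have hsumR : RicKills w (fun e z => P e z + P' e z) := by
    intro e x h
    show (P e (e x) + P' e (e x)).transpose * _ = 0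
    rw [Matrix.transpose_add, Matrix.add_mul, hPR e x h, hPR' e x h, add_zero]
  obtain ⟨q, hq⟩ := hsum.exists_proj hw
  set P'' := pol (q * Polynomial.X) (fun e z => P e z + P' e z) with hP''def
  have hP'' : ParEnd w P'' := hsum.pol _
  have hPP'' : IsProjF P'' := fun e x h => (hq e x h).2
  have hPR'' : RicKills w P'' := ricKills_pol hsumR q
  have habs : ∀ e x, At e x → P'' e (e x) * P e (e x) = P e (e x) ∧
      P'' e (e x) * P' e (e x) = P' e (e x) := by
    intro e x h
    have hw' := hw.posDef e x h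
    have h1 : (1 - P'' e (e x)) * (P e (e x) + P' e (e x)) = 0 := by
      rw [Matrix.sub_mul, Matrix.one_mul, (hq e x h).1, sub_self]
    have h2 := SA.kills_left hw' (hP.SA h) (hPP e x h) (hP'.SA h) (hPP' e x h)
      (SA.one.sub (hP''.SA h)) h1
    have h3 := SA.kills_right hw' (hP.SA h) (hPP e x h) (hP'.SA h) (hPP' e x h)
      (SA.one.sub (hP''.SA h)) h1
    rw [Matrix.sub_mul, Matrix.one_mul, sub_eq_zero] at h2 h3
    exact ⟨h2.symm, h3.symm⟩
  -- the difference `P'' - P` is a projection of trace `0`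
  have hD : ParEnd w (fun e z => P'' e z - P e z) := hP''.sub hP
  have hDD : ∀ e x, At e x → (P'' e (e x) - P e (e x)) * (P'' e (e x) - P e (e x)) =
      P'' e (e x) - P e (e x) := by
    intro e x h
    have h1 := (habs e x h).1
    have h2 := SA.mul_eq_right_comm (hw.posDef e x h) (hP''.SA h) (hP.SA h) h1
    rw [Matrix.sub_mul, Matrix.mul_sub, Matrix.mul_sub, h1, h2, hPP'' e x h, hPP e x h]
    abel
  have htr : (P'' e0 (e0 x0) - P e0 (e0 x0)).trace = 0 := by
    obtain ⟨r1, -, h1⟩ := trace_idem (hDD e0 x0 h0)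
    obtain ⟨r2, -, h2⟩ := trace_idem (hPP'' e0 x0 h0)
    have h3 : r2 ≤ r := hmax r2 ⟨P'', hP'', hPP'', hPR'', h2⟩
    have h4 : (r1 : ℂ) = (r2 : ℂ) - r := by
      rw [← h1, ← h2, ← hr, Matrix.trace_sub]
    have h5 : r1 + r = r2 := by
      have : ((r1 + r : ℕ) : ℂ) = (r2 : ℂ) := by push_cast; rw [h4]; ring
      exact_mod_cast this
    have h6 : r1 = 0 := by omega
    rw [h1, h6]; simp
  have heq : ∀ e x, At e x → P'' e (e x) = P e (e x) := by
    intro e x h
    have h1 : (P'' e0 (e0 x0) - P e0 (e0 x0)) = 0 := by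
      refine (hD.SA h0).eq_zero_of_trace (hw.posDef e0 x0 h0) ?_
      rw [hDD e0 x0 h0]; exact htr
    exact sub_eq_zero.1 (hD.eq_zero hw h0 h h1)
  intro e x h
  have h1 : P e (e x) * P' e (e x) = P' e (e x) := by
    rw [← heq e x h]; exact (habs e x h).2
  calc P e (e x) * B e (e x) = P e (e x) * (P' e (e x) * B e (e x)) := by rw [(hp e x h).1]
    _ = B e (e x) := by rw [← Matrix.mul_assoc, h1, (hp e x h).1]

end

end Vale.Agent.P299.H956
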