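import Vale.Agent.P299.H956.D1.Splt

/-! Changing the model space of a complex manifold to `Cm d`. -/

open scoped Manifold ContDiff ComplexOrder Topology Matrix
open Complex Vale.Agent.P272.K Vale.Agent.P299.D Vale.Agent.P278.H837

set_option linter.all false

noncomputable section

namespace Vale.Agent.P299.H956

section
variable {A B : Type*} [NormedAddCommGroup A] [NormedSpace ℂ A] [NormedAddCommGroup B]
  [NormedSpace ℂ B] (L : A ≃L[ℂ] B) (Y : Type*) [TopologicalSpace Y] [ChartedSpace A Y]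

/-- transport of the model space -/
@[reducible] def reChart : ChartedSpace B Y where
  atlas := (fun e : OpenPartialHomeomorph Y A => e.trans L.toHomeomorph.toOpenPartialHomeomorph) ''
    atlas A Y
  chartAt y := (chartAt A y).trans L.toHomeomorph.toOpenPartialHomeomorph
  mem_chart_source y := by simp
  chart_mem_atlas y := ⟨_, chart_mem_atlas A y, rfl⟩

lemma reChart_isManifold [IsManifold 𝓘(ℂ, A) ω Y] :
    letI := reChart L Y
    IsManifold 𝓘(ℂ, B) ω Y := by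
  letI := reChart L Y
  refine isManifold_of_contDiffOn 𝓘(ℂ, B) ω Y ?_
  rintro _ _ ⟨e, he, rfl⟩ ⟨e', he', rfl⟩
  have h1 : ∀ z : A, z ∈ e.target → e.symm z ∈ e'.source →
      ContDiffAt ℂ ω (fun z : A => e' (e.symm z)) z := by
    intro z hz hz'
    rw [← contMDiffAt_iff_contDiffAt]
    have h1 : ContMDiffAt 𝓘(ℂ, A) 𝓘(ℂ, A) ω e' (e.symm z) :=
      (contMDiffOn_of_mem_maximalAtlas (I := 𝓘(ℂ, A)) (n := ω)
        (IsManifold.subset_maximalAtlas he')).contMDiffAt (e'.open_source.mem_nhds hz')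
    have h2 : ContMDiffAt 𝓘(ℂ, A) 𝓘(ℂ, A) ω e.symm z :=
      (contMDiffOn_symm_of_mem_maximalAtlas (I := 𝓘(ℂ, A)) (n := ω)
        (IsManifold.subset_maximalAtlas he)).contMDiffAt (e.open_target.mem_nhds hz)
    exact ContMDiffAt.comp z (g := e') (f := e.symm) h1 h2
  intro z hz
  have hz1 : L.symm z ∈ e.target ∧ e.symm (L.symm z) ∈ e'.source := by
    simpa [OpenPartialHomeomorph.trans_source] using hz
  have h2 := h1 _ hz1.1 hz1.2
  have h3 : ContDiffAt ℂ ω (fun z : B => L (e' (e.symm (L.symm z)))) z :=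
    L.contDiff.contDiffAt.comp z (h2.comp z L.symm.contDiff.contDiffAt)
  exact h3.contDiffWithinAt

lemma reChart_contMDiff [IsManifold 𝓘(ℂ, A) ω Y] :
    letI := reChart L Y
    ContMDiff 𝓘(ℂ, A) 𝓘(ℂ, B) ω (fun y : Y => y) := by
  letI := reChart L Y
  intro y
  rw [contMDiffAt_iff]
  refine ⟨continuousAt_id, ?_⟩
  have h1 : ContDiffAt ℂ ω (fun z : A => L z) (chartAt A y y) := L.contDiff.contDiffAt
  have h2 : (fun z : A => L (chartAt A y ((chartAt A y).symm z))) =ᶠ[𝓝 (chartAt A y y)]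
      fun z => L z := by
    filter_upwards [(chartAt A y).open_target.mem_nhds
      ((chartAt A y).map_source (mem_chart_source A y))] with z hz
    rw [(chartAt A y).right_inv hz]
  exact (h1.congr_of_eventuallyEq h2).contDiffWithinAt

lemma reChart_contMDiff' [IsManifold 𝓘(ℂ, A) ω Y] :
    letI := reChart L Y
    ContMDiff 𝓘(ℂ, B) 𝓘(ℂ, A) ω (fun y : Y => y) := by
  letI := reChart L Y
  intro y
  rw [contMDiffAt_iff]
  refine ⟨continuousAt_id, ?_⟩
  have h1 : ContDiffAt ℂ ω (fun z : B => L.symm z) (L (chartAt A y y)) := L.symm.contDiff.contDiffAt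
  have h2 : (fun z : B => (chartAt A y ((chartAt A y).symm (L.symm z)))) =ᶠ[𝓝 (L (chartAt A y y))]
      fun z => L.symm z := by
    have h3 : ∀ᶠ z in 𝓝 (L (chartAt A y y)), L.symm z ∈ (chartAt A y).target := by
      refine L.symm.continuous.continuousAt.eventually ((chartAt A y).open_target.mem_nhds ?_)
      rw [L.symm_apply_apply]
      exact (chartAt A y).map_source (mem_chart_source A y)
    filter_upwards [h3] with z hz
    rw [(chartAt A y).right_inv hz]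
  exact (h1.congr_of_eventuallyEq h2).contDiffWithinAt

lemma mfderiv_reChart [IsManifold 𝓘(ℂ, A) ω Y] {E M : Type*} [NormedAddCommGroup E]
    [NormedSpace ℂ E] [TopologicalSpace M] [ChartedSpace E M] {f : M → Y} {m : M}
    (hf : ContMDiffAt 𝓘(ℂ, E) 𝓘(ℂ, A) ω f m) (u : TangentSpace 𝓘(ℂ, E) m) :
    letI := reChart L Y
    mfderiv 𝓘(ℂ, E) 𝓘(ℂ, A) f m u = 0 ↔ mfderiv 𝓘(ℂ, E) 𝓘(ℂ, B) f m u = 0 := by
  letI := reChart L Y
  have h1 := (reChart_contMDiff L Y)
  have h2 := (reChart_contMDiff' L Y)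
  have hf' : ContMDiffAt 𝓘(ℂ, E) 𝓘(ℂ, B) ω f m := h1.contMDiffAt.comp m hf
  have e1 := mfderiv_comp m (h1.mdifferentiable (by simp) (f m)) (hf.mdifferentiableAt (by simp))
  have e2 := mfderiv_comp m (h2.mdifferentiable (by simp) (f m)) (hf'.mdifferentiableAt (by simp))
  have e1' : mfderiv 𝓘(ℂ, E) 𝓘(ℂ, B) f m u = mfderiv 𝓘(ℂ, A) 𝓘(ℂ, B) (fun y : Y => y) (f m)
      (mfderiv 𝓘(ℂ, E) 𝓘(ℂ, A) f m u) := congrArg (fun T => T u) e1
  have e2' : mfderiv 𝓘(ℂ, E) 𝓘(ℂ, A) f m u = mfderiv 𝓘(ℂ, B) 𝓘(ℂ, A) (fun y : Y => y) (f m)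
      (mfderiv 𝓘(ℂ, E) 𝓘(ℂ, B) f m u) := congrArg (fun T => T u) e2
  constructor
  · intro h; rw [e1', h, map_zero]
  · intro h; rw [e2', h, map_zero]

end

/-- `M` is the product of the complex manifolds `Y i`, and the projections `P i` are the projections
onto the tangent spaces of the factors. -/
structure Prd (n : ℕ) (M : Type) [TopologicalSpace M] [ChartedSpace (Cm n) M]
    (P : Fin 3 → FormM n M) where
  d : Fin 3 → ℕ
  Y : Fin 3 → Type
  topY : ∀ i, TopologicalSpace (Y i)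
  chY : ∀ i, ChartedSpace (Cm (d i)) (Y i)
  mfdY : ∀ i, IsManifold 𝓘(ℂ, Cm (d i)) ω (Y i)
  t2Y : ∀ i, T2Space (Y i)
  scY : ∀ i, SimplyConnectedSpace (Y i)
  secY : ∀ i, SecondCountableTopology (Y i)
  Φ : M ≃ₜ ((i : Fin 3) → Y i)
  Φ_hol : ∀ i, ContMDiff 𝓘(ℂ, Cm n) 𝓘(ℂ, Cm (d i)) ω (fun m => Φ m i)
  slice_hol : ∀ i (y : (i : Fin 3) → Y i), ContMDiff 𝓘(ℂ, Cm (d i)) 𝓘(ℂ, Cm n) ω
    (fun z : Y i => Φ.symm (Function.update y i z))
  symm_hol : ∀ (N : Type) [TopologicalSpace N] (k : ℕ) [ChartedSpace (Cm k) N]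
    (f : N → (i : Fin 3) → Y i) (x : N),
    (∀ i, ContMDiffAt 𝓘(ℂ, Cm k) 𝓘(ℂ, Cm (d i)) ω (fun t => f t i) x) →
      ContMDiffAt 𝓘(ℂ, Cm k) 𝓘(ℂ, Cm n) ω (fun t => Φ.symm (f t)) x
  ker : ∀ (i : Fin 3) (e : Chart n M) (m : M) (e' : (i : Fin 3) → Chart (d i) (Y i)), At e m →
    (∀ i, At (e' i) (Φ m i)) → ∀ u : Cm n, (P i e (e m)).mulVec u = u ↔
      ∀ j, j ≠ i → (jacF (fun m => Φ m j) e (e' j) m).mulVec u = 0

attribute [instance] Prd.topY Prd.chY Prd.mfdY Prd.t2Y Prd.scY Prd.secY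

section
variable {n : ℕ} {M : Type} {X : Type*} [TopologicalSpace M] [TopologicalSpace X]
  [ChartedSpace (Cm n) M] [ChartedSpace (Cm n) X]
  [IsManifold 𝓘(ℂ, Cm n) ω M] [IsManifold 𝓘(ℂ, Cm n) ω X] {π : M → X} {w : FormM n X}

lemma mem_pull_iff (hl : IsLocalDiffeomorph 𝓘(ℂ, Cm n) 𝓘(ℂ, Cm n) ω π) {Q : FormM n X}
    (hQQ : IsProjF Q) {P : FormM n M} (hP : IsHolEnd P)
    (hPQ : ∀ e e' m, At e m → At e' (π m) →
      Q e' (e' (π m)) = jacF π e e' m * P e (e m) * (jacF π e e' m)⁻¹)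
    {e : Chart n M} {m : M} (h : At e m) (u : Cm n) :
    ((P e (e m)).mulVec u = u ↔
      ((jacM e (chartAt (Cm n) m) m).mulVec u : TangentSpace 𝓘(ℂ, Cm n) m) ∈ pull π (imDist Q) m) := by
  have hc := at_chartAt (n := n) m
  have hc' := at_chartAt (n := n) (π m)
  set c := chartAt (Cm n) m
  set c' := chartAt (Cm n) (π m)
  have hu := jac_isUnit (immersive_of_localDiffeo hl) hc hc'
  have hm : ∀ v : Cm n, (v : TangentSpace 𝓘(ℂ, Cm n) m) ∈ pull π (imDist Q) m ↔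
      (P c (c m)).mulVec v = v := by
    intro v
    have h1 : (v : TangentSpace 𝓘(ℂ, Cm n) m) ∈ pull π (imDist Q) m ↔
        ((jacF π c c' m).mulVec v : Cm n) ∈ LinearMap.range (Matrix.toLin' (Q c' (c' (π m)))) := by
      have h2 : (mfderiv 𝓘(ℂ, Cm n) 𝓘(ℂ, Cm n) π m : Cm n →L[ℂ] Cm n) v =
          (jacF π c c' m).mulVec v := mfderiv_eq_jacF (hl.contMDiff.contMDiffAt (x := m)) v
      rw [← h2]
      exact Iff.rfl
    rw [h1, mem_range_proj (hQQ c' _ hc'), hPQ c c' m hc hc', Matrix.mulVec_mulVec,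
      Matrix.mul_assoc, Matrix.nonsing_inv_mul _ hu, Matrix.mul_one, ← Matrix.mulVec_mulVec]
    constructor
    · intro h3
      have h4 := congrArg ((jacF π c c' m)⁻¹.mulVec) h3
      simpa only [Matrix.mulVec_mulVec, ← Matrix.mul_assoc, Matrix.nonsing_inv_mul _ hu,
        Matrix.one_mul, Matrix.one_mulVec] using h4
    · intro h3
      rw [h3]
  rw [hm, Matrix.mulVec_mulVec, ← hP.change e c m h hc, ← Matrix.mulVec_mulVec]
  constructor
  · intro h1
    rw [h1]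
  · intro h1
    have h2 := congrArg (jacM c e m).mulVec h1
    simpa only [Matrix.mulVec_mulVec, ← Matrix.mul_assoc, jacM_mul h hc, Matrix.one_mul,
      Matrix.one_mulVec] using h2

theorem exists_prd [SimplyConnectedSpace M] [CompactSpace X] [T2Space X] [ConnectedSpace X]
    (hcov : IsCoveringMap π) (hl : IsLocalDiffeomorph 𝓘(ℂ, Cm n) 𝓘(ℂ, Cm n) ω π)
    (hs : Function.Surjective π) (hgal : ∀ m m' : M, π m = π m' → ∃ γ : Deck π, (γ : M ≃ₜ M) m = m')
    (hw : IsKahler w) {P : Fin 3 → FormM n M} (h : PDec (pullM π w) P)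
    (hinv : ∀ i, Inv π (P i)) :
    ∃ D : Prd n M P, ∃ ρ : ∀ i, Deck π →* Equiv.Perm (D.Y i),
      (∀ i γ, ContMDiff 𝓘(ℂ, Cm (D.d i)) 𝓘(ℂ, Cm (D.d i)) ω (ρ i γ)) ∧
      ∀ (γ : Deck π) m i, D.Φ ((γ : M ≃ₜ M) m) i = ρ i γ (D.Φ m i) := by
  obtain ⟨Q, hQ, hQP⟩ := h.desc hl hs hgal hw.toIsHermitian hinv
  obtain ⟨A, i1, i2, Y, i3, i4, Φ, hprod, hdeck⟩ :=
    splitting_product hcov hl (kform w) (kform_isKahler hw) _ (hQ.isSplitting hw)
  have hfd : ∀ i, FiniteDimensional ℂ (A i) := fun i => (hprod.factor i).fd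
  have hmfd : ∀ i, IsManifold 𝓘(ℂ, A i) ω (Y i) := fun i => (hprod.factor i).mfd
  let d : Fin 3 → ℕ := fun i => Module.finrank ℂ (A i)
  let L : ∀ i, A i ≃L[ℂ] Cm (d i) := fun i => ContinuousLinearEquiv.ofFinrankEq (by simp [d])
  letI chY : ∀ i, ChartedSpace (Cm (d i)) (Y i) := fun i => reChart (L i) (Y i)
  have mfdY : ∀ i, IsManifold 𝓘(ℂ, Cm (d i)) ω (Y i) := fun i => reChart_isManifold (L i) (Y i)
  let Ψ := hprod.bihol.2.diffeomorphOfBijective hprod.bihol.1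
  have hΨ : ∀ m, Ψ m = Φ m := fun m => rfl
  have hΦ_hol : ∀ i, ContMDiff 𝓘(ℂ, Cm n) 𝓘(ℂ, Cm (d i)) ω (fun m => Φ m i) := fun i =>
    (reChart_contMDiff (L i) (Y i)).comp (hprod.contMDiff_coord i)
  have hslice : ∀ i (y : (i : Fin 3) → Y i), ContMDiff 𝓘(ℂ, Cm (d i)) 𝓘(ℂ, Cm n) ω
      (fun z : Y i => Ψ.symm (Function.update y i z)) := fun i y =>
    (Ψ.symm.contMDiff.comp (contMDiff_update y i)).comp (reChart_contMDiff' (L i) (Y i))
  obtain ⟨ρ, hρ, hρΦ⟩ := hdeck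
  refine ⟨{ d := d, Y := Y, topY := i3, chY := chY, mfdY := mfdY
            t2Y := fun i => (hprod.factor i).t2
            scY := fun i => (hprod.factor i).simply
            secY := fun i => (hprod.factor i).sc
            Φ := Ψ.toHomeomorph
            Φ_hol := hΦ_hol
            slice_hol := hslice
            symm_hol := fun N _ k _ f x hf => by
              have h1 : ContMDiffAt 𝓘(ℂ, Cm k) (Vale.Agent.P278.piModel ℂ A) ω f x :=
                Vale.Agent.P278.contMDiffAt_pi_iff.2 fun i =>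
                  ((reChart_contMDiff' (L i) (Y i)).contMDiffAt (x := f x i)).comp x (hf i)
              exact (Ψ.symm.contMDiff.contMDiffAt (x := f x)).comp x h1
            ker := ?_ }, ρ, fun i γ => ?_, hρΦ⟩
  · intro i e m e' he he' u
    have hc := at_chartAt (n := n) m
    have hmem : ∀ v : TangentSpace 𝓘(ℂ, Cm n) m, v ∈ (⨅ j ≠ i, Vale.Agent.P278.StmtF.kerD (A j)
        (fun y => Φ y j) m : Submodule ℂ (TangentSpace 𝓘(ℂ, Cm n) m)) ↔
        ∀ j, j ≠ i → mfderiv 𝓘(ℂ, Cm n) 𝓘(ℂ, A j) (fun y => Φ y j) m v = 0 := by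
      intro v
      simp only [Submodule.mem_iInf]
      exact Iff.rfl
    rw [mem_pull_iff hl (hQ.idem i) (h.par i).hol (hQP i) he u, hprod.ker i m]
    refine (hmem _).trans (forall₂_congr fun j hj => ?_)
    have hj' : ContMDiffAt 𝓘(ℂ, Cm n) 𝓘(ℂ, Cm (d j)) ω (fun m => Φ m j) m := (hΦ_hol j).contMDiffAt
    have hcj : At (chartAt (Cm (d j)) (Φ m j)) (Φ m j) := at_chartAt (n := d j) (Φ m j)
    have h1 := mfderiv_reChart (L j) (Y j) ((hprod.contMDiff_coord j).contMDiffAt (x := m))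
      ((jacM e (chartAt (Cm n) m) m).mulVec u : TangentSpace 𝓘(ℂ, Cm n) m)
    refine h1.trans ?_
    have h2 : (mfderiv 𝓘(ℂ, Cm n) 𝓘(ℂ, Cm (d j)) (fun m => Φ m j) m : Cm n →L[ℂ] Cm (d j))
        ((jacM e (chartAt (Cm n) m) m).mulVec u) = _ := mfderiv_eq_jacF hj' _
    have h3 : (jacF (fun m => Φ m j) (chartAt (Cm n) m) (chartAt (Cm (d j)) (Φ m j)) m).mulVec
        ((jacM e (chartAt (Cm n) m) m).mulVec u) =
        (jacF (fun m => Φ m j) e (chartAt (Cm (d j)) (Φ m j)) m).mulVec u := by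
      rw [Matrix.mulVec_mulVec, ← jacF_left hj' he hc hcj]
    have h4 : (jacF (fun m => Φ m j) e (e' j) m).mulVec u =
        (jacM (chartAt (Cm (d j)) (Φ m j)) (e' j) (Φ m j)).mulVec
          ((jacF (fun m => Φ m j) e (chartAt (Cm (d j)) (Φ m j)) m).mulVec u) := by
      rw [Matrix.mulVec_mulVec, ← jacF_right hj' he hcj (he' j)]
    have h5 : ((jacM e (chartAt (Cm n) m) m).mulVec u : Cm n) = _ := rfl
    constructor
    · intro h6
      have h7 : (jacF (fun m => Φ m j) e (chartAt (Cm (d j)) (Φ m j)) m).mulVec u = 0 := by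
        rw [← h3, ← h2]; exact h6
      show (jacF (fun m => Φ m j) e (e' j) m).mulVec u = 0
      rw [h4, h7, Matrix.mulVec_zero]
    · intro h6
      have h7 : (jacF (fun m => Φ m j) e (chartAt (Cm (d j)) (Φ m j)) m).mulVec u = 0 := by
        have h8 : (jacF (fun m => Φ m j) e (e' j) m).mulVec u = 0 := h6
        rw [h4] at h8
        have h9 := congrArg (jacM (e' j) (chartAt (Cm (d j)) (Φ m j)) (Φ m j)).mulVec h8
        rwa [Matrix.mulVec_mulVec, jacM_mul hcj (he' j), Matrix.one_mulVec, Matrix.mulVec_zero] at h9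
      show (mfderiv 𝓘(ℂ, Cm n) 𝓘(ℂ, Cm (d j)) (fun m => Φ m j) m : Cm n →L[ℂ] Cm (d j))
        ((jacM e (chartAt (Cm n) m) m).mulVec u) = 0
      rw [h2, h3, h7]
      rfl
  · exact (reChart_contMDiff (L i) (Y i)).comp ((hρ i γ).comp (reChart_contMDiff' (L i) (Y i)))

end

end Vale.Agent.P299.H956
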