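import Vale.Agent.P299.H956.D1.RicProd

/-! Pulling back parallel fields from the factors. -/

open scoped Manifold ContDiff ComplexOrder Topology Matrix
open Complex Vale.Agent.P272.K Vale.Agent.P299.D

set_option linter.all false

noncomputable section

namespace Vale.Agent.P299.H956

variable {n : ℕ} {M : Type} [TopologicalSpace M] [ChartedSpace (Cm n) M]
  [IsManifold 𝓘(ℂ, Cm n) ω M] {g : FormM n M} {P : Fin 3 → FormM n M}

namespace Prd

variable (D : Prd n M P) (hP : PDec g P) (hg : IsKahler g) (y0 : (i : Fin 3) → D.Y i)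
  {e : Chart n M} {m : M} {e' : (i : Fin 3) → Chart (D.d i) (D.Y i)}

lemma near_charts (h : At e m) (h' : ∀ i, At (e' i) (D.Φ m i)) :
    ∀ᶠ z in 𝓝 (e m), z ∈ e.target ∧ At e (e.symm z) ∧ ∀ i, At (e' i) (D.Φ (e.symm z) i) := by
  have h1 : ∀ i, ∀ᶠ z in 𝓝 (e m), z ∈ e.target ∧ At e (e.symm z) ∧
      At (e' i) (D.Φ (e.symm z) i) := fun i =>
    nhds_at_map (f := fun m => D.Φ m i) ((D.Φ_hol i).continuous.continuousAt) h (h' i)
  filter_upwards [Filter.eventually_all.2 h1] with z hz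
  exact ⟨(hz 0).1, (hz 0).2.1, fun i => (hz i).2.2⟩

lemma K_analytic (i : Fin 3) {ei : Chart (D.d i) (D.Y i)} (h : At e m) (h' : At ei (D.Φ m i))
    (a : Fin (D.d i)) (p : Fin n) :
    AnalyticAt ℂ (fun z => jmR (fun z => ei (D.Φ (e.symm z) i)) z a p) (e m) :=
  (jmR_holo (rep_hol ((D.Φ_hol i).contMDiffAt (x := m)) h h') a p).analyticAt

include hP in
lemma L_analytic [Nonempty M] (h : At e m) (h' : ∀ i, At (e' i) (D.Φ m i)) (i : Fin 3) (p : Fin n)
    (a : Fin (D.d i)) : AnalyticAt ℂ (fun z => D.L i e (e' i) (e.symm z) p a) (e m) := by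
  classical
  set φ : ∀ i, Cm n → Cm (D.d i) := fun i z => e' i (D.Φ (e.symm z) i) with hφ
  let S := Σ i, Fin (D.d i)
  have hcard : Fintype.card S = n := by
    simp only [S, Fintype.card_sigma, Fintype.card_fin]
    exact D.dsum hP
  let ε : S ≃ Fin n := Fintype.equivFinOfCardEq hcard
  let Kb : Cm n → Matrix S (Fin n) ℂ := fun z => Matrix.of fun s p => jmR (φ s.1) z s.2 p
  let Lb : Cm n → Matrix (Fin n) S ℂ := fun z =>
    Matrix.of fun p s => D.L s.1 e (e' s.1) (e.symm z) p s.2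
  let Kq : Cm n → Matrix (Fin n) (Fin n) ℂ := fun z => (Kb z).submatrix ε.symm id
  let Lq : Cm n → Matrix (Fin n) (Fin n) ℂ := fun z => (Lb z).submatrix id ε.symm
  have hLK : ∀ᶠ z in 𝓝 (e m), Lq z * Kq z = 1 := by
    filter_upwards [D.near_charts h h'] with z hz
    have h1 := D.sum_LK hP hz.2.1 hz.2.2
    have h2 : Lq z * Kq z = Lb z * Kb z := by
      show (Lb z).submatrix id ε.symm * (Kb z).submatrix ε.symm id = _
      rw [Matrix.submatrix_mul_equiv]
      rfl
    rw [← h1, h2]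
    ext p q
    rw [Matrix.sum_apply, Matrix.mul_apply, Fintype.sum_sigma]
    refine Finset.sum_congr rfl fun j _ => ?_
    rw [Matrix.mul_apply]
    refine Finset.sum_congr rfl fun b _ => ?_
    have h2 : D.K j e (e' j) (e.symm z) = jmR (φ j) z := jacF_target h.1 hz.1
    rw [h2]
    rfl
  have h0 : (Kq (e m)).det ≠ 0 := by
    have h1 := hLK.self_of_nhds
    have h2 := congrArg Matrix.det h1
    rw [Matrix.det_mul, Matrix.det_one] at h2
    exact right_ne_zero_of_mul (h2.trans_ne one_ne_zero)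
  have hKan : ∀ s p, AnalyticAt ℂ (fun z => Kq z s p) (e m) := fun s p =>
    D.K_analytic _ h (h' _) _ _
  have hinv := analytic_inv hKan h0 p (ε ⟨i, a⟩)
  refine hinv.congr ?_
  filter_upwards [hLK] with z hz
  have h1 : (Kq z)⁻¹ = Lq z := Matrix.inv_eq_left_inv hz
  rw [h1]
  exact congrArg (fun s => Lb z p s) (ε.symm_apply_apply (⟨i, a⟩ : S))

/-- lift of a vector field of the factor -/
def liftV (i : Fin 3) (v : VField (D.d i) (D.Y i)) : VField n M := fun e z =>
  (D.L i e (chartAt (Cm (D.d i)) (D.Φ (e.symm z) i)) (e.symm z)).mulVec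
    (v (chartAt (Cm (D.d i)) (D.Φ (e.symm z) i))
      (chartAt (Cm (D.d i)) (D.Φ (e.symm z) i) (D.Φ (e.symm z) i)))

lemma L_left (i : Fin 3) {e₁ e₂ : Chart (D.d i) (D.Y i)} (h : At e m) (h₁ : At e₁ (D.Φ m i))
    (h₂ : At e₂ (D.Φ m i)) : D.L i e e₁ m = D.L i e e₂ m * jacM e₁ e₂ (D.Φ m i) := by
  have hA : At e (D.sl i (D.Φ m) (D.Φ m i)) := by rw [sl_Φ]; exact h
  exact jacF_left ((D.sl_hol i (D.Φ m)).contMDiffAt (x := D.Φ m i)) h₁ h₂ hA

lemma L_right (i : Fin 3) {e₁ e₂ : Chart n M} {ei : Chart (D.d i) (D.Y i)} (h₁ : At e₁ m)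
    (h₂ : At e₂ m) (h : At ei (D.Φ m i)) : D.L i e₂ ei m = jacM e₁ e₂ m * D.L i e₁ ei m := by
  have hA : At e₁ (D.sl i (D.Φ m) (D.Φ m i)) := by rw [sl_Φ]; exact h₁
  have hB : At e₂ (D.sl i (D.Φ m) (D.Φ m i)) := by rw [sl_Φ]; exact h₂
  have := jacF_right ((D.sl_hol i (D.Φ m)).contMDiffAt (x := D.Φ m i)) h hA hB
  rwa [sl_Φ] at this

lemma liftV_eq (i : Fin 3) {v : VField (D.d i) (D.Y i)} (hv : IsHolVF v)
    {ei : Chart (D.d i) (D.Y i)} (h : At e m) (h' : At ei (D.Φ m i)) :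
    D.liftV i v e (e m) = (D.L i e ei m).mulVec (v ei (ei (D.Φ m i))) := by
  unfold liftV
  rw [h.left_inv]
  have hc : At (chartAt (Cm (D.d i)) (D.Φ m i)) (D.Φ m i) := at_chartAt _
  rw [D.L_left i h h' hc, hv.change ei _ _ h' hc, Matrix.mulVec_mulVec]

lemma extend_charts (i : Fin 3) {ei : Chart (D.d i) (D.Y i)} (h' : At ei (D.Φ m i)) :
    ∃ e' : (j : Fin 3) → Chart (D.d j) (D.Y j), e' i = ei ∧ ∀ j, At (e' j) (D.Φ m j) := by
  classical
  refine ⟨Function.update (fun j => chartAt (Cm (D.d j)) (D.Φ m j)) i ei,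
    Function.update_self .., fun j => ?_⟩
  by_cases hj : j = i
  · subst hj; rw [Function.update_self]; exact h'
  · rw [Function.update_of_ne hj]; exact at_chartAt _

include hP in
lemma liftV_hol [Nonempty M] (i : Fin 3) {v : VField (D.d i) (D.Y i)} (hv : IsHolVF v) :
    IsHolVF (D.liftV i v) where
  holo e m h := by
    have h' : ∀ j, At (chartAt (Cm (D.d j)) (D.Φ m j)) (D.Φ m j) := fun j => at_chartAt _
    set e' : (j : Fin 3) → Chart (D.d j) (D.Y j) := fun j => chartAt (Cm (D.d j)) (D.Φ m j)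
    have h1 : AnalyticAt ℂ (fun z => (D.L i e (e' i) (e.symm z)).mulVec
        (v (e' i) (e' i (D.Φ (e.symm z) i)))) (e m) := by
      refine analytic_mulVec (D.L_analytic hP h h' i) ?_
      refine AnalyticAt.comp' (g := fun z => v (e' i) z) ?_
        (rep_hol ((D.Φ_hol i).contMDiffAt (x := m)) h (h' i)).analyticAt
      rw [h.left_inv]
      exact hv.holo (e' i) _ (h' i)
    refine h1.congr ?_
    filter_upwards [D.near_charts h h'] with z hz
    have := D.liftV_eq i hv hz.2.1 (hz.2.2 i)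
    rw [e.right_inv hz.1] at this
    exact this.symm
  change e₁ e₂ m h₁ h₂ := by
    have h' : At (chartAt (Cm (D.d i)) (D.Φ m i)) (D.Φ m i) := at_chartAt _
    rw [D.liftV_eq i hv h₁ h', D.liftV_eq i hv h₂ h', Matrix.mulVec_mulVec, D.L_right i h₁ h₂ h']

lemma star_mulVec {a b : ℕ} (A : Matrix (Fin a) (Fin b) ℂ) (u : Cm b) :
    star (A.mulVec u) = (A.map (starRingEnd ℂ)).mulVec (star u) := by
  funext i
  simp [Matrix.mulVec, dotProduct, mul_comm]

include hP hg in
/-- `g conj(L_i u) = K_iᵀ w_i conj u` -/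
lemma g_L [Nonempty M] (i : Fin 3) (h : At e m) (h' : ∀ i, At (e' i) (D.Φ m i)) :
    g e (e m) * (D.L i e (e' i) m).map (starRingEnd ℂ) =
      (D.K i e (e' i) m).transpose * D.wY g y0 i (e' i) (e' i (D.Φ m i)) := by
  rw [D.metric_eq' hP hg y0 h h', Matrix.sum_mul, Finset.sum_eq_single i]
  · have h3 : (D.K i e (e' i) m).map (starRingEnd ℂ) * (D.L i e (e' i) m).map (starRingEnd ℂ) = 1 := by
      rw [← mcj_rect_mul, D.KL_self i h (h' i)]; simp
    rw [Matrix.mul_assoc, h3, Matrix.mul_one]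
  · intro j _ hj
    have h3 : (D.K j e (e' j) m).map (starRingEnd ℂ) * (D.L i e (e' i) m).map (starRingEnd ℂ) = 0 := by
      rw [← mcj_rect_mul, D.KL_ne hj h (h' i) (h' j)]; simp
    rw [Matrix.mul_assoc, h3, Matrix.mul_zero]
  · simp

include hP hg in
/-- `L_iᵀ g = w_i conj K_i` -/
lemma L_g [Nonempty M] (i : Fin 3) (h : At e m) (h' : ∀ i, At (e' i) (D.Φ m i)) :
    (D.L i e (e' i) m).transpose * g e (e m) =
      D.wY g y0 i (e' i) (e' i (D.Φ m i)) * (D.K i e (e' i) m).map (starRingEnd ℂ) := by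
  rw [D.metric_eq' hP hg y0 h h', Matrix.mul_sum, Finset.sum_eq_single i]
  · have h3 : (D.L i e (e' i) m).transpose * (D.K i e (e' i) m).transpose = 1 := by
      rw [← Matrix.transpose_mul, D.KL_self i h (h' i), Matrix.transpose_one]
    simp only [← Matrix.mul_assoc]
    rw [h3, Matrix.one_mul]
  · intro j _ hj
    have h3 : (D.L i e (e' i) m).transpose * (D.K j e (e' j) m).transpose = 0 := by
      rw [← Matrix.transpose_mul, D.KL_ne hj h (h' i) (h' j), Matrix.transpose_zero]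
    simp only [← Matrix.mul_assoc]
    rw [h3]
    simp
  · simp

include hP hg in
lemma lower_liftV [Nonempty M] (i : Fin 3) {v : VField (D.d i) (D.Y i)} (hv : IsHolVF v)
    (h : At e m) (h' : ∀ i, At (e' i) (D.Φ m i)) :
    lowerV g (D.liftV i v) e (e m) = (D.K i e (e' i) m).transpose.mulVec
      (lowerV (D.wY g y0 i) v (e' i) (e' i (D.Φ m i))) := by
  have h1 : lowerV g (D.liftV i v) e (e m) = (g e (e m)).mulVec (star (D.liftV i v e (e m))) := rfl
  have h2 : lowerV (D.wY g y0 i) v (e' i) (e' i (D.Φ m i)) =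
      (D.wY g y0 i (e' i) (e' i (D.Φ m i))).mulVec (star (v (e' i) (e' i (D.Φ m i)))) := rfl
  rw [h1, h2, D.liftV_eq i hv h (h' i), star_mulVec, Matrix.mulVec_mulVec, Matrix.mulVec_mulVec,
    D.g_L hP hg y0 i h h']

include hP hg in
lemma liftV_par [Nonempty M] (i : Fin 3) {v : VField (D.d i) (D.Y i)}
    (hv : IsParVF (D.wY g y0 i) v) : IsParVF g (D.liftV i v) where
  toIsHolVF := D.liftV_hol hP i hv.toIsHolVF
  holo' e m h := by
    have h' : ∀ j, At (chartAt (Cm (D.d j)) (D.Φ m j)) (D.Φ m j) := fun j => at_chartAt _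
    set e' : (j : Fin 3) → Chart (D.d j) (D.Y j) := fun j => chartAt (Cm (D.d j)) (D.Φ m j)
    have h1 : AnalyticAt ℂ (fun z => ((jmR (fun z => e' i (D.Φ (e.symm z) i)) z).transpose).mulVec
        (lowerV (D.wY g y0 i) v (e' i) (e' i (D.Φ (e.symm z) i)))) (e m) := by
      refine analytic_mulVec (fun p a => D.K_analytic i h (h' i) a p) ?_
      refine AnalyticAt.comp' (g := fun z => lowerV (D.wY g y0 i) v (e' i) z) ?_
        (rep_hol ((D.Φ_hol i).contMDiffAt (x := m)) h (h' i)).analyticAt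
      rw [h.left_inv]
      exact hv.holo' (e' i) _ (h' i)
    refine h1.congr ?_
    filter_upwards [D.near_charts h h'] with z hz
    have := D.lower_liftV hP hg y0 i hv.toIsHolVF hz.2.1 hz.2.2
    rw [e.right_inv hz.1] at this
    rw [this, show D.K i e (e' i) (e.symm z) = _ from jacF_target h.1 hz.1]

include hP hg in
/-- **no parallel fields on the factors `Y i`, `i ≠ 0`** -/
theorem noPar [Nonempty M] (hfix : ∀ v, IsParVF g v → ∀ e x, At e x →
      (P 0 e (e x)).mulVec (v e (e x)) = v e (e x)) {i : Fin 3} (hi : i ≠ 0)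
    {v : VField (D.d i) (D.Y i)} (hv : IsParVF (D.wY g y0 i) v) (ei : Chart (D.d i) (D.Y i))
    (z : D.Y i) (hz : At ei z) : v ei (ei z) = 0 := by
  set m := D.sl i y0 z with hm
  have hmi : D.Φ m i = z := D.Φ_sl_self i y0 z
  have hat := at_chartAt (n := n) m
  have hz' : At ei (D.Φ m i) := by rw [hmi]; exact hz
  have h1 := hfix _ (D.liftV_par hP hg y0 i hv) _ m hat
  rw [D.liftV_eq i hv.toIsHolVF hat hz', Matrix.mulVec_mulVec, D.PL_ne hP (Ne.symm hi) hat hz',
    Matrix.zero_mulVec] at h1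
  have h2 := congrArg (D.K i (chartAt (Cm n) m) ei m).mulVec h1
  rw [Matrix.mulVec_mulVec, D.KL_self i hat hz', Matrix.one_mulVec, Matrix.mulVec_zero] at h2
  rw [← hmi]
  exact h2.symm

include hP in
lemma noParM (hfix : ∀ v, IsParVF g v → ∀ e x, At e x →
      (P 0 e (e x)).mulVec (v e (e x)) = v e (e x)) {v : VField n M} (hv : IsParVF g v)
    {i : Fin 3} (hi : i ≠ 0) (e : Chart n M) (m : M) (ei : Chart (D.d i) (D.Y i)) (h : At e m)
    (h' : At ei (D.Φ m i)) : (jacF (fun m => D.Φ m i) e ei m).mulVec (v e (e m)) = 0 := by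
  have h0 : At (chartAt (Cm (D.d 0)) (D.Φ m 0)) (D.Φ m 0) := at_chartAt _
  rw [← hfix v hv e m h, D.P_eq hP 0 h h0, Matrix.mulVec_mulVec, ← Matrix.mul_assoc,
    D.KL_ne hi h h0 h', Matrix.zero_mul, Matrix.zero_mulVec]

/-- lift of an endomorphism field of the factor -/
def liftE (i : Fin 3) (B : FormM (D.d i) (D.Y i)) : FormM n M := fun e z =>
  D.L i e (chartAt (Cm (D.d i)) (D.Φ (e.symm z) i)) (e.symm z) *
    B (chartAt (Cm (D.d i)) (D.Φ (e.symm z) i))
      (chartAt (Cm (D.d i)) (D.Φ (e.symm z) i) (D.Φ (e.symm z) i)) *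
    D.K i e (chartAt (Cm (D.d i)) (D.Φ (e.symm z) i)) (e.symm z)

lemma liftE_eq (i : Fin 3) {B : FormM (D.d i) (D.Y i)} (hB : IsHolEnd B)
    {ei : Chart (D.d i) (D.Y i)} (h : At e m) (h' : At ei (D.Φ m i)) :
    D.liftE i B e (e m) = D.L i e ei m * B ei (ei (D.Φ m i)) * D.K i e ei m := by
  unfold liftE
  rw [h.left_inv]
  have hc : At (chartAt (Cm (D.d i)) (D.Φ m i)) (D.Φ m i) := at_chartAt _
  have hK : D.K i e (chartAt (Cm (D.d i)) (D.Φ m i)) m =
      jacM ei (chartAt (Cm (D.d i)) (D.Φ m i)) (D.Φ m i) * D.K i e ei m :=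
    jacF_right ((D.Φ_hol i).contMDiffAt (x := m)) h h' hc
  rw [hK, D.L_left i h h' hc]
  have h1 := hB.change ei _ _ h' hc
  calc D.L i e (chartAt (Cm (D.d i)) (D.Φ m i)) m *
        B (chartAt (Cm (D.d i)) (D.Φ m i)) (chartAt (Cm (D.d i)) (D.Φ m i) (D.Φ m i)) *
        (jacM ei (chartAt (Cm (D.d i)) (D.Φ m i)) (D.Φ m i) * D.K i e ei m)
      = D.L i e (chartAt (Cm (D.d i)) (D.Φ m i)) m *
        (B (chartAt (Cm (D.d i)) (D.Φ m i)) (chartAt (Cm (D.d i)) (D.Φ m i) (D.Φ m i)) *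
        jacM ei (chartAt (Cm (D.d i)) (D.Φ m i)) (D.Φ m i)) * D.K i e ei m := by
        simp only [Matrix.mul_assoc]
    _ = _ := by rw [← h1]; simp only [Matrix.mul_assoc]

lemma analytic_mul_rect {a b c k : ℕ} {A : Cm k → Matrix (Fin a) (Fin b) ℂ}
    {B : Cm k → Matrix (Fin b) (Fin c) ℂ} {z : Cm k}
    (hA : ∀ i j, AnalyticAt ℂ (fun y => A y i j) z) (hB : ∀ i j, AnalyticAt ℂ (fun y => B y i j) z)
    (i : Fin a) (j : Fin c) : AnalyticAt ℂ (fun y => (A y * B y) i j) z := by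
  simp only [Matrix.mul_apply]
  exact Finset.analyticAt_fun_sum _ fun l _ => (hA i l).mul (hB l j)

include hP in
lemma liftE_hol [Nonempty M] (i : Fin 3) {B : FormM (D.d i) (D.Y i)} (hB : IsHolEnd B) :
    IsHolEnd (D.liftE i B) where
  holo e m h := by
    have h' : ∀ j, At (chartAt (Cm (D.d j)) (D.Φ m j)) (D.Φ m j) := fun j => at_chartAt _
    set e' : (j : Fin 3) → Chart (D.d j) (D.Y j) := fun j => chartAt (Cm (D.d j)) (D.Φ m j)
    have h1 : ∀ p q, AnalyticAt ℂ (fun z => (D.L i e (e' i) (e.symm z) *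
        B (e' i) (e' i (D.Φ (e.symm z) i)) * jmR (fun z => e' i (D.Φ (e.symm z) i)) z) p q) (e m) := by
      refine analytic_mul_rect (analytic_mul_rect (D.L_analytic hP h h' i) fun a b => ?_)
        fun a p => D.K_analytic i h (h' i) a p
      refine AnalyticAt.comp' (g := fun z => B (e' i) z a b) ?_
        (rep_hol ((D.Φ_hol i).contMDiffAt (x := m)) h (h' i)).analyticAt
      rw [h.left_inv]
      exact hB.holo (e' i) _ (h' i) a b
    intro p q
    refine (h1 p q).congr ?_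
    filter_upwards [D.near_charts h h'] with z hz
    have := D.liftE_eq i hB hz.2.1 (hz.2.2 i)
    rw [e.right_inv hz.1, show D.K i e (e' i) (e.symm z) = _ from jacF_target h.1 hz.1] at this
    rw [this]
  change e₁ e₂ m h₁ h₂ := by
    have h' : At (chartAt (Cm (D.d i)) (D.Φ m i)) (D.Φ m i) := at_chartAt _
    have hK : D.K i e₁ (chartAt (Cm (D.d i)) (D.Φ m i)) m =
        D.K i e₂ (chartAt (Cm (D.d i)) (D.Φ m i)) m * jacM e₁ e₂ m :=
      jacF_left ((D.Φ_hol i).contMDiffAt (x := m)) h₁ h₂ h'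
    rw [D.liftE_eq i hB h₁ h', D.liftE_eq i hB h₂ h', hK, D.L_right i h₁ h₂ h']
    simp only [Matrix.mul_assoc]

include hP hg in
lemma liftE_par [Nonempty M] (i : Fin 3) {B : FormM (D.d i) (D.Y i)} (hB : IsHolEnd B)
    (hs : IsSelfAdj (D.wY g y0 i) B) : ParEnd g (D.liftE i B) where
  hol := D.liftE_hol hP i hB
  sa e m h := by
    have h' : ∀ j, At (chartAt (Cm (D.d j)) (D.Φ m j)) (D.Φ m j) := fun j => at_chartAt _
    set e' : (j : Fin 3) → Chart (D.d j) (D.Y j) := fun j => chartAt (Cm (D.d j)) (D.Φ m j)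
    have e1 := D.L_g hP hg y0 i h h'
    have e2 := D.g_L hP hg y0 i h h'
    have e3 := hs (e' i) _ (h' i)
    rw [D.liftE_eq i hB h (h' i)]
    set L := D.L i e (e' i) m
    set K := D.K i e (e' i) m
    set b := B (e' i) (e' i (D.Φ m i))
    set G := g e (e m)
    set W := D.wY g y0 i (e' i) (e' i (D.Φ m i))
    have e4 : (L * b * K).map (starRingEnd ℂ) =
        L.map (starRingEnd ℂ) * b.map (starRingEnd ℂ) * K.map (starRingEnd ℂ) := by
      rw [mcj_rect_mul, mcj_rect_mul]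
    rw [e4, Matrix.transpose_mul, Matrix.transpose_mul]
    calc K.transpose * (b.transpose * L.transpose) * G = K.transpose * (b.transpose * (L.transpose * G)) := by
          simp only [Matrix.mul_assoc]
      _ = K.transpose * ((b.transpose * W) * K.map (starRingEnd ℂ)) := by
          rw [e1]; simp only [Matrix.mul_assoc]
      _ = (K.transpose * W) * (b.map (starRingEnd ℂ) * K.map (starRingEnd ℂ)) := by
          rw [e3]; simp only [Matrix.mul_assoc]
      _ = G * (L.map (starRingEnd ℂ) * b.map (starRingEnd ℂ) * K.map (starRingEnd ℂ)) := by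
          rw [← e2]; simp only [Matrix.mul_assoc]

include hP hg in
lemma liftE_ric [Nonempty M] (i : Fin 3) {B : FormM (D.d i) (D.Y i)} (hB : IsHolEnd B)
    (hr : RicKills (D.wY g y0 i) B) : RicKills g (D.liftE i B) := by
  intro e m h
  have h' : ∀ j, At (chartAt (Cm (D.d j)) (D.Φ m j)) (D.Φ m j) := fun j => at_chartAt _
  set e' : (j : Fin 3) → Chart (D.d j) (D.Y j) := fun j => chartAt (Cm (D.d j)) (D.Φ m j)
  have e1 : (D.L i e (e' i) m).transpose * ric g e (e m) =
      ric (D.wY g y0 i) (e' i) (e' i (D.Φ m i)) * (D.K i e (e' i) m).map (starRingEnd ℂ) := by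
    rw [D.ric_eq hP hg y0 h h', Matrix.mul_sum, Finset.sum_eq_single i]
    · have h3 : (D.L i e (e' i) m).transpose * (D.K i e (e' i) m).transpose = 1 := by
        rw [← Matrix.transpose_mul, D.KL_self i h (h' i), Matrix.transpose_one]
      simp only [← Matrix.mul_assoc]
      rw [h3, Matrix.one_mul]
    · intro j _ hj
      have h3 : (D.L i e (e' i) m).transpose * (D.K j e (e' j) m).transpose = 0 := by
        rw [← Matrix.transpose_mul, D.KL_ne hj h (h' i) (h' j), Matrix.transpose_zero]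
      simp only [← Matrix.mul_assoc]
      rw [h3]
      simp
    · simp
  have e3 := hr (e' i) _ (h' i)
  rw [D.liftE_eq i hB h (h' i), Matrix.transpose_mul, Matrix.transpose_mul, Matrix.mul_assoc,
    Matrix.mul_assoc, e1, ← Matrix.mul_assoc (B (e' i) (e' i (D.Φ m i))).transpose, e3,
    Matrix.zero_mul, Matrix.mul_zero]

include hP hg in
/-- **no endomorphism fields killed by `Ric` on `Y 2`** -/
theorem noEnd [Nonempty M] (hmax : ∀ B : FormM n M, ParEnd g B → RicKills g B → ∀ e x, At e x →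
        P 2 e (e x) * B e (e x) = 0) {B : FormM (D.d 2) (D.Y 2)} (hB : IsHolEnd B)
    (hs : IsSelfAdj (D.wY g y0 2) B) (hr : RicKills (D.wY g y0 2) B) (ei : Chart (D.d 2) (D.Y 2))
    (z : D.Y 2) (hz : At ei z) : B ei (ei z) = 0 := by
  set m := D.sl 2 y0 z with hm
  have hmi : D.Φ m 2 = z := D.Φ_sl_self 2 y0 z
  have hat := at_chartAt (n := n) m
  have hz' : At ei (D.Φ m 2) := by rw [hmi]; exact hz
  have h1 := hmax _ (D.liftE_par hP hg y0 2 hB hs) (D.liftE_ric hP hg y0 2 hB hr) _ m hat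
  rw [D.liftE_eq 2 hB hat hz', ← Matrix.mul_assoc, ← Matrix.mul_assoc, D.PL_self 2 hat hz'] at h1
  have h2 : D.K 2 (chartAt (Cm n) m) ei m * (D.L 2 (chartAt (Cm n) m) ei m * B ei (ei (D.Φ m 2)) *
      D.K 2 (chartAt (Cm n) m) ei m) * D.L 2 (chartAt (Cm n) m) ei m = 0 := by
    rw [h1, Matrix.mul_zero, Matrix.zero_mul]
  have h3 := D.KL_self 2 hat hz'
  rw [← hmi]
  calc B ei (ei (D.Φ m 2)) = (D.K 2 (chartAt (Cm n) m) ei m * D.L 2 (chartAt (Cm n) m) ei m) *
        B ei (ei (D.Φ m 2)) * (D.K 2 (chartAt (Cm n) m) ei m * D.L 2 (chartAt (Cm n) m) ei m) := by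
        rw [h3, Matrix.one_mul, Matrix.mul_one]
    _ = 0 := by rw [← h2]; simp only [Matrix.mul_assoc]

end Prd

end Vale.Agent.P299.H956
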