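import Vale.Agent.P299.H956.D1.Max
import Vale.Agent.P272.K.C2.ChernLu

/-! Parallel fields are killed by the Ricci form. -/

open scoped Manifold ContDiff ComplexOrder Topology Matrix
open Complex Vale.Agent.P272.K Vale.Agent.P299.D Vale.Agent.P272.K.C2

set_option linter.all false

noncomputable section

namespace Vale.Agent.P299.H956

variable {n : ℕ} {G : Cm n → Matrix (Fin n) (Fin n) ℂ} {V : Cm n → Matrix (Fin n) Unit ℂ}
  {z : Cm n} {k l : Fin n}

lemma analytic_dzb {f : Cm n → ℂ} (h : AnalyticAt ℂ f z) : ∀ᶠ y in 𝓝 z, ∀ l, dzb l f y = 0 := by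
  filter_upwards [h.eventually_analyticAt] with y hy l
  exact dzb_of_holo hy.differentiableAt

/-- the curvature kills a parallel field -/
theorem RM_kills (hG : MC 2 G z) (h0 : (G z).det ≠ 0)
    (hV : ∀ i, AnalyticAt ℂ (fun y => V y i ()) z)
    (hα : ∀ i, AnalyticAt ℂ (fun y => (G y * (V y).map (starRingEnd ℂ)) i ()) z) :
    RM k l G z * (V z).map (starRingEnd ℂ) = 0 := by
  set Vb : Cm n → Matrix (Fin n) Unit ℂ := fun y => (V y).map (starRingEnd ℂ) with hVb
  have hVs : ∀ i, ContDiffAt ℝ 2 (fun y => V y i ()) z := fun i =>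
    (((hV i).contDiffAt (n := 2)).restrict_scalars ℝ)
  have hVbs : MC 2 Vb z := fun i j => Complex.conjCLE.contDiff.contDiffAt.comp z (hVs i)
  have one : (1 : WithTop ℕ∞) ≠ 0 := by norm_num
  have hG1 : MC 1 G z := hG.mono (by norm_num)
  have hVb1 : MC 1 Vb z := hVbs.mono (by norm_num)
  -- `∂_k V̄ = 0` near `z`
  have hDVb : ∀ k, DM k Vb =ᶠ[𝓝 z] fun _ => 0 := by
    intro k
    have h1 : ∀ᶠ y in 𝓝 z, ∀ i, AnalyticAt ℂ (fun y => V y i ()) y :=
      Filter.eventually_all.2 fun i => (hV i).eventually_analyticAt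
    filter_upwards [h1] with y hy
    ext i j
    show dz k (fun y => cj (V y i j)) y = 0
    rw [dz_cj (((hy i).differentiableAt).restrictScalars ℝ), dzb_of_holo (hy i).differentiableAt]
    simp [cj]
  -- `∂_l̄ (G V̄) = 0` near `z`
  have h2 : (fun y => DMb l G y * Vb y + G y * DMb l Vb y) =ᶠ[𝓝 z] fun _ => 0 := by
    have h1 : ∀ᶠ y in 𝓝 z, ∀ i, ∀ l, dzb l (fun y => (G y * Vb y) i ()) y = 0 :=
      Filter.eventually_all.2 fun i => analytic_dzb (hα i)
    filter_upwards [h1, MC.eventually (q := 1) hG1, MC.eventually (q := 1) hVb1] with y h1 h3 h4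
    rw [← DMb_mul (h3.md one) (h4.md one)]
    ext i j
    exact h1 i l
  have h3 := h2.self_of_nhds
  have h4 : DM k (fun y => DMb l G y * Vb y + G y * DMb l Vb y) z = 0 := by
    rw [DM_congr h2, DM_const]
  have hGl : MC 1 (DMb l G) z := hG.DMb (by norm_num)
  have hVl : MC 1 (DMb l Vb) z := hVbs.DMb (by norm_num)
  have h5 : DM k (DMb l Vb) z = 0 := by
    rw [DM_DMb_comm hVbs, DMb_congr (hDVb k), DMb_const]
  rw [DM_add ((hGl.mul hVb1).md one) ((hG1.mul hVl).md one), DM_mul (hGl.md one) (hVb1.md one),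
    DM_mul (hG1.md one) (hVl.md one), (hDVb k).self_of_nhds, h5, Matrix.mul_zero, Matrix.mul_zero,
    add_zero, add_zero] at h4
  -- `∂_l̄ V̄ = - G⁻¹ ∂_l̄ G V̄`
  have hu : IsUnit (G z).det := isUnit_iff_ne_zero.2 h0
  have h6 : DMb l Vb z = -((G z)⁻¹ * (DMb l G z * Vb z)) := by
    have h7 : G z * DMb l Vb z = -(DMb l G z * Vb z) := by
      rw [eq_neg_iff_add_eq_zero, add_comm]; exact h3
    calc DMb l Vb z = (G z)⁻¹ * (G z * DMb l Vb z) := by
          rw [← Matrix.mul_assoc, Matrix.nonsing_inv_mul _ hu, Matrix.one_mul]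
      _ = _ := by rw [h7, Matrix.mul_neg]
  rw [h6, Matrix.mul_neg] at h4
  show RM k l G z * Vb z = 0
  unfold RM D2
  rw [Matrix.add_mul, Matrix.neg_mul, Matrix.mul_assoc, Matrix.mul_assoc]
  have h8 : DM k (DMb l G) z * Vb z = DM k G z * ((G z)⁻¹ * (DMb l G z * Vb z)) := by
    rw [add_neg_eq_zero] at h4; exact h4
  rw [h8, neg_add_cancel]

section
variable {X : Type*} [TopologicalSpace X] [ChartedSpace (Cm n) X] {w : FormM n X} {v : VField n X}
  {e : Chart n X} {x : X}

/-- **`Ric(·, v̄) = 0` for a parallel field** -/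
theorem ric_mulVec_par (hw : IsKahler w) (hv : IsParVF w v) (hx : At e x) :
    (ric w e (e x)).mulVec (star (v e (e x))) = 0 := by
  have hG : MC 2 (w e) (e x) := fun i j => (hw.smooth e x hx i j).of_le (by norm_cast)
  have hpos : ∀ᶠ y in 𝓝 (e x), (w e y).PosDef := by
    filter_upwards [hx.nhds_target] with y hy
    exact hw.toIsHermitian.posDef_target hx.1 hy
  have hK : ∀ᶠ y in 𝓝 (e x), ∀ i j k, dz k (fun y => w e y i j) y = dz i (fun y => w e y k j) y := by
    filter_upwards [hx.nhds_target] with y hy i j k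
    have := hw.closed e (e.symm y) (At.of_target hx.1 hy) i j k
    rwa [e.right_inv hy] at this
  have h1 := ricci_identity hG hpos hK
  have hV : ∀ i, AnalyticAt ℂ (fun y => (Matrix.of fun (i : Fin n) (_ : Unit) => v e y i) i ()) (e x) :=
    fun i => (analyticAt_pi_iff.1 (hv.holo e x hx)) i
  have hα : ∀ i, AnalyticAt ℂ (fun y => (w e y *
      (Matrix.of fun (i : Fin n) (_ : Unit) => v e y i).map (starRingEnd ℂ)) i ()) (e x) := by
    intro i
    have := (analyticAt_pi_iff.1 (hv.holo' e x hx)) i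
    refine this.congr (Filter.Eventually.of_forall fun y => ?_)
    simp [lowerV, Matrix.mul_apply]
  have h2 : ∀ k l, RM k l (w e) (e x) *
      (Matrix.of fun (i : Fin n) (_ : Unit) => v e (e x) i).map (starRingEnd ℂ) = 0 := fun k l =>
    RM_kills (V := fun y => Matrix.of fun (i : Fin n) (_ : Unit) => v e y i) hG
      (posDef_det_ne_zero (hw.posDef e x hx)) hV hα
  have h3 : ric w e (e x) * (Matrix.of fun (i : Fin n) (_ : Unit) => v e (e x) i).map
      (starRingEnd ℂ) = 0 := by
    have h4 : ric w e (e x) = -cHess (fun y => Real.log (w e y).det.re) (e x) := rfl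
    rw [h4, ← h1]
    simp only [Matrix.sum_mul, Matrix.smul_mul, h2, smul_zero, Finset.sum_const_zero]
  funext i
  have := congrFun (congrFun h3 i) ()
  simpa [Matrix.mul_apply, Matrix.mulVec, dotProduct] using this

lemma ric_isHermitian (hw : IsHermitian w) (hx : At e x) : (ric w e (e x)).IsHermitian := by
  have hs : ContDiffAt ℝ 2 (fun z => Real.log (w e z).det.re) (e x) := by
    refine ContDiffAt.log ?_ (Complex.pos_iff.1 (hw.posDef e x hx).det_pos).1.ne'
    exact Complex.reCLM.contDiff.contDiffAt.comp _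
      (contDiffAt_det fun i j => (hw.smooth e x hx i j).of_le (by norm_cast))
  have := (P272.K.cHess_isHermitian hs)
  unfold ric
  exact this.neg

/-- `Ric(v, ·) = 0` -/
theorem vecMul_ric_par (hw : IsKahler w) (hv : IsParVF w v) (hx : At e x) :
    Matrix.vecMul (v e (e x)) (ric w e (e x)) = 0 := by
  have h1 := congrArg star (ric_mulVec_par hw hv hx)
  rw [Matrix.star_mulVec, star_star, (ric_isHermitian hw.toIsHermitian hx).eq, star_zero] at h1
  exact h1

end

end Vale.Agent.P299.H956
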