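import Vale.Agent.P299.H956.D1.Indep

/-! The Ricci form of a product metric. -/

open scoped Manifold ContDiff ComplexOrder Topology Matrix
open Complex Vale.Agent.P272.K Vale.Agent.P299.D

set_option linter.all false

noncomputable section

namespace Vale.Agent.P299.H956

lemma det_bd {d : Fin 3 → ℕ} (w : ∀ i, Matrix (Fin (d i)) (Fin (d i)) ℂ) :
    (Matrix.blockDiagonal' w).det = ∏ i, (w i).det := by
  rw [(Matrix.blockTriangular_blockDiagonal' w).det_fintype]
  refine Finset.prod_congr rfl fun k _ => ?_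
  let e : Fin (d k) ≃ {a : Σ i, Fin (d i) // a.1 = k} :=
    { toFun := fun a => ⟨⟨k, a⟩, rfl⟩
      invFun := fun a => a.2 ▸ a.1.2
      left_inv := fun a => rfl
      right_inv := by
        rintro ⟨⟨k', a⟩, rfl⟩
        rfl }
  rw [← Matrix.det_submatrix_equiv_self e]
  congr 1
  ext a b
  simp [Matrix.toSquareBlock, Matrix.toSquareBlockProp, e]

variable {n : ℕ} {M : Type} [TopologicalSpace M] [ChartedSpace (Cm n) M]
  [IsManifold 𝓘(ℂ, Cm n) ω M] {g : FormM n M} {P : Fin 3 → FormM n M}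

namespace Prd

variable (D : Prd n M P)

/-- the metric on the factor -/
def wY (g : FormM n M) (y0 : (i : Fin 3) → D.Y i) (i : Fin 3) : FormM (D.d i) (D.Y i) :=
  pullM (D.sl i y0) g

variable (hP : PDec g P) (hg : IsKahler g) (y0 : (i : Fin 3) → D.Y i)

include hg in
lemma kahY (i : Fin 3) : IsKahler (D.wY g y0 i) :=
  isKahler_pullM hg (D.sl_hol i y0) (D.sl_immersive i y0)

variable {e : Chart n M} {m : M} {e' : (i : Fin 3) → Chart (D.d i) (D.Y i)}

include hP hg in
lemma metric_eq' (h : At e m) (h' : ∀ i, At (e' i) (D.Φ m i)) :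
    g e (e m) = ∑ i, (D.K i e (e' i) m).transpose *
      D.wY g y0 i (e' i) (e' i (D.Φ m i)) *
      (D.K i e (e' i) m).map (starRingEnd ℂ) := by
  rw [D.metric_eq hP hg.isForm h h']
  refine Finset.sum_congr rfl fun i _ => ?_
  rw [D.slice_indep hP hg i (D.Φ m) y0 (h' i)]
  rfl

include hP hg in
/-- the metric of `M` is the product metric -/
lemma prod_eq (h : At e m) :
    g e (e m) = ∑ i, pullM (fun m => D.Φ m i) (D.wY g y0 i) e (e m) := by
  have h' : ∀ i, At (chartAt (Cm (D.d i)) (D.Φ m i)) (D.Φ m i) := fun i => at_chartAt _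
  rw [D.metric_eq' hP hg y0 h h']
  refine Finset.sum_congr rfl fun i _ => ?_
  rw [pullM_eq (D.kahY hg y0 i).isForm ((D.Φ_hol i).contMDiffAt (x := m)) h (h' i)]

include hP hg in
/-- the factors are invariant -/
lemma iso_fac {γ : M → M} (hγ : ContMDiff 𝓘(ℂ, Cm n) 𝓘(ℂ, Cm n) ω γ)
    (hiso : ∀ (e : Chart n M) m, At e m → pullM γ g e (e m) = g e (e m))
    {ρ : ∀ i, Equiv.Perm (D.Y i)} (hρ : ∀ i, ContMDiff 𝓘(ℂ, Cm (D.d i)) 𝓘(ℂ, Cm (D.d i)) ω (ρ i))
    (heq : ∀ m i, D.Φ (γ m) i = ρ i (D.Φ m i)) (i : Fin 3) {ei : Chart (D.d i) (D.Y i)} {z : D.Y i}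
    (hz : At ei z) : pullM (ρ i) (D.wY g y0 i) ei (ei z) = D.wY g y0 i ei (ei z) := by
  have h1 : pullM (ρ i) (D.wY g y0 i) ei (ei z) =
      pullM (fun z => D.sl i y0 (ρ i z)) g ei (ei z) :=
    pullM_comp hg.isForm (hρ i) (D.sl_hol i y0) hz
  set y1 : (j : Fin 3) → D.Y j := fun j => (ρ j).symm (y0 j) with hy1
  have h2 : (fun z => D.sl i y0 (ρ i z)) = fun z => γ (D.sl i y1 z) := by
    funext z
    apply D.Φ.injective
    funext j
    rw [heq, Φ_sl, Φ_sl]
    by_cases hj : j = i
    · subst hj; simp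
    · rw [Function.update_of_ne hj, Function.update_of_ne hj, hy1, Equiv.apply_symm_apply]
  have h3 : pullM (D.sl i y1) (pullM γ g) ei (ei z) = pullM (fun z => γ (D.sl i y1 z)) g ei (ei z) :=
    pullM_comp hg.isForm (D.sl_hol i y1) hγ hz
  rw [h1, h2, ← h3, pullM_congr hiso hz, D.slice_indep hP hg i y1 y0 hz]
  rfl

include hP hg in
/-- **the Ricci form of the product** -/
theorem ric_eq [Nonempty M] (h : At e m) (h' : ∀ i, At (e' i) (D.Φ m i)) :
    ric g e (e m) = ∑ i, (D.K i e (e' i) m).transpose *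
      ric (D.wY g y0 i) (e' i) (e' i (D.Φ m i)) * (D.K i e (e' i) m).map (starRingEnd ℂ) := by
  classical
  set φ : ∀ i, Cm n → Cm (D.d i) := fun i z => e' i (D.Φ (e.symm z) i) with hφ
  have hφ_hol : ∀ i, ContDiffAt ℂ ω (φ i) (e m) := fun i =>
    rep_hol ((D.Φ_hol i).contMDiffAt (x := m)) h (h' i)
  have hφ0 : ∀ i, φ i (e m) = e' i (D.Φ m i) := fun i => by rw [hφ]; simp only; rw [h.left_inv]
  have hnear : ∀ᶠ z in 𝓝 (e m), z ∈ e.target ∧ At e (e.symm z) ∧
      ∀ i, At (e' i) (D.Φ (e.symm z) i) := by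
    have h1 : ∀ i, ∀ᶠ z in 𝓝 (e m), z ∈ e.target ∧ At e (e.symm z) ∧
        At (e' i) (D.Φ (e.symm z) i) := fun i =>
      nhds_at_map (f := fun m => D.Φ m i) ((D.Φ_hol i).continuous.continuousAt) h (h' i)
    filter_upwards [Filter.eventually_all.2 h1] with z hz
    exact ⟨(hz 0).1, (hz 0).2.1, fun i => (hz i).2.2⟩
  -- the big matrices
  let S := Σ i, Fin (D.d i)
  have hcard : Fintype.card S = n := by
    simp only [S, Fintype.card_sigma, Fintype.card_fin]
    exact D.dsum hP
  let ε : S ≃ Fin n := Fintype.equivFinOfCardEq hcard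
  let Kb : Cm n → Matrix S (Fin n) ℂ := fun z => Matrix.of fun s p => jmR (φ s.1) z s.2 p
  let Kq : Cm n → Matrix (Fin n) (Fin n) ℂ := fun z => (Kb z).submatrix ε.symm id
  let wi : ∀ i, Cm n → Matrix (Fin (D.d i)) (Fin (D.d i)) ℂ := fun i z =>
    D.wY g y0 i (e' i) (φ i z)
  let Wb : Cm n → Matrix S S ℂ := fun z => Matrix.blockDiagonal' fun i => wi i z
  let Wq : Cm n → Matrix (Fin n) (Fin n) ℂ := fun z => (Wb z).submatrix ε.symm ε.symm
  have hdetK : ContDiffAt ℂ ω (fun z => (Kq z).det) (e m) := by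
    have h1 : AnalyticAt ℂ (fun z => (Kq z).det) (e m) :=
      analytic_det fun i j => (jmR_holo (hφ_hol _) _ _).analyticAt
    exact h1.contDiffAt
  have hK0 : (Kq (e m)).det ≠ 0 := by
    refine det_inj fun u hu => D.jac_inj hP h h' u fun i => ?_
    funext a
    have h2 := congrFun hu (ε ⟨i, a⟩)
    simp only [Kq, Kb, Matrix.mulVec, dotProduct, Matrix.submatrix_apply, Equiv.symm_apply_apply,
      Matrix.of_apply, id_eq, Pi.zero_apply] at h2
    exact h2
  have hgK : ∀ᶠ z in 𝓝 (e m), g e z = (Kq z).transpose * Wq z * (Kq z).map (starRingEnd ℂ) ∧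
      ∀ i, (wi i z).PosDef := by
    filter_upwards [hnear] with z hz
    have h1 := D.metric_eq' hP hg y0 hz.2.1 hz.2.2
    rw [e.right_inv hz.1] at h1
    constructor
    · have h2 : ∀ i, D.K i e (e' i) (e.symm z) = jmR (φ i) z := fun i => jacF_target h.1 hz.1
      have h3 : (Kq z).transpose * Wq z * (Kq z).map (starRingEnd ℂ) =
          (Kb z).transpose * Wb z * (Kb z).map (starRingEnd ℂ) := by
        have e1 : (Kq z).transpose = (Kb z).transpose.submatrix id ε.symm := rfl
        have e2 : (Kq z).map (starRingEnd ℂ) = ((Kb z).map (starRingEnd ℂ)).submatrix ε.symm id := rfl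
        have e3 : Wq z = (Wb z).submatrix ε.symm ε.symm := rfl
        rw [e1, e2, e3, Matrix.submatrix_mul_equiv, Matrix.submatrix_mul_equiv]
        rfl
      rw [h1, h3]
      ext p q
      rw [Matrix.sum_apply]
      simp only [Matrix.mul_apply, Matrix.transpose_apply, Matrix.map_apply]
      rw [Fintype.sum_sigma]
      refine Finset.sum_congr rfl fun i _ => ?_
      refine Finset.sum_congr rfl fun b _ => ?_
      have h4 : ∑ s : S, Kb z s p * Wb z s ⟨i, b⟩ = ∑ a, jmR (φ i) z a p * wi i z a b := by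
        rw [Fintype.sum_sigma, Finset.sum_eq_single i]
        · refine Finset.sum_congr rfl fun a _ => ?_
          simp only [Wb, Kb, Matrix.blockDiagonal'_apply_eq, Matrix.of_apply]
        · intro j _ hj
          refine Finset.sum_eq_zero fun a _ => ?_
          simp only [Wb]
          rw [Matrix.blockDiagonal'_apply_ne _ _ _ hj, mul_zero]
        · simp
      rw [h4, h2 i]
      rfl
    · intro i
      exact (D.kahY hg y0 i).posDef _ _ (hz.2.2 i)
  have hlog : (fun z => Real.log (g e z).det.re) =ᶠ[𝓝 (e m)] fun z =>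
      (Real.log (wi 0 z).det.re + Real.log (wi 1 z).det.re + Real.log (wi 2 z).det.re) +
        Real.log (‖(Kq z).det‖ ^ 2) := by
    filter_upwards [hgK, hdetK.continuousAt.eventually_ne hK0] with z hz hz0
    rw [hz.1, Matrix.det_mul, Matrix.det_mul, Matrix.det_transpose]
    have h1 : ((Kq z).map (starRingEnd ℂ)).det = (starRingEnd ℂ) (Kq z).det := by
      have := (RingHom.map_det (starRingEnd ℂ) (Kq z))
      rw [this]; rfl
    have h2 : (Wq z).det = ∏ i, (wi i z).det := by
      have : (Wq z).det = (Wb z).det := Matrix.det_submatrix_equiv_self ε.symm (Wb z)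
      rw [this]
      exact det_bd _
    have hpos : ∀ i, 0 < (wi i z).det.re ∧ (wi i z).det.im = 0 := fun i => by
      have := Complex.pos_iff.1 (hz.2 i).det_pos
      exact ⟨this.1, this.2.symm⟩
    have h3 : ∀ i, (wi i z).det = (((wi i z).det.re : ℝ) : ℂ) := fun i => by
      apply Complex.ext
      · simp
      · simp [(hpos i).2]
    rw [h1, h2, Fin.prod_univ_three]
    set a := (Kq z).det
    have h4 : (a * ((wi 0 z).det * (wi 1 z).det * (wi 2 z).det) * (starRingEnd ℂ) a).re =
        (wi 0 z).det.re * (wi 1 z).det.re * (wi 2 z).det.re * ‖a‖ ^ 2 := by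
      rw [h3 0, h3 1, h3 2, mul_right_comm, Complex.mul_conj, Complex.normSq_eq_norm_sq]
      simp only [← Complex.ofReal_mul, Complex.ofReal_re]
      ring
    rw [h4]
    have p0 := (hpos 0).1
    have p1 := (hpos 1).1
    have p2 := (hpos 2).1
    rw [Real.log_mul (by positivity) (by positivity), Real.log_mul (by positivity) (by positivity),
      Real.log_mul (by positivity) (by positivity)]
  have hsY : ∀ i, ContDiffAt ℝ 2 (fun z => Real.log (D.wY g y0 i (e' i) z).det.re)
      (φ i (e m)) := by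
    intro i
    rw [hφ0]
    refine ContDiffAt.log ?_ (Complex.pos_iff.1
      ((D.kahY hg y0 i).posDef (e' i) _ (h' i)).det_pos).1.ne'
    exact Complex.reCLM.contDiff.contDiffAt.comp _
      (contDiffAt_det fun a b => ((D.kahY hg y0 i).smooth (e' i) _ (h' i) a b).of_le (by norm_cast))
  have hs1 : ∀ i, ContDiffAt ℝ 2 (fun z => Real.log (wi i z).det.re) (e m) := fun i =>
    ContDiffAt.comp (e m) (g := fun z => Real.log (D.wY g y0 i (e' i) z).det.re)
      (f := φ i) (hsY i) (((hφ_hol i).restrict_scalars ℝ).of_le (by exact le_top))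
  have hs2 : ContDiffAt ℝ 2 (fun z => Real.log (‖(Kq z).det‖ ^ 2)) (e m) := by
    have hd : ContDiffAt ℝ 2 (fun y => (Kq y).det) (e m) :=
      (hdetK.restrict_scalars ℝ).of_le (by exact le_top)
    exact (hd.norm_sq ℝ).log (pow_ne_zero 2 (norm_ne_zero_iff.2 hK0))
  have hcH : ∀ i, cHess (fun z => Real.log (wi i z).det.re) (e m) =
      -((D.K i e (e' i) m).transpose * ric (D.wY g y0 i) (e' i) (e' i (D.Φ m i)) *
        (D.K i e (e' i) m).map (starRingEnd ℂ)) := by
    intro i
    have h1 := cHess_compR (τ := φ i)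
      (f := fun z => Real.log (D.wY g y0 i (e' i) z).det.re) (hsY i) (hφ_hol i)
    rw [hφ0] at h1
    unfold ric
    rw [Matrix.mul_neg, Matrix.neg_mul, neg_neg]
    exact h1
  show -cHess (fun y => Real.log (g e y).det.re) (e m) = _
  rw [cHess_congr hlog, cHess_add (((hs1 0).add (hs1 1)).add (hs1 2)) hs2,
    cHess_log_norm_sq hdetK hK0, add_zero, cHess_add ((hs1 0).add (hs1 1)) (hs1 2),
    cHess_add (hs1 0) (hs1 1), hcH, hcH, hcH, Fin.sum_univ_three]
  abel

include hP hg in
lemma ric_fac [Nonempty M] (i : Fin 3) (h : At e m) (h' : ∀ i, At (e' i) (D.Φ m i)) :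
    ric (D.wY g y0 i) (e' i) (e' i (D.Φ m i)) =
      (D.L i e (e' i) m).transpose * ric g e (e m) * (D.L i e (e' i) m).map (starRingEnd ℂ) := by
  rw [D.ric_eq hP hg y0 h h', Matrix.mul_sum, Matrix.sum_mul, Finset.sum_eq_single i]
  · have h1 := D.KL_self i h (h' i)
    have h2 : (D.L i e (e' i) m).transpose * (D.K i e (e' i) m).transpose = 1 := by
      rw [← Matrix.transpose_mul, h1, Matrix.transpose_one]
    have h3 : (D.K i e (e' i) m).map (starRingEnd ℂ) * (D.L i e (e' i) m).map (starRingEnd ℂ) = 1 := by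
      rw [← mcj_rect_mul, h1]; simp
    calc ric (D.wY g y0 i) (e' i) (e' i (D.Φ m i))
        = ((D.L i e (e' i) m).transpose * (D.K i e (e' i) m).transpose) *
          ric (D.wY g y0 i) (e' i) (e' i (D.Φ m i)) *
          ((D.K i e (e' i) m).map (starRingEnd ℂ) * (D.L i e (e' i) m).map (starRingEnd ℂ)) := by
          rw [h2, h3, Matrix.one_mul, Matrix.mul_one]
      _ = _ := by simp only [Matrix.mul_assoc]
  · intro j _ hj
    have h2 : (D.L i e (e' i) m).transpose * (D.K j e (e' j) m).transpose = 0 := by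
      rw [← Matrix.transpose_mul, D.KL_ne hj h (h' i) (h' j), Matrix.transpose_zero]
    simp only [← Matrix.mul_assoc]
    rw [h2]
    simp
  · simp

include hP hg in
lemma ricY [Nonempty M] (hr : RicNonneg g) (i : Fin 3) : RicNonneg (D.wY g y0 i) := by
  intro ei z hz
  classical
  set m := D.sl i y0 z with hm
  have hmi : D.Φ m i = z := D.Φ_sl_self i y0 z
  let e' : (j : Fin 3) → Chart (D.d j) (D.Y j) :=
    Function.update (fun j => chartAt (Cm (D.d j)) (D.Φ m j)) i ei
  have he'i : e' i = ei := Function.update_self ..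
  have h' : ∀ j, At (e' j) (D.Φ m j) := by
    intro j
    by_cases hj : j = i
    · subst hj; rw [he'i, hmi]; exact hz
    · have : e' j = chartAt (Cm (D.d j)) (D.Φ m j) := Function.update_of_ne hj ..
      rw [this]; exact at_chartAt _
  have h1 := D.ric_fac hP hg y0 i (at_chartAt m) h'
  rw [he'i, hmi] at h1
  rw [h1]
  have h2 := hr _ _ (at_chartAt (n := n) m)
  have h3 : (D.L i (chartAt (Cm n) m) ei m).transpose =
      ((D.L i (chartAt (Cm n) m) ei m).map (starRingEnd ℂ)).conjTranspose := by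
    ext i j
    simp [Matrix.conjTranspose_apply]
  rw [h3]
  exact h2.conjTranspose_mul_mul_same _

include hP hg in
lemma ric_zero [Nonempty M] (i : Fin 3) (hk : RicKills g (P i)) : RicZero (D.wY g y0 i) := by
  intro ei z hz
  classical
  set m := D.sl i y0 z with hm
  have hmi : D.Φ m i = z := D.Φ_sl_self i y0 z
  let e' : (j : Fin 3) → Chart (D.d j) (D.Y j) :=
    Function.update (fun j => chartAt (Cm (D.d j)) (D.Φ m j)) i ei
  have he'i : e' i = ei := Function.update_self ..
  have h' : ∀ j, At (e' j) (D.Φ m j) := by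
    intro j
    by_cases hj : j = i
    · subst hj; rw [he'i, hmi]; exact hz
    · have : e' j = chartAt (Cm (D.d j)) (D.Φ m j) := Function.update_of_ne hj ..
      rw [this]; exact at_chartAt _
  have hat := at_chartAt (n := n) m
  have h1 := D.ric_fac hP hg y0 i hat h'
  have h2 := D.PL_self i hat (h' i)
  rw [← h2, Matrix.transpose_mul, Matrix.mul_assoc (D.L i (chartAt (Cm n) m) (e' i) m).transpose,
    hk _ _ hat, Matrix.mul_zero, Matrix.zero_mul, he'i, hmi] at h1
  exact h1

end Prd

end Vale.Agent.P299.H956
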