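import Vale.Agent.P299.H956.D1.Desc

/-! The splitting of the tangent bundle defined by the maximal projections. -/

open scoped Manifold ContDiff ComplexOrder Topology Matrix
open Complex Vale.Agent.P272.K Vale.Agent.P299.D Vale.Agent.P278.H837

set_option linter.all false

noncomputable section

namespace Vale.Agent.P299.H956

section
variable {n : ℕ} {X : Type*} [TopologicalSpace X] [ChartedSpace (Cm n) X]
  {w : FormM n X} {k : ℕ} {Q : Fin k → FormM n X}

lemma PDec.parS (h : PDec w Q) (s : Finset (Fin k)) : ParEnd w (fun e z => ∑ i ∈ s, Q i e z) := by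
  classical
  induction s using Finset.induction_on with
  | empty => simpa using ParEnd.zero
  | insert a s ha ih =>
    simp only [Finset.sum_insert ha]
    exact (h.par a).add ih

lemma PDec.mulS (h : PDec w Q) (s : Finset (Fin k)) {e : Chart n X} {x : X} (hx : At e x)
    (i : Fin k) : (∑ j ∈ s, Q j e (e x)) * Q i e (e x) = if i ∈ s then Q i e (e x) else 0 := by
  classical
  rw [Finset.sum_mul]
  have h1 : ∀ j ∈ s, Q j e (e x) * Q i e (e x) = if j = i then Q i e (e x) else 0 := by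
    intro j _
    split_ifs with hji
    · subst hji; exact h.idem j e x hx
    · exact h.orth j i hji e x hx
  rw [Finset.sum_congr rfl h1, Finset.sum_ite_eq']

lemma PDec.mulS' (h : PDec w Q) (s : Finset (Fin k)) {e : Chart n X} {x : X} (hx : At e x)
    (i : Fin k) : Q i e (e x) * (∑ j ∈ s, Q j e (e x)) = if i ∈ s then Q i e (e x) else 0 := by
  classical
  rw [Finset.mul_sum]
  have h1 : ∀ j ∈ s, Q i e (e x) * Q j e (e x) = if j = i then Q i e (e x) else 0 := by
    intro j _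
    split_ifs with hji
    · subst hji; exact h.idem j e x hx
    · exact h.orth i j (Ne.symm hji) e x hx
  rw [Finset.sum_congr rfl h1, Finset.sum_ite_eq']

lemma PDec.idemS (h : PDec w Q) (s : Finset (Fin k)) :
    IsProjF (fun e z => ∑ i ∈ s, Q i e z) := by
  classical
  intro e x hx
  show (∑ i ∈ s, Q i e (e x)) * (∑ i ∈ s, Q i e (e x)) = ∑ i ∈ s, Q i e (e x)
  conv_lhs => rw [Finset.mul_sum]
  refine Finset.sum_congr rfl fun i hi => ?_
  rw [h.mulS s hx i, if_pos hi]

variable [IsManifold 𝓘(ℂ, Cm n) ω X]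

omit [ChartedSpace (Cm n) X] [IsManifold 𝓘(ℂ, Cm n) ω X] in
lemma mv_fix {A B : Matrix (Fin n) (Fin n) ℂ} {u : Cm n} (hu : B.mulVec u = u) (h : A * B = B) :
    A.mulVec u = u := by
  rw [← hu, Matrix.mulVec_mulVec, h]

lemma PDec.iSup_eq (h : PDec w Q) (s : Finset (Fin k)) (x : X) :
    (⨆ i ∈ s, imDist (Q i) x) = imDist (fun e z => ∑ i ∈ s, Q i e z) x := by
  classical
  have hx := at_chartAt (n := n) x
  refine le_antisymm (iSup₂_le fun i hi u hu => ?_) fun u hu => ?_
  · rw [mem_imDist (h.idem i)] at hu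
    rw [mem_imDist (h.idemS s)]
    have h1 := h.mulS s hx i
    rw [if_pos hi] at h1
    exact mv_fix hu h1
  · rw [mem_imDist (h.idemS s)] at hu
    have key : ∀ (v : Cm n), (∑ j ∈ s, Q j (chartAt (Cm n) x) (chartAt (Cm n) x x)).mulVec v = v →
        v = ∑ j ∈ s, (Q j (chartAt (Cm n) x) (chartAt (Cm n) x x)).mulVec v := by
      intro v hv
      conv_lhs => rw [← hv]
      rw [Matrix.sum_mulVec]
    have h3 : (u : Cm n) = ∑ j ∈ s, (Q j (chartAt (Cm n) x) (chartAt (Cm n) x x)).mulVec (u : Cm n) :=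
      key u hu
    have h4 : (∑ j ∈ s, ((Q j (chartAt (Cm n) x) (chartAt (Cm n) x x)).mulVec (u : Cm n) :
        TangentSpace 𝓘(ℂ, Cm n) x)) ∈ ⨆ i ∈ s, imDist (Q i) x := by
      refine Submodule.sum_mem (M := TangentSpace 𝓘(ℂ, Cm n) x) _ fun i hi => ?_
      refine (le_iSup₂ (f := fun i (_ : i ∈ s) => imDist (Q i) x) i hi) ?_
      have key2 : ∀ (A : Matrix (Fin n) (Fin n) ℂ) (v : Cm n), A * A = A →
          A.mulVec (A.mulVec v) = A.mulVec v := by
        intro A v h; rw [Matrix.mulVec_mulVec, h]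
      exact (mem_range_proj (h.idem i _ x hx) _).2 (key2 _ _ (h.idem i _ x hx))
    have h5 : (∑ j ∈ s, ((Q j (chartAt (Cm n) x) (chartAt (Cm n) x x)).mulVec (u : Cm n) :
        TangentSpace 𝓘(ℂ, Cm n) x)) = u := h3.symm
    rwa [h5] at h4

/-- **the splitting** -/
theorem PDec.isSplitting (hw : IsKahler w) (h : PDec w Q) : IsSplitting (fun i => imDist (Q i)) where
  subbundle i := isSubbundle_imDist (h.par i).hol (h.idem i)
  integrable I := by
    classical
    have h1 : (fun x => ⨆ i ∈ I, imDist (Q i) x) =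
        imDist (fun e z => ∑ i ∈ I.toFinset, Q i e z) := by
      funext x
      rw [← h.iSup_eq]
      simp only [Set.mem_toFinset]
    rw [h1]
    exact isIntegrable_imDist hw (h.parS _) (h.idemS _)
  direct x := by
    classical
    rw [DirectSum.isInternal_submodule_iff_iSupIndep_and_iSup_eq_top]
    have hx := at_chartAt (n := n) x
    constructor
    · intro i
      have h1 : (⨆ j, ⨆ (_ : j ≠ i), imDist (Q j) x) = ⨆ j ∈ Finset.univ.erase i, imDist (Q j) x := by
        simp only [Finset.mem_erase, Finset.mem_univ, and_true]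
      rw [h1, h.iSup_eq, Submodule.disjoint_def]
      intro u hu hu2
      rw [mem_imDist (h.idem i)] at hu
      rw [mem_imDist (h.idemS _)] at hu2
      have h2 := h.mulS' (Finset.univ.erase i) hx i
      rw [if_neg (by simp)] at h2
      have key : ∀ (A B : Matrix (Fin n) (Fin n) ℂ) (v : Cm n), A.mulVec v = v → B.mulVec v = v →
          A * B = 0 → v = 0 := by
        intro A B v h1 h2 h3
        rw [← h1, ← h2, Matrix.mulVec_mulVec, h3, Matrix.zero_mulVec]
      exact key _ _ _ hu hu2 h2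
    · have h1 : (⨆ i, imDist (Q i) x) = ⨆ i ∈ (Finset.univ : Finset (Fin k)), imDist (Q i) x := by
        simp only [Finset.mem_univ, iSup_pos]
      rw [h1, h.iSup_eq, eq_top_iff]
      intro u _
      rw [mem_imDist (h.idemS _)]
      have key : ∀ (A : Matrix (Fin n) (Fin n) ℂ) (v : Cm n), A = 1 → A.mulVec v = v := by
        intro A v h; rw [h, Matrix.one_mulVec]
      exact key _ _ (h.sum _ x hx)

end

section
variable {n : ℕ} {M X : Type*} [TopologicalSpace M] [TopologicalSpace X]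
  [ChartedSpace (Cm n) M] [ChartedSpace (Cm n) X]
  [IsManifold 𝓘(ℂ, Cm n) ω M] [IsManifold 𝓘(ℂ, Cm n) ω X] {π : M → X} {w : FormM n X}

/-- deck transformations are isometries -/
lemma deck_iso (hl : IsLocalDiffeomorph 𝓘(ℂ, Cm n) 𝓘(ℂ, Cm n) ω π) (hw : IsForm w) (γ : Deck π) :
    ∀ (e : Chart n M) m, At e m →
      pullM (γ : M ≃ₜ M) (pullM π w : FormM n M) e (e m) = pullM π w e (e m) := by
  intro e m h
  rw [pullM_comp hw (contMDiff_deck hl γ) hl.contMDiff h]
  have h2 : (fun m => π ((γ : M ≃ₜ M) m)) = π := funext (deck_proj γ)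
  rw [h2]

lemma immersive_deck (hl : IsLocalDiffeomorph 𝓘(ℂ, Cm n) 𝓘(ℂ, Cm n) ω π) (γ : Deck π) :
    Immersive n n (γ : M ≃ₜ M) := by
  refine immersive_of_leftInverse (g := ((γ⁻¹ : Deck π) : M ≃ₜ M)) (contMDiff_deck hl γ)
    (contMDiff_deck hl γ⁻¹) fun m => ?_
  have h : (γ⁻¹ * γ : Deck π) = 1 := inv_mul_cancel γ
  have h2 := congrArg (fun δ : Deck π => (δ : M ≃ₜ M) m) h
  exact h2

lemma inv_of_absorb [PreconnectedSpace M] (hl : IsLocalDiffeomorph 𝓘(ℂ, Cm n) 𝓘(ℂ, Cm n) ω π)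
    (hw : IsHermitian w) {P : FormM n M} (hP : ParEnd (pullM π w) P) (hPP : IsProjF P)
    (h : ∀ γ : Deck π, ∀ e m, At e m → P e (e m) * pullE (γ : M ≃ₜ M) P e (e m) =
      pullE (γ : M ≃ₜ M) P e (e m)) : Inv π P := by
  intro γ e₁ e₂ m h₁ h₂
  have hγ := contMDiff_deck hl γ
  have hγi := immersive_deck hl γ
  have hg : IsHermitian (pullM π w : FormM n M) :=
    isHermitian_pullM hw hl.contMDiff (immersive_of_localDiffeo hl)
  set Q := pullE (γ : M ≃ₜ M) P with hQ
  have hQ1 : ParEnd (pullM π w) Q :=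
    parEnd_congr_metric (deck_iso hl hw.isForm γ) (pullE_par hg.isForm hP hγ hγi)
  have hQQ : IsProjF Q := pullE_proj hP.hol hPP hγ hγi
  have key : P e₁ (e₁ m) = Q e₁ (e₁ m) := by
    have hp := hg.posDef e₁ m h₁
    have h1 := h γ e₁ m h₁
    have h2 := SA.mul_eq_right_comm hp (hP.SA h₁) (hQ1.SA h₁) h1
    have h3 : (P e₁ (e₁ m) - Q e₁ (e₁ m)) * (P e₁ (e₁ m) - Q e₁ (e₁ m)) =
        P e₁ (e₁ m) - Q e₁ (e₁ m) := by
      rw [Matrix.sub_mul, Matrix.mul_sub, Matrix.mul_sub, h1, h2, hPP _ _ h₁, hQQ _ _ h₁]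
      abel
    have h4 : (P e₁ (e₁ m) - Q e₁ (e₁ m)).trace = 0 := by
      rw [Matrix.trace_sub, hQ, pullE_trace hP.hol hγ hγi h₁ h₂, sub_eq_zero]
      exact hP.trace_const hg h₁ h₂
    have h5 : P e₁ (e₁ m) - Q e₁ (e₁ m) = 0 := by
      refine ((hP.sub hQ1).SA h₁).eq_zero_of_trace hp ?_
      show ((P e₁ (e₁ m) - Q e₁ (e₁ m)) * (P e₁ (e₁ m) - Q e₁ (e₁ m))).trace = 0
      rw [h3, h4]
    exact sub_eq_zero.1 h5
  rw [key, hQ]
  exact pullE_rel hP.hol hγ hγi h₁ h₂

/-- the data of the three parallel projections on the covering -/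
theorem exists_three [PreconnectedSpace M] [Nonempty M]
    (hl : IsLocalDiffeomorph 𝓘(ℂ, Cm n) 𝓘(ℂ, Cm n) ω π) (hw : IsKahler w) :
    ∃ P : Fin 3 → FormM n M, PDec (pullM π w) P ∧ (∀ i, Inv π (P i)) ∧
      (∀ i, i ≠ 2 → RicKills (pullM π w) (P i)) ∧
      (∀ v, IsParVF (pullM π w) v → ∀ e x, At e x → (P 0 e (e x)).mulVec (v e (e x)) = v e (e x)) ∧
      (∀ e x, At e x → ∀ u, ∃ v, IsParVF (pullM π w) v ∧ v e (e x) = (P 0 e (e x)).mulVec u) ∧
      ∀ B : FormM n M, ParEnd (pullM π w) B → RicKills (pullM π w) B → ∀ e x, At e x →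
        P 2 e (e x) * B e (e x) = 0 := by
  have hi := immersive_of_localDiffeo hl
  have hg : IsKahler (pullM π w : FormM n M) := isKahler_pullM hw hl.contMDiff hi
  have hgh := hg.toIsHermitian
  obtain ⟨P0, p1, p2, p3, p4, p5⟩ := exists_P0 hg
  obtain ⟨Pm, m1, m2, m3, m4⟩ := exists_max hgh
  have hm0 : ∀ e x, At e x → Pm e (e x) * P0 e (e x) = P0 e (e x) := m4 P0 p1 p3
  have h0m : ∀ e x, At e x → P0 e (e x) * Pm e (e x) = P0 e (e x) := fun e x h =>
    SA.mul_eq_right_comm (hgh.posDef e x h) (m1.SA h) (p1.SA h) (hm0 e x h)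
  have invm : Inv π Pm := by
    refine inv_of_absorb hl hw.toIsHermitian m1 m2 fun γ => ?_
    refine m4 _ ?_ ?_
    · exact parEnd_congr_metric (deck_iso hl hw.isForm γ)
        (pullE_par hg.isForm m1 (contMDiff_deck hl γ) (immersive_deck hl γ))
    · exact ricKills_congr_metric (deck_iso hl hw.isForm γ)
        (pullE_ricKills hgh m1.hol m3 (contMDiff_deck hl γ) (immersive_deck hl γ))
  have inv0 : Inv π P0 := by
    refine inv_of_absorb hl hw.toIsHermitian p1 p2 fun γ e x h => ?_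
    have hγ := contMDiff_deck hl γ
    have hγi := immersive_deck hl γ
    have hc := at_chartAt (n := n) ((γ : M ≃ₜ M) x)
    have key : ∀ u : Cm n, (P0 e (e x) * pullE (γ : M ≃ₜ M) P0 e (e x)).mulVec u =
        (pullE (γ : M ≃ₜ M) P0 e (e x)).mulVec u := by
      intro u
      obtain ⟨v, hv, hv2⟩ := p5 _ _ hc ((jacF (γ : M ≃ₜ M) e
        (chartAt (Cm n) ((γ : M ≃ₜ M) x)) x).mulVec u)
      have h1 : (pullE (γ : M ≃ₜ M) P0 e (e x)).mulVec u = pullV (γ : M ≃ₜ M) v e (e x) := by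
        rw [pullE_eq p1.hol hγ hγi h hc, pullV_eq hv.toIsHolVF hγ hγi h hc, hv2,
          Matrix.mulVec_mulVec, Matrix.mulVec_mulVec]
      rw [← Matrix.mulVec_mulVec, h1]
      exact p4 _ (parVF_congr_metric (deck_iso hl hw.isForm γ) (pullV_par hg.isForm hv hγ hγi)) e x h
    ext i j
    have := congrFun (key (Pi.single j 1)) i
    simpa using this
  have inv2 : Inv π (fun e z => 1 - Pm e z) := by
    intro γ e₁ e₂ m h₁ h₂
    show _ * (1 - _) = (1 - _) * _
    rw [Matrix.mul_sub, Matrix.sub_mul, Matrix.mul_one, Matrix.one_mul, invm γ e₁ e₂ m h₁ h₂]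
  have inv1 : Inv π (fun e z => Pm e z - P0 e z) := by
    intro γ e₁ e₂ m h₁ h₂
    show _ * (_ - _) = (_ - _) * _
    rw [Matrix.mul_sub, Matrix.sub_mul, invm γ e₁ e₂ m h₁ h₂, inv0 γ e₁ e₂ m h₁ h₂]
  let P : Fin 3 → FormM n M := ![P0, fun e z => Pm e z - P0 e z, fun e z => 1 - Pm e z]
  refine ⟨P, ⟨?_, ?_, ?_, ?_⟩, ?_, ?_, p4, p5, ?_⟩
  · intro i
    fin_cases i
    · exact p1
    · exact m1.sub p1
    · exact ParEnd.one.sub m1
  · intro i
    fin_cases i
    · exact p2
    · intro e x h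
      show (Pm e (e x) - P0 e (e x)) * (Pm e (e x) - P0 e (e x)) = Pm e (e x) - P0 e (e x)
      rw [Matrix.sub_mul, Matrix.mul_sub, Matrix.mul_sub, m2 e x h, p2 e x h, hm0 e x h, h0m e x h]
      abel
    · intro e x h
      show (1 - Pm e (e x)) * (1 - Pm e (e x)) = 1 - Pm e (e x)
      rw [Matrix.sub_mul, Matrix.mul_sub, Matrix.mul_sub, Matrix.one_mul, Matrix.mul_one,
        Matrix.one_mul, m2 e x h]
      abel
  · intro i j hij e x h
    have a1 : P0 e (e x) * (Pm e (e x) - P0 e (e x)) = 0 := by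
      rw [Matrix.mul_sub, h0m e x h, p2 e x h, sub_self]
    have a2 : P0 e (e x) * (1 - Pm e (e x)) = 0 := by
      rw [Matrix.mul_sub, Matrix.mul_one, h0m e x h, sub_self]
    have a3 : (Pm e (e x) - P0 e (e x)) * P0 e (e x) = 0 := by
      rw [Matrix.sub_mul, hm0 e x h, p2 e x h, sub_self]
    have a4 : (Pm e (e x) - P0 e (e x)) * (1 - Pm e (e x)) = 0 := by
      rw [Matrix.mul_sub, Matrix.mul_one, Matrix.sub_mul, m2 e x h, h0m e x h]
      abel
    have a5 : (1 - Pm e (e x)) * P0 e (e x) = 0 := by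
      rw [Matrix.sub_mul, Matrix.one_mul, hm0 e x h, sub_self]
    have a6 : (1 - Pm e (e x)) * (Pm e (e x) - P0 e (e x)) = 0 := by
      rw [Matrix.sub_mul, Matrix.one_mul, Matrix.mul_sub, m2 e x h, hm0 e x h]
      abel
    fin_cases i <;> fin_cases j
    · exact absurd rfl hij
    · exact a1
    · exact a2
    · exact a3
    · exact absurd rfl hij
    · exact a4
    · exact a5
    · exact a6
    · exact absurd rfl hij
  · intro e x h
    rw [Fin.sum_univ_three]
    show P0 e (e x) + (Pm e (e x) - P0 e (e x)) + (1 - Pm e (e x)) = 1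
    abel
  · intro i
    fin_cases i
    · exact inv0
    · exact inv1
    · exact inv2
  · intro i hi
    fin_cases i
    · exact p3
    · intro e x h
      show (Pm e (e x) - P0 e (e x)).transpose * _ = 0
      rw [Matrix.transpose_sub, Matrix.sub_mul, m3 e x h, p3 e x h, sub_zero]
    · exact absurd rfl hi
  · intro B hB hBR e x h
    show (1 - Pm e (e x)) * B e (e x) = 0
    rw [Matrix.sub_mul, Matrix.one_mul, m4 B hB hBR e x h, sub_self]

end

end Vale.Agent.P299.H956
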